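import Vale.Agent.P150.Weak.YBound.Basic

/-!
The response error is small in operator norm, and the bound of the covariance norm for small `τ`.
-/

open MeasureTheory ProbabilityTheory Finset Real Filter
open scoped Topology

namespace Vale.Agent.P150.Weak.YB

open Gap

variable {m : ℕ}

lemma continuous_kbar (v : ℝ) (i : Fin (m + 1)) (a c e : Fin m) :
    Continuous fun q : Mat (m + 1) × Vec (m + 1) => kbar v i q.1 q.2 a c e := by
  have hk := continuous_cm3 (m := m) a c e
  have hp : ∀ r : Fin m → ℝ, Continuous fun q : Mat (m + 1) × Vec (m + 1) =>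
      (cm3 (Weak.sub i q.1) (subU i q.2 + fun k => v + √v * r k) a c e +
        cm3 (Weak.sub i q.1) (subU i q.2 - fun k => v + √v * r k) a c e) / 2 := fun r =>
    ((hk.comp (f := fun q : Mat (m + 1) × Vec (m + 1) =>
        (Weak.sub i q.1, subU i q.2 + fun k => v + √v * r k))
        (by unfold Weak.sub subU; fun_prop)).add
      (hk.comp (f := fun q : Mat (m + 1) × Vec (m + 1) =>
        (Weak.sub i q.1, subU i q.2 - fun k => v + √v * r k))
        (by unfold Weak.sub subU; fun_prop))).div_const 2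
  unfold kbar
  refine continuous_of_dominated (bound := fun _ => (8:ℝ)) (fun q => ?_)
    (fun q => ae_of_all _ fun r => ?_) (integrable_const _) (ae_of_all _ hp)
  · refine (Continuous.div_const ((hk.comp (f := fun r : Fin m → ℝ =>
      (Weak.sub i q.1, subU i q.2 + fun k => v + √v * r k)) (by fun_prop)).add
      (hk.comp (f := fun r : Fin m → ℝ =>
        (Weak.sub i q.1, subU i q.2 - fun k => v + √v * r k)) (by fun_prop))) 2).aestronglyMeasurable
  · have h1 := abs_le.1 (abs_cm3_le (Weak.sub i q.1) (subU i q.2 + fun k => v + √v * r k) a c e)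
    have h2 := abs_le.1 (abs_cm3_le (Weak.sub i q.1) (subU i q.2 - fun k => v + √v * r k) a c e)
    rw [Real.norm_eq_abs, abs_le]
    constructor <;> linarith

lemma abs_kbar_le (v : ℝ) (i : Fin (m + 1)) (J : Mat (m + 1)) (u : Vec (m + 1)) (a c e : Fin m) :
    |kbar v i J u a c e| ≤ 8 := by
  have h : ∀ f : (Fin m → ℝ) → ℝ, (∀ r, |f r| ≤ 8) → |∫ r, f r ∂gauss (Fin m)| ≤ 8 := fun f hf => by
    simpa using norm_integral_le_of_norm_le_const (μ := gauss (Fin m)) (f := f) (C := 8)
      (ae_of_all _ fun r => by simpa using hf r)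
  unfold kbar
  refine h _ fun r => ?_
  have h1 := abs_le.1 (abs_cm3_le (Weak.sub i J) (subU i u + fun k => v + √v * r k) a c e)
  have h2 := abs_le.1 (abs_cm3_le (Weak.sub i J) (subU i u - fun k => v + √v * r k) a c e)
  rw [abs_le]
  constructor <;> linarith

lemma gr_kbar (v : ℝ) (i : Fin (m + 1)) (a c e : Fin m) :
    Gr fun J u => kbar v i J u a c e :=
  Gr.of_le (continuous_kbar v i a c e) fun J u => abs_kbar_le v i J u a c e

lemma gr_chaosPart (b : ℝ) (n : ℕ) (i j : Fin (m + 1)) :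
    Gr fun J u => chaosPart b n J u i j := by
  refine (gr_mg i).mul ?_
  induction j using Fin.succAboveCases i with
  | x => simpa [chaosRow] using Gr.const (m := m + 1) 0
  | p a =>
    simp only [chaosRow, Fin.insertNth_apply_succAbove, rowOf]
    exact (Gr.sum fun c => Gr.sum fun e => (gr_kbar _ i a c e).mul
      (((Gr.entry i _).sub (Gr.const _)).mul ((Gr.entry i _).sub (Gr.const _)))).sub
      ((Gr.sum fun c => gr_kbar _ i a c c).const_mul _)

/-- Linear response holds in operator norm, in probability. -/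
theorem linP (b : ℝ) (hS : RespSoftSpec b) (hG : GramSpec b) (η Tm : ℝ) (hη : 0 < η) {d e : ℝ}
    (hd : 0 < d) (he : 0 < e) :
    ∃ N : ℕ, ∀ n : ℕ, ∀ τ : ℝ, N ≤ n → η ≤ τ → τ ≤ Tm →
      pPr b n n τ (fun J u => d < op (resid b n J u)) ≤ e := by
  obtain ⟨N₁, h₁⟩ := hS η Tm (e / 2 * (d / 2) ^ 2) 0 hη (by positivity)
  obtain ⟨N₂, h₂⟩ := hG η Tm (e / 2) (d / 2) 0 hη (by positivity) (by positivity)
  refine ⟨max N₁ (max N₂ 1), fun n τ hn hτ hτT => ?_⟩
  obtain ⟨m, rfl⟩ : ∃ m, n = m + 1 := ⟨n - 1, by omega⟩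
  have a1 := h₁ (m + 1) m τ hτ hτT (by omega) le_rfl le_rfl
  have a2 := h₂ (m + 1) m τ hτ hτT (by omega) le_rfl le_rfl
  set D := fun (J : Mat (m + 1)) (u : Vec (m + 1)) =>
    sq2 fun i j => resid b (m + 1) J u i j + chaosPart b (m + 1) J u i j
  have hD : Gr D := Gr.sum fun i => Gr.sum fun j =>
    ((gr_resid b (m + 1) i j).add (gr_chaosPart b (m + 1) i j)).pow 2
  have hM := mul_meas_ge_le_integral_of_nonneg (μ := gauss (Idx (m + 1)))
    (ae_of_all _ fun g => show 0 ≤ D (plJ (b ^ 2 / (m + 1 : ℕ)) g) (plU τ g) from sq2_nonneg _)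
    (hD.integrable' (b := b) (n := m + 1) (τ := τ)) ((d / 2) ^ 2)
  refine le_trans (measureReal_mono (s₂ := {g | (d / 2) ^ 2 ≤
      D (plJ (b ^ 2 / (m + 1 : ℕ)) g) (plU τ g)} ∪
    {g | d / 2 < op (chaosPart b (m + 1) (plJ (b ^ 2 / (m + 1 : ℕ)) g) (plU τ g))}) ?_)
    ((pPr_union_le _ _ (x := e / 2) ?_ a2).trans_eq (add_halves e))
  · intro g hg
    simp only [Set.mem_ofPred_eq, Set.mem_union] at hg ⊢
    set J := plJ (b ^ 2 / (m + 1 : ℕ)) g
    set u := plU τ g
    by_contra hc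
    simp only [not_or, not_le, not_lt] at hc
    have h1 : op (fun i j => resid b (m + 1) J u i j + chaosPart b (m + 1) J u i j) < d / 2 :=
      lt_of_pow_lt_pow_left₀ 2 (by positivity) ((op_sq_le_sq2 _).trans_lt hc.1)
    have h2 := op_add_le (fun i j => resid b (m + 1) J u i j + chaosPart b (m + 1) J u i j)
      (fun i j => -chaosPart b (m + 1) J u i j)
    simp only [add_neg_cancel_right, op_neg] at h2
    linarith [hc.2]
  · refine le_of_mul_le_mul_left (hM.trans (a1.trans_eq (mul_comm _ _))) (by positivity)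

lemma dt_hA'_lower {b δ a : ℝ} {n : ℕ} (hn : 0 < n) (J : Mat n) (u : Vec n)
    (hJ : op J ≤ 2 * b + δ) (hq : sq1 (mg J u) ≤ a * n) (v : Vec n) :
    (1 + b ^ 2 * (1 - a) - (2 * b + δ) - 2 * b ^ 2 * a) * sq1 v ≤
      dt v (mv (hA' b 0 n J u) v) := by
  have hn' : (0:ℝ) < n := Nat.cast_pos.2 hn
  have hv := sq1_nonneg v
  have hs : 1 - a ≤ sAvg n J u := by
    rw [sAvg, le_div_iff₀ hn']
    simp only [vw, sum_sub_distrib, sum_const, card_univ, Fintype.card_fin, nsmul_eq_mul, mul_one]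
    unfold sq1 at hq
    linarith
  have h1 : (1 + b ^ 2 * (1 - a)) * sq1 v ≤
      dt v (fun i => (1 / (vw J u i + 0) + b ^ 2 * sAvg n J u) * v i) := by
    simp only [sq1, dt, mul_sum, add_zero]
    refine sum_le_sum fun i _ => ?_
    have hw : 1 ≤ 1 / vw J u i := (one_le_div (vw_pos J u i)).2 (vw_le_one J u i)
    have := mul_le_mul_of_nonneg_left hs (sq_nonneg b)
    nlinarith [mul_le_mul_of_nonneg_right (add_le_add hw this) (sq_nonneg (v i))]
  have h2 : dt v (mv J v) ≤ (2 * b + δ) * sq1 v :=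
    (le_abs_self _).trans ((abs_dt_mv_self_le J v).trans (mul_le_mul_of_nonneg_right hJ hv))
  have h3 : 2 * (b ^ 2 / n) * (dt (mg J u) v * dt (mg J u) v) ≤ 2 * b ^ 2 * a * sq1 v := by
    have h := mul_self_le_mul_self (abs_nonneg _) (abs_dt_le (mg J u) v)
    rw [abs_mul_abs_self, mul_mul_mul_comm, mul_self_sqrt (sq1_nonneg _), mul_self_sqrt hv] at h
    refine (mul_le_mul_of_nonneg_left (h.trans (mul_le_mul_of_nonneg_right hq hv))
      (by positivity)).trans_eq ?_
    field_simp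
  rw [mv_hA', dt_sub_right, dt_smul_right, dt_comm v (mg J u), mv_hA,
    show (fun i => (1 / (vw J u i + 0) + b ^ 2 * sAvg n J u) * v i - mv J v i) =
      (fun i => (1 / (vw J u i + 0) + b ^ 2 * sAvg n J u) * v i) - mv J v from rfl, dt_sub_right]
  linarith

/-- The bounds of the covariance norm for small `τ`. -/
theorem smallTau (b : ℝ) (hb0 : 0 < b) (hb1 : b < 1) (hO : OverlapSpec b) (hJ : JSpec b)
    (hR : RespBoundSpec b) (hS : RespSoftSpec b) (hG : GramSpec b) :
    ∃ τ₀ : ℝ, 0 < τ₀ ∧ ∃ K C : ℝ, ∃ N : ℕ,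
      (∀ n : ℕ, ∀ τ : ℝ, N ≤ n → 0 ≤ τ → τ ≤ τ₀ → pEv b n n τ (fun J u => op (cm2 J u)) ≤ C) ∧
      ∀ τ : ℝ, 0 < τ → τ ≤ τ₀ →
        Tendsto (fun n : ℕ => pEv b n n τ fun J u => max (op (cm2 J u) - K) 0) atTop (𝓝 0) := by
  have hb : 0 < 1 - b := by linarith
  have hbb : 0 < 1 - b ^ 2 := by nlinarith
  set ε := (1 - b) ^ 2 / 16
  set τ₀ := (1 - b ^ 2) * ((1 - b) ^ 2 / 12) with hτ₀
  set c := (1 - b) ^ 2 / 2
  have hε : 0 < ε := by positivity
  have hc : 0 < c := by positivity
  obtain ⟨κo, Co, q, -, hq, -, hconc⟩ := hO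
  obtain ⟨C', c', hc', hconc⟩ := hconc ε hε
  obtain ⟨CJ, cJ, hcJ, hJ⟩ := hJ.1 ε hε
  obtain ⟨CR, hR⟩ := hR τ₀
  set P := fun n : ℕ => |C'| * exp (-(c' * n)) + |CJ| * exp (-(cJ * n)) with hPdef
  have hP : ∀ n : ℕ, ∀ τ : ℝ, 0 < n → 0 ≤ τ →
      (gauss (Idx n)).real ({g | ε * n ≤
          |sq1 (mg (plJ (b ^ 2 / n) g) (plU τ g)) - n * q n n τ|} ∪
        {g | 2 * b + ε < op (plJ (b ^ 2 / (n:ℝ)) g)}) ≤ P n := fun n τ hn hτ =>
    pPr_union_le _ _
      ((hconc n n τ hτ hn le_rfl).trans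
        (mul_le_mul_of_nonneg_right (le_abs_self _) (exp_pos _).le))
      ((hJ n n τ hn le_rfl).trans (mul_le_mul_of_nonneg_right (le_abs_self _) (exp_pos _).le))
  have hgood : ∀ n : ℕ, ∀ τ : ℝ, 0 < n → 0 ≤ τ → τ ≤ τ₀ → ∀ g : Idx n → ℝ,
      g ∉ ({g | ε * n ≤ |sq1 (mg (plJ (b ^ 2 / n) g) (plU τ g)) - n * q n n τ|} ∪
        {g | 2 * b + ε < op (plJ (b ^ 2 / (n:ℝ)) g)}) →
      op (cm2 (plJ (b ^ 2 / n) g) (plU τ g)) ≤
        2 / c * (1 + op (resid b n (plJ (b ^ 2 / n) g) (plU τ g)) +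
          (∑ i, epsV b n (plJ (b ^ 2 / n) g) (plU τ g) i ^ 4) / (c / 2) ^ 3) := by
    intro n τ hn hτ hτT g hg
    simp only [Set.mem_union, Set.mem_ofPred_eq, not_or, not_le, not_lt] at hg
    refine op_cov_le_of_pos hc hn _ _ fun v => le_trans ?_
      (dt_hA'_lower hn _ _ hg.2 (a := q n n τ + ε) (by linarith [(abs_lt.1 hg.1).2]) v)
    refine mul_le_mul_of_nonneg_right ?_ (sq1_nonneg v)
    have hq' : q n n τ ≤ (1 - b) ^ 2 / 12 := by
      refine (hq n n τ hτ hn le_rfl).2.2.1.trans ?_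
      rw [div_le_iff₀ hbb]
      linarith
    have ha : b ^ 2 * (q n n τ + ε) ≤ q n n τ + ε :=
      mul_le_of_le_one_left (by linarith [(hq n n τ hτ hn le_rfl).1]) (by linarith)
    simp only [c, ε] at *
    linarith
  have hbadle : ∀ n : ℕ, ∀ J : Mat n, ∀ u : Vec n, op (cm2 J u) ≤ 4 * (n:ℝ) := fun n J u => by
    refine (op_le_sqrt_sq2 _).trans ((sqrt_le_left (by positivity)).2 ?_)
    refine (sum_le_sum fun i _ => sum_le_sum (g := fun _ => (4:ℝ) ^ 2) fun j _ =>
      sq_le_sq' (abs_le.1 (abs_cm2_le J u i j)).1 (abs_le.1 (abs_cm2_le J u i j)).2).trans_eq ?_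
    simp
    ring
  have hnP : Tendsto (fun n : ℕ => 4 * (n:ℝ) * P n) atTop (𝓝 0) := by
    have key : ∀ a : ℝ, 0 < a → Tendsto (fun n : ℕ => (n:ℝ) * exp (-(a * n))) atTop (𝓝 0) := by
      intro a ha
      refine squeeze_zero' (Eventually.of_forall fun n => by positivity) ?_
        (tendsto_const_div_atTop_nhds_zero_nat (2 / a ^ 2))
      filter_upwards [eventually_ge_atTop 1] with n hn
      rw [le_div_iff₀ (Nat.cast_pos.2 hn)]
      linarith [sq_mul_exp_le ha (Nat.cast_nonneg (α := ℝ) n)]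
    have h := (((key c' hc').const_mul |C'|).add ((key cJ hcJ).const_mul |CJ|)).const_mul 4
    simp only [mul_zero, add_zero] at h
    exact h.congr fun n => by simp only [hPdef]; ring
  have hS4 : ∀ n : ℕ, ∀ τ : ℝ, 0 < n → 0 ≤ τ → τ ≤ τ₀ →
      pEv b n n τ (fun J u => ∑ i, epsV b n J u i ^ 4) ≤ (|CR| + 1) / (2 * n) := by
    intro n τ hn hτ hτT
    have hn' : (0:ℝ) < n := Nat.cast_pos.2 hn
    refine le_trans (integral_mono ((gr_sum_eps b n).integrable' (b := b) (n := n) (τ := τ))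
      (((((gr_sum_eps b n).pow 2).const_mul (n / 2 : ℝ)).add
        (Gr.const (1 / (2 * n : ℝ)))).integrable' (b := b) (n := n) (τ := τ))
      fun g => ?_) ?_
    · set x := ∑ i, epsV b n (plJ (b ^ 2 / n) g) (plU τ g) i ^ 4
      have e : (n:ℝ) / 2 * x ^ 2 + 1 / (2 * n) - x = ((n:ℝ) * x - 1) ^ 2 / (2 * n) := by
        field_simp; ring
      show x ≤ (n:ℝ) / 2 * x ^ 2 + 1 / (2 * n)
      linarith [div_nonneg (sq_nonneg ((n:ℝ) * x - 1)) (mul_nonneg zero_le_two hn'.le)]
    · refine (pEv_add' (((gr_sum_eps b n).pow 2).const_mul _) (Gr.const _)).trans_le ?_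
      rw [pEv_mul_left, pEv_const', add_div]
      refine add_le_add ((mul_le_mul_of_nonneg_left ((hR n n τ hτ hτT hn le_rfl).2.trans
        (div_le_div_of_nonneg_right (le_abs_self _) (sq_nonneg _))) (by positivity)).trans_eq ?_) le_rfl
      field_simp
  obtain ⟨N₀, hN₀⟩ := Metric.tendsto_atTop.1 hnP 1 one_pos
  refine ⟨τ₀, by positivity, 2 / c * (1 + 1),
    2 / c * (1 + (1 + |CR|) / 2 + (|CR| + 1) / (c / 2) ^ 3) + 1, max N₀ 1,
    fun n τ hn hτ hτT => ?_, fun τ hτ hτT => ?_⟩
  · have hn0 : 0 < n := by omega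
    have hop : ∀ (J : Mat n) (u : Vec n),
        op (resid b n J u) ≤ (1 + sq2 (resid b n J u)) / 2 := fun J u => by
      nlinarith [op_sq_le_sq2 (resid b n J u), sq_nonneg (op (resid b n J u) - 1)]
    refine (pEv_le_split (b := b) (n := n) (τ := τ) (F := fun J u => op (cm2 J u))
      (G := fun J u => 2 / c * (1 + (1 + sq2 (resid b n J u)) / 2 +
        (∑ i, epsV b n J u i ^ 4) / (c / 2) ^ 3)) (H := fun _ _ => (0:ℝ))
      (fun J u => op_nonneg _) ?_ (Gr.const 0) (fun J u => ?_) (hP n τ hn0 hτ) (fun g hg => ?_)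
      (c := 4 * (n:ℝ)) (by positivity) (fun g => by simpa using hbadle n _ _)
      (fun _ _ => le_rfl)).trans ?_
    · simpa only [div_eq_inv_mul] using (((Gr.const (m := n) 1).add
        (((Gr.const 1).add (gr_sq2_resid b n)).const_mul (2:ℝ)⁻¹)).add
        ((gr_sum_eps b n).const_mul ((c / 2) ^ 3)⁻¹)).const_mul (c⁻¹ * 2)
    · have := sq2_nonneg (resid b n J u); have := sum_eps_nonneg b n J u; positivity
    · refine (hgood n τ hn0 hτ hτT g hg).trans (mul_le_mul_of_nonneg_left ?_ (by positivity))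
      linarith [hop (plJ (b ^ 2 / n) g) (plU τ g)]
    rw [pEv_const', add_zero]
    refine add_le_add ?_ ?_
    · rw [pEv_mul_left]
      refine mul_le_mul_of_nonneg_left ?_ (by positivity)
      simp only [div_eq_inv_mul]
      rw [pEv_add' ((Gr.const 1).add (((Gr.const 1).add (gr_sq2_resid b n)).const_mul _))
          ((gr_sum_eps b n).const_mul _),
        pEv_add' (Gr.const 1) (((Gr.const 1).add (gr_sq2_resid b n)).const_mul _),
        pEv_mul_left, pEv_mul_left, pEv_add' (Gr.const 1) (gr_sq2_resid b n), pEv_const']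
      have h1 := (hR n n τ hτ hτT hn0 le_rfl).1.trans (le_abs_self CR)
      have h2 : pEv b n n τ (fun J u => ∑ i, epsV b n J u i ^ 4) ≤ |CR| + 1 :=
        (hS4 n τ hn0 hτ hτT).trans (div_le_self (by positivity)
          (by linarith [(Nat.one_le_cast (α := ℝ)).2 hn0]))
      gcongr
    · have := hN₀ n (by omega)
      rw [Real.dist_eq, sub_zero] at this
      exact ((le_abs_self _).trans this.le)
  · refine Metric.tendsto_atTop.2 fun e he => ?_
    set t := e * c / (4 * (|CR| + 1)) with ht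
    have ht0 : 0 < t := by positivity
    obtain ⟨N₁, h₁⟩ := linP b hS hG τ τ hτ (d := 1) (e := t * c * e / 4) one_pos (by positivity)
    obtain ⟨N₂, h₂⟩ := Metric.tendsto_atTop.1 (hnP.add (((tendsto_const_div_atTop_nhds_zero_nat
      ((|CR| + 1) / 2)).const_mul (2 / c / (c / 2) ^ 3)))) (e / 4) (by positivity)
    refine ⟨max (max N₁ N₂) 1, fun n hn => ?_⟩
    have hn0 : 0 < n := by omega
    have hp := hP n τ hn0 hτ.le
    have hl := h₁ n τ (by omega) le_rfl le_rfl
    set S := toMeasurable (gauss (Idx n))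
      {g | 1 < op (resid b n (plJ (b ^ 2 / (n:ℝ)) g) (plU τ g))}
    set S' := toMeasurable (gauss (Idx n))
      ({g | ε * n ≤ |sq1 (mg (plJ (b ^ 2 / n) g) (plU τ g)) - n * q n n τ|} ∪
        {g | 2 * b + ε < op (plJ (b ^ 2 / (n:ℝ)) g)})
    have hreal : (gauss (Idx n)).real S ≤ t * c * e / 4 := by
      rwa [measureReal_def, measure_toMeasurable, ← measureReal_def]
    have hreal' : (gauss (Idx n)).real S' ≤ P n := by
      rwa [measureReal_def, measure_toMeasurable, ← measureReal_def]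
    have hI : Integrable (S.indicator fun _ : Idx n → ℝ => 1 / (c * t)) (gauss (Idx n)) :=
      (integrable_const _).indicator (measurableSet_toMeasurable _ _)
    have hI' : Integrable (S'.indicator fun _ : Idx n → ℝ => 4 * (n:ℝ)) (gauss (Idx n)) :=
      (integrable_const _).indicator (measurableSet_toMeasurable _ _)
    have hA : Gr fun (J : Mat n) u => t / c * sq2 (resid b n J u) +
        2 / c / (c / 2) ^ 3 * ∑ i, epsV b n J u i ^ 4 :=
      ((gr_sq2_resid b n).const_mul _).add ((gr_sum_eps b n).const_mul _)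
    have hle : pEv b n n τ (fun J u => max (op (cm2 J u) - 2 / c * (1 + 1)) 0) ≤
        ∫ g, (t / c * sq2 (resid b n (plJ (b ^ 2 / (n:ℝ)) g) (plU τ g)) +
          2 / c / (c / 2) ^ 3 * ∑ i, epsV b n (plJ (b ^ 2 / (n:ℝ)) g) (plU τ g) i ^ 4) +
          (S.indicator (fun _ => 1 / (c * t)) g + S'.indicator (fun _ => 4 * (n:ℝ)) g)
          ∂gauss (Idx n) := by
      refine integral_mono_of_nonneg (ae_of_all _ fun g => le_max_right _ _)
        (hA.integrable'.add (hI.add hI')) (ae_of_all _ fun g => ?_)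
      have h0 := sq2_nonneg (resid b n (plJ (b ^ 2 / n) g) (plU τ g))
      have h0' := sum_eps_nonneg b n (plJ (b ^ 2 / n) g) (plU τ g)
      have hi : 0 ≤ S.indicator (fun _ => 1 / (c * t)) g :=
        Set.indicator_nonneg (fun _ _ => by positivity) g
      refine max_le ?_ (add_nonneg (by positivity) (add_nonneg hi
        (Set.indicator_nonneg (fun _ _ => by positivity) g)))
      dsimp only [Pi.add_apply]
      by_cases hg' : g ∈ S'
      · rw [Set.indicator_of_mem hg']
        have := hbadle n (plJ (b ^ 2 / n) g) (plU τ g)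
        have : 0 ≤ t / c * sq2 (resid b n (plJ (b ^ 2 / n) g) (plU τ g)) +
          2 / c / (c / 2) ^ 3 * ∑ i, epsV b n (plJ (b ^ 2 / n) g) (plU τ g) i ^ 4 := by positivity
        have : (0:ℝ) ≤ 2 / c * (1 + 1) := by positivity
        linarith
      rw [Set.indicator_of_notMem hg', add_zero]
      have hg := hgood n τ hn0 hτ.le hτT g fun h => hg' (subset_toMeasurable _ _ h)
      rw [mul_add (2 / c), mul_add (2 / c) 1 (op _), ← mul_comm_div (2 / c)] at hg
      rw [mul_add (2 / c), mul_one]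
      rw [mul_one] at hg
      by_cases hgS : g ∈ S
      · rw [Set.indicator_of_mem hgS]
        set R := op (resid b n (plJ (b ^ 2 / n) g) (plU τ g))
        have hR2 : R ^ 2 ≤ sq2 (resid b n (plJ (b ^ 2 / n) g) (plU τ g)) := op_sq_le_sq2 _
        have e : t / c * R ^ 2 + 1 / (c * t) - 2 / c * R = (t * R - 1) ^ 2 / (c * t) := by
          field_simp; ring
        have := div_nonneg (sq_nonneg (t * R - 1)) (mul_nonneg hc.le ht0.le)
        have := mul_le_mul_of_nonneg_left hR2 (by positivity : 0 ≤ t / c)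
        have : (0:ℝ) ≤ 2 / c := by positivity
        linarith
      · rw [Set.indicator_of_notMem hgS, add_zero]
        have hR1 : op (resid b n (plJ (b ^ 2 / n) g) (plU τ g)) ≤ 1 :=
          not_lt.1 fun h => hgS (subset_toMeasurable _ _ h)
        have := mul_le_mul_of_nonneg_left hR1 (by positivity : 0 ≤ 2 / c)
        have : 0 ≤ t / c * sq2 (resid b n (plJ (b ^ 2 / n) g) (plU τ g)) := by positivity
        linarith
    have hsum : pEv b n n τ (fun J u => max (op (cm2 J u) - 2 / c * (1 + 1)) 0) ≤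
        t / c * |CR| + 2 / c / (c / 2) ^ 3 * ((|CR| + 1) / (2 * n)) +
          (1 / (c * t) * (t * c * e / 4) + 4 * (n:ℝ) * P n) := by
      refine hle.trans ?_
      refine (integral_add hA.integrable' (g := fun g => S.indicator (fun _ => 1 / (c * t)) g +
        S'.indicator (fun _ => 4 * (n:ℝ)) g) (hI.add hI')).trans_le ?_
      rw [integral_add hI hI', integral_indicator_const _ (measurableSet_toMeasurable _ _),
        integral_indicator_const _ (measurableSet_toMeasurable _ _), smul_eq_mul, smul_eq_mul,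
        mul_comm ((gauss (Idx n)).real S), mul_comm ((gauss (Idx n)).real S')]
      refine add_le_add ?_ (add_le_add (mul_le_mul_of_nonneg_left hreal (by positivity))
        (mul_le_mul_of_nonneg_left hreal' (by positivity)))
      refine (pEv_add' ((gr_sq2_resid b n).const_mul _)
        ((gr_sum_eps b n).const_mul _)).trans_le ?_
      rw [pEv_mul_left, pEv_mul_left]
      exact add_le_add (mul_le_mul_of_nonneg_left ((hR n n τ hτ.le hτT hn0 le_rfl).1.trans
        (le_abs_self _)) (by positivity))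
        (mul_le_mul_of_nonneg_left (hS4 n τ hn0 hτ.le hτT) (by positivity))
    have h3 := (abs_lt.1 (show |(4 * (n:ℝ) * P n + 2 / c / (c / 2) ^ 3 *
        ((|CR| + 1) / 2 / n)) - (0 + 2 / c / (c / 2) ^ 3 * 0)| < e / 4 from h₂ n (by omega))).2
    have h4 : t / c * |CR| ≤ e / 4 := by
      have : t / c * (|CR| + 1) = e / 4 := by rw [ht]; field_simp
      have : (0:ℝ) ≤ t / c := by positivity
      linarith
    have h5 : 1 / (c * t) * (t * c * e / 4) = e / 4 := by field_simp
    rw [div_div (|CR| + 1)] at h3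
    rw [Real.dist_eq, sub_zero, abs_of_nonneg (show 0 ≤ pEv b n n τ _ from
      integral_nonneg fun g => le_max_right _ _)]
    linarith

end Vale.Agent.P150.Weak.YB
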