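import Vale.Agent.P150.Weak.YBound.Tight
import Vale.Agent.P150.Weak.YBound.Small

/-!
The covariance norm exceeds a constant only negligibly: `YSpec`, from the bound for small `τ` and
the tightness of the longitudinal susceptibility for `τ` away from zero.
-/

open MeasureTheory ProbabilityTheory Finset Real Filter
open scoped Topology

namespace Vale.Agent.P150.Weak.YB

open Gap

variable {m : ℕ}

private lemma continuous_op_cm2 :
    Continuous fun q : Mat m × Vec m => op (cm2 q.1 q.2) :=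
  continuous_op.comp (f := fun q : Mat m × Vec m => cm2 q.1 q.2)
    (continuous_pi fun i => continuous_pi fun j => continuous_cm2 i j)

private lemma gr_op_cm2_sq : Gr fun (J : Mat m) u => op (cm2 J u) ^ 2 :=
  gr_sq2_cm2.mono (continuous_op_cm2.pow 2) fun J u => by
    rw [abs_of_nonneg (sq_nonneg _), abs_of_nonneg (sq2_nonneg _)]
    exact op_sq_le_sq2 _

private lemma gr_op_cm2 : Gr fun (J : Mat m) u => op (cm2 J u) := by
  refine ((Gr.const 1).add gr_op_cm2_sq).mono continuous_op_cm2 fun J u => ?_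
  have h0 := op_nonneg (cm2 J u)
  rw [abs_of_nonneg h0, abs_of_nonneg (by positivity)]
  nlinarith [sq_nonneg (op (cm2 J u) - 1)]

/-- The bound of the covariance norm on the good event away from `τ = 0`. -/
private noncomputable def kHigh (b η Kx : ℝ) : ℝ :=
  4 / kap b * (1 + 1 + 1 / (kap b / 4) ^ 3) +
    max Kx 0 * (4 / kap b * (3 + 2 * b ^ 2) + 8 / kap b ^ 2 * (1 / η + b ^ 2 + 3) ^ 2 + 2)

private lemma op_le_kHigh {b η Kx : ℝ} {n : ℕ} (hb0 : 0 < b) (hb1 : b < 1) (hη : 0 < η)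
    (hn : 0 < n) {J : Mat n} (hJ : IsCoupling J) {u : Vec n} (hne : 0 < sq1 (mg J u))
    (hH : ∀ v : Vec n, ∑ i, v i * mg J u i = 0 →
      kap b * sq1 v ≤ ∑ i, ∑ j, hA b η n J u i j * v i * v j)
    (hop : op J ≤ 3) (hres : op (resid b n J u) ≤ 1) (heps : ∑ i, epsV b n J u i ^ 4 ≤ 1)
    (hxe : xe J u ≤ Kx) : op (cm2 J u) ≤ kHigh b η Kx := by
  have hκ : 0 < kap b := by
    unfold kap
    have : 0 < 1 - b ^ 2 := by nlinarith
    positivity
  refine (op_cov_le hη hκ hn le_rfl hJ u hne hH).trans (add_le_add ?_ ?_)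
  · gcongr
  · have := op_nonneg J
    refine mul_le_mul (hxe.trans (le_max_left _ _)) ?_ (by positivity) (le_max_right _ _)
    gcongr

/-- Where the covariance norm is at most a constant off a negligible event, it exceeds the constant
only negligibly. -/
private lemma tendsto_excess {b τ K CY : ℝ} (hK : 0 ≤ K) {N : ℕ}
    (hY : ∀ n, N ≤ n → pEv b n n τ (fun J u => op (cm2 J u) ^ 2) ≤ CY)
    {S : ∀ n : ℕ, Set (Idx n → ℝ)}
    (hS : Tendsto (fun n => (gauss (Idx n)).real (S n)) atTop (𝓝 0))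
    (hgood : ∀ n, N ≤ n → ∀ g : Idx n → ℝ, g ∉ S n →
      op (cm2 (plJ (b ^ 2 / n) g) (plU τ g)) ≤ K) :
    Tendsto (fun n : ℕ => pEv b n n τ fun J u => max (op (cm2 J u) - K) 0) atTop (𝓝 0) := by
  refine Metric.tendsto_atTop.2 fun e he => ?_
  set δ := e / (2 * (|CY| + 1)) with hδ'
  have hδ : 0 < δ := by positivity
  obtain ⟨N₁, h₁⟩ := Metric.tendsto_atTop.1 hS (2 * δ * e) (by positivity)
  refine ⟨max N N₁, fun n hn => ?_⟩
  have hP : (gauss (Idx n)).real (S n) ≤ 2 * δ * e := by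
    have := h₁ n (by omega)
    rw [Real.dist_eq, sub_zero] at this
    exact (le_abs_self _).trans this.le
  rw [Real.dist_eq, sub_zero, abs_of_nonneg (show 0 ≤ pEv b n n τ _ from
    integral_nonneg fun g => le_max_right _ _)]
  refine lt_of_le_of_lt (pEv_le_split (b := b) (n := n) (τ := τ)
    (F := fun J u => max (op (cm2 J u) - K) 0) (G := fun _ _ => (0:ℝ))
    (H := fun J u => δ * op (cm2 J u) ^ 2) (fun _ _ => le_max_right _ _) (Gr.const 0)
    (gr_op_cm2_sq.const_mul δ) (fun _ _ => le_rfl) hP (fun g hg => ?_) (c := 1 / (4 * δ))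
    (by positivity) (fun g => ?_) (fun J u => by positivity)) ?_
  · exact max_le (sub_nonpos.2 (hgood n (by omega) g hg)) le_rfl
  · refine max_le ?_ (by positivity)
    set x := op (cm2 (plJ (b ^ 2 / (n:ℝ)) g) (plU τ g))
    have h : δ * x ^ 2 + 1 / (4 * δ) - x = (2 * δ * x - 1) ^ 2 / (4 * δ) := by
      field_simp; ring
    have : 0 ≤ (2 * δ * x - 1) ^ 2 / (4 * δ) := by positivity
    linarith
  · rw [pEv_const', zero_add, pEv_mul_left]
    have h1 : δ * pEv b n n τ (fun J u => op (cm2 J u) ^ 2) ≤ δ * |CY| :=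
      mul_le_mul_of_nonneg_left ((hY n (by omega)).trans (le_abs_self _)) hδ.le
    have h2 : δ * (|CY| + 1) = e / 2 := by rw [hδ']; field_simp
    have h3 : 1 / (4 * δ) * (2 * δ * e) = e / 2 := by field_simp; ring
    linarith

/-- `YSpec` from the tightness of the longitudinal susceptibility and the other specifications. -/
theorem ySpec_of (b : ℝ) (hb0 : 0 < b) (hb1 : b < 1) (hO : OverlapSpec b) (hJ : JSpec b)
    (hH : HessSpec b) (hRB : RespBoundSpec b) (hRS : RespSoftSpec b) (hG : GramSpec b)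
    (hY : YTightSpec b)
    (hX : ∀ τ₀ Tm : ℝ, 0 < τ₀ → ∃ K : ℝ, ∀ τ : ℝ, τ₀ ≤ τ → τ ≤ Tm →
      Tendsto (fun n : ℕ => pPr b n n τ fun J u => K < xe J u) atTop (𝓝 0)) :
    YSpec b := by
  intro Tm
  obtain ⟨τ₀, hτ₀, K₀, C₀, N₀, hC₀, hT₀⟩ := smallTau b hb0 hb1 hO hJ hRB hRS hG
  obtain ⟨CY, NY, hCY⟩ := hY τ₀ Tm 0 hτ₀
  obtain ⟨η₀, hη₀, hH⟩ := hH
  obtain ⟨CH, hCH⟩ := hH η₀ hη₀ le_rfl τ₀ Tm 0 hτ₀
  obtain ⟨Kx, hKx⟩ := hX τ₀ Tm hτ₀
  obtain ⟨κo, Co, q, -, -, hq, hconc⟩ := hO
  obtain ⟨c, hc, hcq⟩ := hq τ₀ Tm hτ₀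
  obtain ⟨C', c', hc', hconc⟩ := hconc (c / 2) (by positivity)
  have hCY' : ∀ n τ, NY ≤ n → τ₀ ≤ τ → τ ≤ Tm →
      pEv b n n τ (fun J u => op (cm2 J u) ^ 2) ≤ CY := fun n τ hn h1 h2 =>
    hCY n n τ h1 h2 hn le_rfl (Nat.le_add_right n 0)
  set K₁ := max (kHigh b η₀ Kx) 0
  refine ⟨max K₀ K₁, max C₀ (1 + |CY|), max N₀ NY, fun n τ hn h0 hT => ?_, fun τ hτ hT => ?_⟩
  · rcases le_total τ τ₀ with h | h
    · exact (hC₀ n τ (by omega) h0 h).trans (le_max_left _ _)
    · refine le_trans ?_ (le_max_right _ _)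
      calc pEv b n n τ (fun J u => op (cm2 J u))
          ≤ pEv b n n τ (fun J u => 1 + op (cm2 J u) ^ 2) :=
            integral_mono gr_op_cm2.integrable' ((Gr.const 1).add gr_op_cm2_sq).integrable'
              fun g => by
                nlinarith [sq_nonneg (op (cm2 (plJ (b ^ 2 / (n:ℝ)) g) (plU τ g)) - 1),
                  op_nonneg (cm2 (plJ (b ^ 2 / (n:ℝ)) g) (plU τ g))]
        _ = 1 + pEv b n n τ (fun J u => op (cm2 J u) ^ 2) := by
            rw [pEv_add' (Gr.const 1) gr_op_cm2_sq, pEv_const']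
        _ ≤ 1 + |CY| := add_le_add le_rfl ((hCY' n τ (by omega) h hT).trans (le_abs_self _))
  · have hmono : ∀ K : ℝ, K ≤ max K₀ K₁ → ∀ n : ℕ,
        pEv b n n τ (fun J u => max (op (cm2 J u) - max K₀ K₁) 0) ≤
          pEv b n n τ (fun J u => max (op (cm2 J u) - K) 0) := fun K hK n => by
      refine integral_mono_of_nonneg (ae_of_all _ fun g => le_max_right _ _) ?_
        (ae_of_all _ fun g => max_le_max (sub_le_sub_left hK _) le_rfl)
      exact (Gr.mono (f := fun (J : Mat n) u => max (op (cm2 J u) - K) 0)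
        (gr_op_cm2.sub (Gr.const K))
        ((continuous_op_cm2.sub continuous_const).max continuous_const) fun J u => by
          rw [abs_of_nonneg (le_max_right _ _)]
          exact max_le (le_abs_self _) (abs_nonneg _)).integrable _ _
    rcases le_total τ τ₀ with h | h
    · exact squeeze_zero (fun n => integral_nonneg fun g => le_max_right _ _)
        (hmono K₀ (le_max_left _ _)) (hT₀ τ hτ h)
    refine squeeze_zero (fun n => integral_nonneg fun g => le_max_right _ _)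
      (hmono K₁ (le_max_right _ _)) ?_
    obtain ⟨CJ, cJ, hcJ, hJ'⟩ := hJ.1 (3 - 2 * b) (by linarith)
    obtain ⟨CR, hRB'⟩ := hRB τ
    let SH : ∀ n : ℕ, Set (Idx n → ℝ) := fun n =>
      {g | ¬ ∀ v : Vec n, ∑ i, v i * mg (plJ (b ^ 2 / n) g) (plU τ g) i = 0 →
        kap b * sq1 v ≤ ∑ i, ∑ j, hA b η₀ n (plJ (b ^ 2 / n) g) (plU τ g) i j * v i * v j}
    let SM : ∀ n : ℕ, Set (Idx n → ℝ) := fun n =>
      {g | c / 2 * n ≤ |sq1 (mg (plJ (b ^ 2 / n) g) (plU τ g)) - n * q n n τ|}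
    let SJ : ∀ n : ℕ, Set (Idx n → ℝ) := fun n => {g | 3 < op (plJ (b ^ 2 / (n:ℝ)) g)}
    let SR : ∀ n : ℕ, Set (Idx n → ℝ) := fun n =>
      {g | 1 < op (resid b n (plJ (b ^ 2 / n) g) (plU τ g))}
    let SE : ∀ n : ℕ, Set (Idx n → ℝ) := fun n =>
      {g | 1 < ∑ i, epsV b n (plJ (b ^ 2 / n) g) (plU τ g) i ^ 4}
    let SX : ∀ n : ℕ, Set (Idx n → ℝ) := fun n => {g | Kx < xe (plJ (b ^ 2 / n) g) (plU τ g)}
    have hn2 : ∀ C : ℝ, Tendsto (fun n : ℕ => C / (n:ℝ) ^ 2) atTop (𝓝 0) := fun C =>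
      Tendsto.const_div_atTop ((tendsto_pow_atTop two_ne_zero).comp tendsto_natCast_atTop_atTop) C
    have hexp : ∀ C k : ℝ, 0 < k → Tendsto (fun n : ℕ => C * exp (-(k * n))) atTop (𝓝 0) :=
      fun C k hk => by
        simpa using ((Real.tendsto_exp_neg_atTop_nhds_zero).comp
          (tendsto_natCast_atTop_atTop.const_mul_atTop hk)).const_mul C
    have lH : Tendsto (fun n => (gauss (Idx n)).real (SH n)) atTop (𝓝 0) := by
      refine squeeze_zero' (Eventually.of_forall fun _ => measureReal_nonneg) ?_ (hn2 CH)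
      filter_upwards [eventually_gt_atTop 0] with n hn
      exact hCH n n τ h hT hn le_rfl (Nat.le_add_right n 0)
    have lM : Tendsto (fun n => (gauss (Idx n)).real (SM n)) atTop (𝓝 0) := by
      refine squeeze_zero' (Eventually.of_forall fun _ => measureReal_nonneg) ?_ (hexp C' c' hc')
      filter_upwards [eventually_gt_atTop 0] with n hn
      exact hconc n n τ (hτ₀.le.trans h) hn le_rfl
    have lJ : Tendsto (fun n => (gauss (Idx n)).real (SJ n)) atTop (𝓝 0) := by
      refine squeeze_zero' (Eventually.of_forall fun _ => measureReal_nonneg) ?_ (hexp CJ cJ hcJ)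
      filter_upwards [eventually_gt_atTop 0] with n hn
      refine le_trans (measureReal_mono fun g hg => ?_) (hJ' n n τ hn le_rfl)
      simp only [SJ, Set.mem_ofPred_eq] at hg ⊢
      linarith
    have lR : Tendsto (fun n => (gauss (Idx n)).real (SR n)) atTop (𝓝 0) := by
      refine Metric.tendsto_atTop.2 fun e he => ?_
      obtain ⟨N, hN⟩ := linP b hRS hG τ τ hτ one_pos (half_pos he)
      refine ⟨N, fun n hn => ?_⟩
      rw [Real.dist_eq, sub_zero, abs_of_nonneg measureReal_nonneg]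
      exact (hN n τ hn le_rfl le_rfl).trans_lt (half_lt_self he)
    have lE : Tendsto (fun n => (gauss (Idx n)).real (SE n)) atTop (𝓝 0) := by
      refine squeeze_zero' (Eventually.of_forall fun _ => measureReal_nonneg) ?_ (hn2 CR)
      filter_upwards [eventually_gt_atTop 0] with n hn
      have hM := mul_meas_ge_le_integral_of_nonneg (μ := gauss (Idx n))
        (ae_of_all _ fun g => show 0 ≤
          (∑ i, epsV b n (plJ (b ^ 2 / n) g) (plU τ g) i ^ 4) ^ 2 from sq_nonneg _)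
        (((gr_sum_eps b n).pow 2).integrable' (b := b) (n := n) (τ := τ)) 1
      rw [one_mul] at hM
      refine le_trans (measureReal_mono fun g hg => ?_)
        (hM.trans (hRB' n n τ hτ.le le_rfl hn le_rfl).2)
      simp only [SE, Set.mem_ofPred_eq] at hg ⊢
      exact one_le_pow₀ hg.le
    have lX : Tendsto (fun n => (gauss (Idx n)).real (SX n)) atTop (𝓝 0) := hKx τ h hT
    refine tendsto_excess (S := fun n => (SH n ∪ SM n) ∪ ((SJ n ∪ SR n) ∪ (SE n ∪ SX n)))
      (le_max_right _ _) (N := max NY 1) (fun n hn => hCY' n τ (le_trans (le_max_left _ _) hn) h hT)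
      ?_ fun n hn g hg => ?_
    · exact squeeze_zero (fun _ => measureReal_nonneg)
        (fun n => pPr_union_le _ _ (pPr_union_le _ _ le_rfl le_rfl)
          (pPr_union_le _ _ (pPr_union_le _ _ le_rfl le_rfl) (pPr_union_le _ _ le_rfl le_rfl)))
        (by simpa using (lH.add lM).add ((lJ.add lR).add (lE.add lX)))
    · have hn0 : 0 < n := (le_max_right NY 1).trans hn
      simp only [SH, SM, SJ, SR, SE, SX, Set.mem_union, Set.mem_ofPred_eq, not_or, not_not,
        not_le, not_lt] at hg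
      obtain ⟨⟨g1, g2⟩, ⟨g3, g4⟩, g5, g6⟩ := hg
      refine (op_le_kHigh hb0 hb1 hη₀ hn0 (isCoupling_plJ _ g) ?_ g1 g3 g4 g5 g6).trans
        (le_max_left _ _)
      have hn' : (0:ℝ) < n := Nat.cast_pos.2 hn0
      have h1 := (abs_lt.1 g2).1
      have h2 := mul_le_mul_of_nonneg_left (hcq n n τ h hT hn0 le_rfl) hn'.le
      have h3 : 0 < c * (n:ℝ) := mul_pos hc hn'
      linarith

end Vale.Agent.P150.Weak.YB
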