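import Vale.Agent.P150.Weak.YBound.Conc

/-!
The longitudinal susceptibility is bounded in probability, uniformly on compact sets of positive
planted field strengths.
-/

open MeasureTheory ProbabilityTheory Finset Real Filter
open scoped Topology

namespace Vale.Agent.P150.Weak.YB

open Gap

/-- The consequences of the refined bounds at one sample of the good event. -/
lemma good_sample {b η c Q θ M h Γ C : ℝ} {n j : ℕ} {τ : ℝ} {g : Idx n → ℝ}
    (hΓ : Γ = pen0 b c Q + 2 * b ^ 2) (hC : 0 ≤ C) (hn : 0 < n) (hη : 0 < η) (hθ : 0 ≤ θ)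
    (hM : 0 ≤ M) (hθM : θ * (1 + M) ≤ h) (hηM : η * √M ≤ h ^ 2) (hh1 : h ≤ 1)
    (hρ : rho0 b η c Q ^ j ≤ θ)
    (hCr : ∀ η θ M h : ℝ, ∀ n m j : ℕ, ∀ J : Mat m, ∀ u : Vec m,
      0 < η → 0 ≤ θ → 0 ≤ M → θ * (1 + M) ≤ h → η * √M ≤ h ^ 2 → h ≤ 1 →
      0 < n → m ≤ n → IsCoupling J → Good0 b η c Q n J u →
      rho0 b η c Q ^ j ≤ θ → op (resid b n J u) ≤ θ → (∀ i, |epsV b n J u i| ≤ θ) →
      op (cm2 J u) ≤ M → sq1 (brk J u) ≤ M * n → ∑ i, brk J u i ^ 4 ≤ θ ^ 4 * (n : ℝ) ^ 2 →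
      let G := pen0 b c Q
      let p := pIt b η G (lam0 b η c Q) n j J u
      |(1 - (G + 2 * b ^ 2) * p) * (dt (mg J u) (vv J u) / n) - p| ≤ C * h ∧
        ∑ i, (yIt b η G (lam0 b η c Q) n j J u i / (vw J u i + η)) ^ 4 ≤ C * h ^ 4 * (n : ℝ) ^ 2)
    (h0 : g ∉ bad0 b η c Q θ τ n) (h1 : g ∉ bad1 b M τ n) :
    let J := jOf b n g
    let u := plU τ g
    let p := pIt b η (pen0 b c Q) (lam0 b η c Q) n j J u
    |(1 - Γ * p) * (dt (mg J u) (vv J u) / n) - p| ≤ C * h ∧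
      √(∑ i, (yIt b η (pen0 b c Q) (lam0 b η c Q) n j J u i / (vw J u i + η)) ^ 4) / n ≤
        √C * h ^ 2 := by
  simp only [bad0, bad1, Set.mem_ofPred_eq, not_not] at h0 h1
  obtain ⟨hgood, hres, heps, hbrk⟩ := h0
  obtain ⟨hY, hb2⟩ := h1
  have he : ∀ i, |epsV b n (jOf b n g) (plU τ g) i| ≤ θ := fun i => by
    refine abs_le_of_sq_le_sq ?_ hθ
    refine le_of_pow_le_pow_left₀ two_ne_zero (sq_nonneg θ) ?_
    rw [← pow_mul, ← pow_mul]
    exact le_trans (single_le_sum (f := fun i => epsV b n (jOf b n g) (plU τ g) i ^ 4)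
      (fun i _ => Even.pow_nonneg (by decide) _) (mem_univ i)) heps
  obtain ⟨k1, k2⟩ := hCr η θ M h n n j (jOf b n g) (plU τ g) hη hθ hM hθM hηM hh1 hn le_rfl
    (isCoupling_plJ _ g) hgood hρ hres he hY hb2 hbrk
  refine ⟨by rw [hΓ]; exact k1, ?_⟩
  rw [div_le_iff₀ (Nat.cast_pos.2 hn), Real.sqrt_le_iff]
  refine ⟨by positivity, k2.trans (le_of_eq ?_)⟩
  rw [mul_pow, mul_pow, sq_sqrt hC]
  ring

/-- The scalar step: `s a = p + err` with `s = 1 - Γ p`. -/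
lemma scalar_step {Γ p a e K A s₁ : ℝ} (hΓ : 0 < Γ) (ha : 0 ≤ a) (hA : 0 ≤ A)
    (hs₁ : s₁ = 1 / (2 * (1 + Γ * A))) (hK : K = 3 / (Γ * s₁))
    (hid : |(1 - Γ * p) * a - p| ≤ e) (he : Γ * e ≤ 1 / 2) :
    (1 - Γ * p < s₁ → A ≤ a) ∧ (s₁ / 2 ≤ 1 - Γ * p → a ≤ K) := by
  set s := 1 - Γ * p with hs
  have h1 := abs_le.1 hid
  have hlo : 1 / 2 ≤ s * (1 + Γ * a) := by
    have := mul_le_mul_of_nonneg_left h1.1 hΓ.le
    have e1 : s * (1 + Γ * a) = 1 + Γ * (s * a - p) := by rw [hs]; ring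
    linarith
  have hhi : s * (1 + Γ * a) ≤ 3 / 2 := by
    have := mul_le_mul_of_nonneg_left h1.2 hΓ.le
    have e1 : s * (1 + Γ * a) = 1 + Γ * (s * a - p) := by rw [hs]; ring
    linarith
  have hpos : 0 < 1 + Γ * A := by positivity
  have hpa : 0 < 1 + Γ * a := by positivity
  have hs₁0 : 0 < s₁ := by rw [hs₁]; positivity
  refine ⟨fun hlt => ?_, fun hge => ?_⟩
  · by_contra hc
    have h2 := mul_lt_mul_of_pos_right hlt hpa
    have h3 : s₁ * (1 + Γ * a) ≤ s₁ * (1 + Γ * A) :=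
      mul_le_mul_of_nonneg_left (by nlinarith) hs₁0.le
    have h4 : s₁ * (1 + Γ * A) = 1 / 2 := by rw [hs₁]; field_simp
    linarith
  · have h2 := mul_le_mul_of_nonneg_right hge hpa.le
    rw [hK, le_div_iff₀ (by positivity)]
    nlinarith

/-- A tail bound from two independent copies: `s = 1 - Γ p` cannot be far below its bulk. -/
lemma tail_of_copies {α : Type*} [MeasurableSpace α] {μ : Measure α} [IsProbabilityMeasure μ]
    {p a : α → ℝ} (hp : Integrable p μ) (hpm : Measurable p) {Γ s₁ A K R P₀ P₁ : ℝ} (hΓ : 0 < Γ)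
    (hs₁ : 0 < s₁) {S₀ S₁ T : Set α} (hS₀ : μ.real S₀ ≤ P₀) (hS₁ : μ.real S₁ ≤ P₁)
    (h₀ : P₀ ≤ 1 / 24) (h₁ : P₁ ≤ 1 / 12) (hA : μ.real {g | A ≤ a g} ≤ 1 / 8)
    (hkey : ∀ g, g ∉ S₀ → g ∉ S₁ →
      (1 - Γ * p g < s₁ → A ≤ a g) ∧ (s₁ / 2 ≤ 1 - Γ * p g → a g ≤ K))
    (hT : ∀ g, g ∉ S₀ → g ∉ S₁ → g ∈ T → K < a g)
    (hR : ∫ x, ∫ y, |p x - p y| ∂μ ∂μ ≤ 2 * R) :
    μ.real T ≤ P₀ + P₁ + 4 / 3 * (4 * Γ / s₁) * R := by
  set A₁ := {g | 1 - Γ * p g < s₁ / 2}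
  have hA₁m : MeasurableSet A₁ := measurableSet_lt (by fun_prop) measurable_const
  have hB₀m : MeasurableSet {g | 1 - Γ * p g < s₁} :=
    measurableSet_lt (by fun_prop) measurable_const
  have hlt : μ.real {g | 1 - Γ * p g < s₁} ≤ 1 / 4 := by
    refine (measureReal_mono (s₂ := S₀ ∪ S₁ ∪ {g | A ≤ a g}) fun g hg => ?_).trans
      ((measureReal_union_le _ _).trans ((add_le_add (measureReal_union_le _ _) hA).trans
        (by linarith)))
    by_cases g0 : g ∈ S₀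
    · exact Or.inl (Or.inl g0)
    by_cases g1 : g ∈ S₁
    · exact Or.inl (Or.inr g1)
    exact Or.inr ((hkey g g0 g1).1 hg)
  have hB : 3 / 4 ≤ μ.real {g | 1 - Γ * p g < s₁}ᶜ := by
    rw [probReal_compl_eq_one_sub hB₀m]
    linarith
  have htwo := two_copies hp hA₁m hB₀m.compl (d := s₁ / 2 / Γ) fun x hx y hy => by
    simp only [A₁, Set.mem_ofPred_eq, Set.mem_compl_iff, not_lt] at hx hy
    rw [div_le_iff₀ hΓ]
    calc s₁ / 2 ≤ Γ * (p x - p y) := by linarith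
      _ ≤ |p x - p y| * Γ := by
        rw [mul_comm]; exact mul_le_mul_of_nonneg_right (le_abs_self _) hΓ.le
  have hPA : μ.real A₁ ≤ 4 / 3 * (4 * Γ / s₁) * R := by
    have h7 := (mul_le_mul_of_nonneg_left hB
      (mul_nonneg (by positivity : 0 ≤ s₁ / 2 / Γ) measureReal_nonneg)).trans (htwo.trans hR)
    refine le_trans (le_of_eq ?_) ((mul_le_mul_of_nonneg_left h7
      (by positivity : 0 ≤ 4 / 3 * (2 * Γ / s₁))).trans (le_of_eq ?_))
    · field_simp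
    · ring
  refine (measureReal_mono (s₂ := S₀ ∪ S₁ ∪ A₁) fun g hg => ?_).trans
    ((measureReal_union_le _ _).trans (add_le_add
      ((measureReal_union_le _ _).trans (add_le_add hS₀ hS₁)) hPA))
  by_cases g0 : g ∈ S₀
  · exact Or.inl (Or.inl g0)
  by_cases g1 : g ∈ S₁
  · exact Or.inl (Or.inr g1)
  exact Or.inr (not_le.1 fun h => not_lt.2 ((hkey g g0 g1).2 h) (hT g g0 g1 hg))

/-- **The longitudinal susceptibility is tight.** -/
theorem xe_tight {b : ℝ} (h0 : 0 < b) (h1 : b < 1) (hO : OverlapSpec b) (hC : CrudeSpec b)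
    (hS : SliceSpec b) (hJ : JSpec b) (hR : RecSpec b) (hH : HessSpec b) (hRB : RespBoundSpec b)
    (hRS : RespSoftSpec b) (hG : GramSpec b) (hY : YTightSpec b) :
    ∀ τ₀ Tm : ℝ, 0 < τ₀ → ∃ K : ℝ, ∀ τ : ℝ, τ₀ ≤ τ → τ ≤ Tm →
      Tendsto (fun n : ℕ => pPr b n n τ fun J u => K < xe J u) atTop (𝓝 0) := by
  intro τ₀ Tm hτ₀
  obtain ⟨-, -, q, -, -, hlow, hconc⟩ := hO
  obtain ⟨cq, hcq, hlow⟩ := hlow τ₀ Tm hτ₀
  obtain ⟨C', c', hc', hconc⟩ := hconc (cq / 2) (half_pos hcq)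
  obtain ⟨Q, hQ, hqAvg⟩ := qAvg_tendsto h0 hS hY hR Tm
  obtain ⟨C0, hC0⟩ := hC 1
  set c := cq / 2 with hc_def
  have hc : 0 < c := half_pos hcq
  have hG0 := pen0_pos h0 h1 hc hQ
  set G := pen0 b c Q with hG_def
  set Γ := G + 2 * b ^ 2 with hΓ_def
  have hΓ : 0 < Γ := by positivity
  set A := 8 * |C0| + 1 with hA_def
  set s₁ := 1 / (2 * (1 + Γ * A)) with hs₁_def
  have hs₁ : 0 < s₁ := by positivity
  set Ka := 3 / (Γ * s₁) with hKa_def
  refine ⟨Ka / c, fun τ hτ hτT => ?_⟩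
  have hτ0 : 0 < τ := hτ₀.trans_le hτ
  refine tendsto_zero_of_ev_le (fun _ => measureReal_nonneg) fun e he => ?_
  obtain ⟨η₀, hη₀, hH⟩ := hH
  obtain ⟨Cg, hCg0, N₁, hCg⟩ := gradSize_mean h0 hY hR τ₀ Tm hτ₀
  obtain ⟨CM, hCM0, N₂, hCM⟩ := bad1_le hY hR τ₀ Tm hτ₀
  obtain ⟨Cr, hCr0, hCr⟩ := refined_bounds h0 h1 hc hQ
  set W := 4 / 3 * (4 * Γ / s₁) with hW_def
  have hW : 0 ≤ W := by positivity
  set ε := e / (8 * (W + 1) * (2 * Cg + 1)) with hε_def
  have hε : 0 < ε := by positivity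
  set c₁ := kA b c Q ^ 2 / (4 * ε) with hc₁_def
  have hc₁ : 0 ≤ c₁ := by positivity
  set M := max 1 (max (12 * CM) ((1 + W * c₁) * CM * 8 / e)) with hM_def
  have hM1 : 1 ≤ M := le_max_left _ _
  set h := min 1 (min (1 / (2 * Γ * Cr + 1)) (ε / (12 * (√Cr + 1)))) with hh_def
  have hh : 0 < h := by positivity
  have hh1 : h ≤ 1 := min_le_left _ _
  set η := min η₀ (h ^ 2 / √M) with hη_def
  have hη : 0 < η := lt_min hη₀ (by positivity)
  set θ := h / (1 + M) with hθ_def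
  have hθ : 0 < θ := by positivity
  obtain ⟨hρ0, hρ1⟩ := rho0_mem (b := b) h0 h1 hη hc hQ
  set ρ := rho0 b η c Q with hρ_def
  obtain ⟨j, hj1, hj2, hj3⟩ : ∃ j : ℕ, ρ ^ j ≤ θ ∧ kTail b η c Q * (j * ρ ^ (j - 1)) ≤ ε / 3 ∧
      kTail b η c Q * (j * ρ ^ (j - 1)) ≤ 1 := by
    have t1 : Tendsto (fun k : ℕ => ρ ^ (k + 1)) atTop (𝓝 0) :=
      (tendsto_pow_atTop_nhds_zero_of_lt_one hρ0 hρ1).comp (tendsto_add_atTop_nat 1)
    have t2 : Tendsto (fun k : ℕ => kTail b η c Q * (((k + 1 : ℕ) : ℝ) * ρ ^ k)) atTop (𝓝 0) := by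
      have := ((tendsto_self_mul_const_pow_of_lt_one hρ0 hρ1).add
        (tendsto_pow_atTop_nhds_zero_of_lt_one hρ0 hρ1)).const_mul (kTail b η c Q)
      simpa [add_mul] using this
    obtain ⟨k, hk1, hk2, hk3⟩ := ((t1.eventually_le_const hθ).and
      ((t2.eventually_le_const (div_pos hε three_pos)).and
        (t2.eventually_le_const one_pos))).exists
    exact ⟨k + 1, hk1, by simpa using hk2, by simpa using hk3⟩
  set ε' := e / (8 * (W + 1)) with hε'_def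
  have hε' : 0 < ε' := by positivity
  obtain ⟨Cη, CJ, hCη, hCJ, hmean⟩ := conc_mean h0 h1 hη hc hQ hJ j hε'
  set δ' := ε' / (CJ + 1) with hδ'_def
  have hδ' : 0 < δ' := by positivity
  set c₀ := (Cη ^ 2 / (4 * ε)) ^ 2 / (4 * δ') with hc₀_def
  have hc₀ : 0 ≤ c₀ := by positivity
  set P₀ := fun n => (gauss (Idx n)).real (bad0 b η c Q θ τ n)
  obtain ⟨CH, hCH⟩ := hH η hη (min_le_left _ _) τ₀ Tm 0 hτ₀
  have hP₀ : Tendsto P₀ atTop (𝓝 0) := by
    refine bad0_tendsto h0 h1 hθ hτ0 ?_ (hqAvg η τ hη hτ0 hτT) ?_ hJ hRB hRS hG hR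
    · refine squeeze_zero' (Eventually.of_forall fun _ => measureReal_nonneg) ?_
        (tendsto_exp_neg_mul_nat C' hc')
      filter_upwards [eventually_gt_atTop 0] with n hn
      refine le_trans (measureReal_mono fun g hg => ?_) (hconc n n τ hτ0.le hn le_rfl)
      simp only [Set.mem_ofPred_eq] at hg ⊢
      refine le_trans ?_ (neg_le_abs _)
      have := mul_le_mul_of_nonneg_left (hlow n n τ hτ hτT hn le_rfl) (Nat.cast_nonneg n)
      have e1 : sq1 (mg (plJ (b ^ 2 / n) g) (plU τ g)) < cq / 2 * n := hg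
      rw [hc_def]
      linarith
    · refine squeeze_zero' (Eventually.of_forall fun _ => measureReal_nonneg) ?_
        (tendsto_const_div_nat_sq CH)
      filter_upwards [eventually_gt_atTop 0] with n hn
      exact hCH n n τ hτ hτT hn le_rfl le_rfl
  have hsq : Tendsto (fun n : ℕ => √(n : ℝ)) atTop atTop :=
    Real.tendsto_sqrt_atTop.comp tendsto_natCast_atTop_atTop
  have hvt : Tendsto (fun n : ℕ => W * (4 * √(b ^ 2 / (n:ℝ)) * (Cη * CJ))) atTop (𝓝 0) := by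
    simpa using ((((tendsto_const_nhds (x := b ^ 2)).div_atTop
      tendsto_natCast_atTop_atTop).sqrt.const_mul 4).mul_const (Cη * CJ)).const_mul W
  filter_upwards [eventually_gt_atTop 0, eventually_ge_atTop (max N₁ N₂),
    hP₀.eventually_le_const (by norm_num : (0:ℝ) < 1 / 24),
    hP₀.eventually_le_const (by positivity : (0:ℝ) < e / (8 * (1 + W * c₀))),
    hvt.eventually_le_const (by positivity : (0:ℝ) < e / 8),
    ((tendsto_const_nhds (x := 2 * kY b + kF b c Q * kY b ^ 2)).div_atTop hsq).eventually_le_const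
      (div_pos hε three_pos)] with n hn hnN hp24 hp8 hv8 hn3
  have hn' : (0:ℝ) < n := Nat.cast_pos.2 hn
  set μ := gauss (Idx n)
  set S₀ := bad0 b η c Q θ τ n
  set S₁ := bad1 b M τ n
  have hP₁ : μ.real S₁ ≤ CM / M :=
    hCM n τ M ((le_max_right _ _).trans hnN) hτ hτT hM1
  have hM12 : CM / M ≤ 1 / 12 := by
    rw [div_le_iff₀ (by positivity)]
    linarith [(le_max_left _ _).trans (le_max_right (1:ℝ) (max (12 * CM) _)) |>.trans (le_of_eq
      hM_def.symm)]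
  set p : (Idx n → ℝ) → ℝ := fun g => pIt b η G (lam0 b η c Q) n j (jOf b n g) (plU τ g)
  set a : (Idx n → ℝ) → ℝ := fun g =>
    dt (mg (jOf b n g) (plU τ g)) (vv (jOf b n g) (plU τ g)) / n
  have ha : ∀ g, 0 ≤ a g := fun g => by
    refine div_nonneg ?_ hn'.le
    show 0 ≤ dt (mg _ _) (mv (cm2 _ _) (mg _ _))
    rw [dt_quad, cm2_quad]
    exact ev_nonneg fun x => sq_nonneg _
  have hΓe : Γ * (Cr * h) ≤ 1 / 2 := by
    have h2 : h ≤ 1 / (2 * Γ * Cr + 1) := (min_le_right _ _).trans (min_le_left _ _)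
    rw [le_div_iff₀ (by positivity)] at h2
    linarith
  have hθM : θ * (1 + M) ≤ h := le_of_eq (by rw [hθ_def]; field_simp)
  have hηM : η * √M ≤ h ^ 2 := (le_div_iff₀ (by positivity)).1 (min_le_right _ _)
  have hkey : ∀ g, g ∉ S₀ → g ∉ S₁ →
      ((1 - Γ * p g < s₁ → A ≤ a g) ∧ (s₁ / 2 ≤ 1 - Γ * p g → a g ≤ Ka)) ∧
        √(∑ i, (yIt b η G (lam0 b η c Q) n j (jOf b n g) (plU τ g) i /
          (vw (jOf b n g) (plU τ g) i + η)) ^ 4) / n ≤ √Cr * h ^ 2 := by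
    intro g g0 g1
    obtain ⟨k1, k2⟩ := good_sample (Γ := Γ) rfl hCr0.le hn hη hθ.le (by positivity) hθM hηM hh1 hj1
      hCr g0 g1
    exact ⟨scalar_step hΓ (ha g) (by positivity) rfl rfl k1 hΓe, k2⟩
  have hgood : ∀ g, g ∉ S₀ → Good0 b η c Q n (jOf b n g) (plU τ g) := fun g hg => by
    simp only [S₀, bad0, Set.mem_ofPred_eq, not_not] at hg
    exact hg.1
  have hsmall : ∀ g, g ∉ S₀ → g ∉ S₁ →
      √(sq1 (avec b η G (lam0 b η c Q) n j (jOf b n g) (plU τ g))) ≤ ε := by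
    intro g g0 g1
    refine ((avec_good (J := jOf b n g) h0 h1 hη hc hQ hn (isCoupling_plJ _ g) (hgood g g0) j).1).trans ?_
    have h3 : √Cr * h ^ 2 ≤ (√Cr + 1) * h :=
      mul_le_mul (by linarith) (pow_le_of_le_one hh.le hh1 two_ne_zero) (sq_nonneg h) (by positivity)
    have h4 : 12 * ((√Cr + 1) * h) ≤ ε := by
      have h2 : h ≤ ε / (12 * (√Cr + 1)) := (min_le_right _ _).trans (min_le_right _ _)
      rw [le_div_iff₀ (by positivity)] at h2
      linarith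
    have := (hkey g g0 g1).2
    simp only [← hG_def, ← hρ_def]
    linarith
  have hunif : ∀ g, g ∉ S₀ →
      √(sq1 (avec b η G (lam0 b η c Q) n j (jOf b n g) (plU τ g))) ≤ kA b c Q := by
    intro g g0
    obtain ⟨k1, k2⟩ := avec_good (J := jOf b n g) h0 h1 hη hc hQ hn (isCoupling_plJ _ g) (hgood g g0) j
    simp only [← hG_def, ← hρ_def] at k1 k2
    refine k1.trans ?_
    have hK0 : 0 ≤ 2 * kY b + kF b c Q * kY b ^ 2 := by
      have := kap_pos h0 h1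
      unfold kY kF
      positivity
    have h5 : (2 * kY b + kF b c Q * kY b ^ 2) / √(n:ℝ) ≤ 2 * kY b + kF b c Q * kY b ^ 2 :=
      div_le_self hK0 (Real.one_le_sqrt.2 (Nat.one_le_cast.2 hn))
    unfold kA
    linarith
  have hR' := hmean n τ (P₀ n) (CM / M) ε δ' Cg S₀ S₁ hn hτ0.le hε hδ'
    (by
      rw [hδ'_def, div_mul_eq_mul_div, div_le_iff₀ (by positivity)]
      exact mul_le_mul_of_nonneg_left (le_add_of_nonneg_right zero_le_one) hε'.le)
    (hCg n τ ((le_max_left _ _).trans hnN) hτ hτT) hgood hsmall hunif le_rfl hP₁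
  obtain ⟨hpi, -, -, hconc₂⟩ := conc_pIt (b := b) (G := G) h0 hη
    (lam0_pos h0 h1 hη hc hQ) hτ0.le hn (le_refl n) j
  have hpm : Measurable p :=
    ((pb_pIt hη G (lam0 b η c Q) n j).1.comp (f := fun g : Idx n → ℝ => (jOf b n g, plU τ g))
      (by unfold jOf; fun_prop)).measurable
  have ha8 : μ.real {g | A ≤ a g} ≤ 1 / 8 := by
    refine (pPr_lt_le (F := fun J (u : Vec n) => (∑ i, mg J u i * vv J u i))
      (pb_dt_mg_vv.integrable _ _) (fun J u _ => ?_) (by positivity : 0 < A * n)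
      fun g hg => (le_div_iff₀ hn').1 hg).trans ?_
    · show 0 ≤ dt (mg J u) (mv (cm2 J u) (mg J u))
      rw [dt_quad, cm2_quad]
      exact ev_nonneg fun x => sq_nonneg _
    · have := (hC0 n n τ hτ0.le hn le_rfl).2.2.2.2.2.2.2.2
      simp only [pow_one] at this
      rw [div_le_iff₀ (by positivity)]
      refine this.trans ((mul_le_mul_of_nonneg_right (le_abs_self C0) hn'.le).trans ?_)
      simp only [hA_def]
      linarith
  have hfin : μ.real {g | Ka / c < xe (plJ (b ^ 2 / n) g) (plU τ g)} ≤ P₀ n + CM / M +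
      W * (2 * ε * Cg + ε + ε' + 4 * √(b ^ 2 / n) * (Cη * CJ) + c₁ * (CM / M) + c₀ * P₀ n) := by
    refine (tail_of_copies (a := a) (K := Ka) hpi hpm hΓ hs₁ le_rfl hP₁ hp24 hM12 ha8
      (fun g g0 g1 => (hkey g g0 g1).1) (fun g g0 g1 hg => ?_)
      (hconc₂.trans (mul_le_mul_of_nonneg_left hR' zero_le_two))).trans (le_of_eq ?_)
    · have hm2 : c * n ≤ sq1 (mg (jOf b n g) (plU τ g)) := (hgood g g0).1
      have hle : xe (jOf b n g) (plU τ g) ≤ a g / c := by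
        rw [xe, div_div]
        refine div_le_div_of_nonneg_left ?_ (by positivity) (by rwa [mul_comm])
        exact (div_nonneg_iff.1 (ha g)).elim (fun h => h.1) fun h => absurd h.2 (not_le.2 hn')
      exact (div_lt_div_iff_of_pos_right hc).1 (lt_of_lt_of_le hg hle)
    · simp only [hW_def, hc₁_def, hc₀_def, hs₁_def]
      rfl
  refine hfin.trans ?_
  have q1 : W * (2 * ε * Cg + ε) ≤ e / 8 := by
    rw [hε_def, show 2 * (e / (8 * (W + 1) * (2 * Cg + 1))) * Cg + e / (8 * (W + 1) * (2 * Cg + 1))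
      = e / (8 * (W + 1)) by field_simp]
    rw [mul_div_assoc', div_le_iff₀ (by positivity)]
    linarith
  have q2 : W * ε' ≤ e / 8 := by
    rw [hε'_def, mul_div_assoc', div_le_iff₀ (by positivity)]
    linarith
  have q3 : (1 + W * c₁) * (CM / M) ≤ e / 8 := by
    have h8 : (1 + W * c₁) * CM * 8 / e ≤ M := (le_max_right _ _).trans (le_max_right _ _)
    rw [div_le_iff₀ he] at h8
    rw [mul_div_assoc', div_le_iff₀ (by positivity)]
    linarith
  have q4 : (1 + W * c₀) * P₀ n ≤ e / 8 := by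
    rw [le_div_iff₀ (by positivity)] at hp8
    linarith
  linarith

end Vale.Agent.P150.Weak.YB
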