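import Vale.Agent.P150.Weak.Found.Deriv
import Vale.Agent.P150.Weak.Found.Split

/-!
Observables of the planted family that grow at most exponentially in the disorder: they include the
inverse variance of a spin and are integrable.
-/

open MeasureTheory ProbabilityTheory Finset Real

namespace Vale.Agent.P150.Weak.YB

open Gap

variable {m : ℕ}

/-- The size of the parameters of a system. -/
def size (J : Mat m) (u : Vec m) : ℝ := (∑ i, ∑ j, |J i j|) + ∑ i, |u i|

lemma size_nonneg (J : Mat m) (u : Vec m) : 0 ≤ size J u := by unfold size; positivity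

/-- Continuous and at most exponential in the parameters. -/
def Gr (f : Mat m → Vec m → ℝ) : Prop :=
  Continuous (fun q : Mat m × Vec m => f q.1 q.2) ∧
    ∃ C a : ℝ, 0 ≤ a ∧ ∀ J u, |f J u| ≤ C * exp (a * size J u)

namespace Gr

variable {f h : Mat m → Vec m → ℝ}

lemma of_le (hc : Continuous fun q : Mat m × Vec m => f q.1 q.2) {B : ℝ}
    (hB : ∀ J u, |f J u| ≤ B) : Gr f :=
  ⟨hc, B, 0, le_rfl, fun J u => by simpa using hB J u⟩

lemma const (c : ℝ) : Gr fun (_ : Mat m) (_ : Vec m) => c :=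
  of_le continuous_const fun _ _ => le_rfl

lemma entry (i j : Fin m) : Gr fun (J : Mat m) (_ : Vec m) => J i j := by
  refine ⟨by fun_prop, 1, 1, zero_le_one, fun J u => ?_⟩
  have h1 : |J i j| ≤ size J u := by
    refine le_trans ?_ (le_add_of_nonneg_right (by positivity))
    exact (single_le_sum (f := fun k => |J i k|) (fun _ _ => abs_nonneg _) (mem_univ j)).trans
      (single_le_sum (f := fun l => ∑ k, |J l k|) (fun _ _ => sum_nonneg fun _ _ => abs_nonneg _)
        (mem_univ i))
  linarith [add_one_le_exp (1 * size J u)]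

lemma add (hf : Gr f) (hh : Gr h) : Gr fun J u => f J u + h J u := by
  obtain ⟨hc, C, a, ha, hC⟩ := hf
  obtain ⟨hc', C', a', ha', hC'⟩ := hh
  refine ⟨hc.add hc', |C| + |C'|, max a a', ha.trans (le_max_left _ _), fun J u => ?_⟩
  refine (abs_add_le _ _).trans ?_
  rw [add_mul]
  exact add_le_add
    ((hC J u).trans (mul_le_mul (le_abs_self C) (exp_le_exp.2 (mul_le_mul_of_nonneg_right
      (le_max_left _ _) (size_nonneg J u))) (exp_pos _).le (abs_nonneg _)))
    ((hC' J u).trans (mul_le_mul (le_abs_self C') (exp_le_exp.2 (mul_le_mul_of_nonneg_right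
      (le_max_right _ _) (size_nonneg J u))) (exp_pos _).le (abs_nonneg _)))

lemma mul (hf : Gr f) (hh : Gr h) : Gr fun J u => f J u * h J u := by
  obtain ⟨hc, C, a, ha, hC⟩ := hf
  obtain ⟨hc', C', a', ha', hC'⟩ := hh
  refine ⟨hc.mul hc', C * C', a + a', add_nonneg ha ha', fun J u => ?_⟩
  rw [abs_mul, add_mul, exp_add, mul_mul_mul_comm]
  exact mul_le_mul (hC J u) (hC' J u) (abs_nonneg _) ((abs_nonneg _).trans (hC J u))

lemma const_mul (hf : Gr f) (c : ℝ) : Gr fun J u => c * f J u := (const c).mul hf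

lemma neg (hf : Gr f) : Gr fun J u => -f J u := by simpa using hf.const_mul (-1)

lemma sub (hf : Gr f) (hh : Gr h) : Gr fun J u => f J u - h J u := by
  simpa [sub_eq_add_neg] using hf.add hh.neg

lemma pow (hf : Gr f) (k : ℕ) : Gr fun J u => f J u ^ k := by
  induction k with
  | zero => simpa using const (m := m) 1
  | succ k ih => simpa [pow_succ] using ih.mul hf

lemma sum {α : Type*} {s : Finset α} {F : α → Mat m → Vec m → ℝ} (hF : ∀ a, Gr (F a)) :
    Gr fun J u => ∑ a ∈ s, F a J u := by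
  classical
  induction s using Finset.induction with
  | empty => simpa using const (m := m) 0
  | @insert a s ha ih =>
    simp only [Finset.sum_insert ha]
    exact (hF a).add ih

lemma mono (hh : Gr h) (hc : Continuous fun q : Mat m × Vec m => f q.1 q.2)
    (hle : ∀ J u, |f J u| ≤ |h J u|) : Gr f :=
  let ⟨_, C, a, ha, hC⟩ := hh
  ⟨hc, C, a, ha, fun J u => (hle J u).trans (hC J u)⟩

lemma integrable (hf : Gr f) (v τ : ℝ) :
    Integrable (fun g => f (plJ v g) (plU τ g)) (gauss (Idx m)) := by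
  obtain ⟨hc, C, a, ha, hC⟩ := hf
  set A : ℝ := ((m:ℝ) * m) * |v| + (m:ℝ) * |τ|
  set B : ℝ := a * (((m:ℝ) * m) * √v + √τ)
  have hsize : ∀ g : Idx m → ℝ, a * size (plJ v g) (plU τ g) ≤ a * A + B * ∑ k, |g k| := by
    intro g
    set S := ∑ k, |g k|
    have hS : ∀ k, |g k| ≤ S := fun k =>
      single_le_sum (f := fun k => |g k|) (fun _ _ => abs_nonneg _) (mem_univ k)
    have hS0 : 0 ≤ S := sum_nonneg fun _ _ => abs_nonneg _
    have hJ : ∀ i j, |plJ v g i j| ≤ |v| + √v * S := fun i j => by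
      unfold plJ Gap.sym
      split_ifs
      · rw [abs_zero]; positivity
      all_goals
        refine (abs_add_le _ _).trans (add_le_add le_rfl ?_)
        rw [abs_mul, abs_of_nonneg (sqrt_nonneg v)]
        refine mul_le_mul_of_nonneg_left ?_ (sqrt_nonneg v)
        first | exact hS _ | (rw [abs_zero]; exact hS0)
    have hU : ∑ i, |plU τ g i| ≤ (m:ℝ) * |τ| + √τ * S := by
      refine (sum_le_sum fun i _ => (abs_add_le τ (√τ * g (.inr i)))).trans ?_
      rw [sum_add_distrib]
      refine add_le_add (by simp) ?_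
      simp only [abs_mul, abs_of_nonneg (sqrt_nonneg τ), ← mul_sum]
      refine mul_le_mul_of_nonneg_left ?_ (sqrt_nonneg τ)
      simp only [S, Fintype.sum_sum_type]
      exact le_add_of_nonneg_left (sum_nonneg fun _ _ => abs_nonneg _)
    have hJs : ∑ i, ∑ j, |plJ v g i j| ≤ (m:ℝ) * m * (|v| + √v * S) := by
      refine (sum_le_sum fun i _ => sum_le_sum fun j _ => hJ i j).trans_eq ?_
      simp [mul_assoc]
      ring
    calc a * size (plJ v g) (plU τ g)
        ≤ a * (((m:ℝ) * m * (|v| + √v * S)) + ((m:ℝ) * |τ| + √τ * S)) :=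
          mul_le_mul_of_nonneg_left (add_le_add hJs hU) ha
      _ = a * A + B * S := by simp only [A, B]; ring
  have h1 : Integrable (fun t => exp (B * |t|)) (gaussianReal 0 1) := by
    refine ((integrable_exp_mul_gaussianReal B).add (integrable_exp_mul_gaussianReal (-B))).mono'
      (by fun_prop) (ae_of_all _ fun t => ?_)
    rw [norm_eq_abs, abs_of_pos (exp_pos _)]
    rcases abs_cases t with ⟨ht, _⟩ | ⟨ht, _⟩ <;> rw [ht]
    · exact le_add_of_nonneg_right (exp_pos _).le
    · rw [show B * -t = -B * t by ring]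
      exact le_add_of_nonneg_left (exp_pos _).le
  have h2 : Integrable (fun g : Idx m → ℝ => |C| * exp (a * A) * ∏ k, exp (B * |g k|))
      (gauss (Idx m)) := (Integrable.fintype_prod fun _ => h1).const_mul _
  refine h2.mono' (hc.comp (f := fun g : Idx m → ℝ => (plJ v g, plU τ g))
    (by fun_prop)).aestronglyMeasurable (ae_of_all _ fun g => ?_)
  rw [norm_eq_abs, ← exp_sum, mul_assoc, ← exp_add, ← mul_sum]
  exact (hC _ _).trans (mul_le_mul (le_abs_self C) (exp_le_exp.2 (hsize g)) (exp_pos _).le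
    (abs_nonneg _))

end Gr

lemma gr_mg (i : Fin m) : Gr fun J u => mg J u i :=
  Gr.of_le (continuous_mg i) fun J u => abs_mg_le J u i

lemma gr_cm2 (i j : Fin m) : Gr fun J u => cm2 J u i j :=
  Gr.of_le (continuous_cm2 i j) fun J u => abs_cm2_le J u i j

lemma abs_expo_le (J : Mat m) (u : Vec m) (x : Conf m) : |expo J u x| ≤ size J u := by
  unfold expo size
  refine (abs_add_le _ _).trans (add_le_add ?_ ?_)
  · rw [abs_div, abs_two]
    refine (div_le_self (abs_nonneg _) one_le_two).trans ((abs_sum_le_sum_abs _ _).trans ?_)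
    refine sum_le_sum fun i _ => (abs_sum_le_sum_abs _ _).trans (sum_le_sum fun j _ => ?_)
    rw [abs_mul, abs_mul, abs_spin', abs_spin', mul_one, mul_one]
  · refine (abs_sum_le_sum_abs _ _).trans (sum_le_sum fun i _ => ?_)
    rw [abs_mul, abs_spin', mul_one]

lemma mu_ge (J : Mat m) (u : Vec m) (x : Conf m) :
    exp (-(2 * size J u)) / Fintype.card (Conf m) ≤ mu J u x := by
  have hZ : ∑ y, wt J u y ≤ Fintype.card (Conf m) * exp (size J u) := by
    refine (sum_le_sum (g := fun _ => exp (size J u)) fun y _ =>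
      exp_le_exp.2 (abs_le.1 (abs_expo_le J u y)).2).trans_eq ?_
    simp
  have hpos : 0 < ∑ y, wt J u y := sum_pos (fun y _ => exp_pos _) univ_nonempty
  have hc : (0:ℝ) < Fintype.card (Conf m) := Nat.cast_pos.2 Fintype.card_pos
  rw [mu, div_le_div_iff₀ hc hpos]
  refine (mul_le_mul_of_nonneg_left hZ (exp_pos _).le).trans ?_
  rw [← mul_assoc, mul_comm (exp _) (_ : ℝ), mul_assoc, ← exp_add, mul_comm (wt J u x)]
  refine mul_le_mul_of_nonneg_left (exp_le_exp.2 ?_) hc.le
  linarith [(abs_le.1 (abs_expo_le J u x)).1]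

lemma one_sub_mul_mg_ge (J : Mat m) (u : Vec m) (i : Fin m) {s : ℝ} {x : Conf m}
    (hs : |s| = 1) (hx : spin x i = -s) :
    2 * (exp (-(2 * size J u)) / Fintype.card (Conf m)) ≤ 1 - s * mg J u i := by
  have hs2 : s * s = 1 := by rw [← abs_mul_abs_self, hs, one_mul]
  have e : 1 - s * mg J u i = ev J u fun y => 1 - s * spin y i := by
    rw [ev_sub, ev_const, ev_smul]; rfl
  rw [e]
  refine le_trans ?_ (single_le_sum (f := fun y => mu J u y * (1 - s * spin y i))
    (fun y _ => mul_nonneg (mu_pos J u y).le ?_) (mem_univ x))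
  · rw [hx, mul_neg, hs2]
    linarith [mu_ge J u x]
  · have : |s * spin y i| ≤ 1 := by rw [abs_mul, hs, abs_spin', mul_one]
    linarith [(abs_le.1 this).2]

lemma inv_vw_le (J : Mat m) (u : Vec m) (i : Fin m) :
    1 / vw J u i ≤ (Fintype.card (Conf m) : ℝ) ^ 2 / 4 * exp (4 * size J u) := by
  have h1 := one_sub_mul_mg_ge J u i (s := 1) (x := fun _ => false) (by simp) (by simp [spin])
  have h2 := one_sub_mul_mg_ge J u i (s := -1) (x := fun _ => true) (by simp) (by simp [spin])
  have hc : (0:ℝ) < Fintype.card (Conf m) := Nat.cast_pos.2 Fintype.card_pos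
  set P := exp (-(2 * size J u)) / (Fintype.card (Conf m) : ℝ) with hP
  have hP0 : 0 < P := by positivity
  have hw : (2 * P) * (2 * P) ≤ vw J u i := by
    have := mul_le_mul h1 h2 (by positivity) (by linarith)
    rw [vw]; linarith
  refine (one_div_le_one_div_of_le (by positivity) hw).trans (le_of_eq ?_)
  rw [hP, exp_neg, show (4:ℝ) * size J u = 2 * size J u + 2 * size J u by ring, exp_add]
  field_simp
  ring

lemma continuous_vw (i : Fin m) : Continuous fun q : Mat m × Vec m => vw q.1 q.2 i :=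
  continuous_const.sub ((continuous_mg i).pow 2)

lemma gr_inv_vw (i : Fin m) : Gr fun J u => 1 / vw J u i :=
  ⟨continuous_const.div₀ (continuous_vw i) fun q => (vw_pos q.1 q.2 i).ne',
    _, 4, by norm_num, fun J u => by
      rw [abs_of_pos (one_div_pos.2 (vw_pos J u i))]; exact inv_vw_le J u i⟩

lemma gr_sAvg (n : ℕ) : Gr fun (J : Mat m) u => sAvg n J u := by
  simpa [sAvg, vw, div_eq_inv_mul] using
    (Gr.sum (s := univ) fun i => (Gr.const (m := m) 1).sub ((gr_mg i).pow 2)).const_mul (n:ℝ)⁻¹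

lemma gr_epsV (b : ℝ) (n : ℕ) (i : Fin m) : Gr fun J u => epsV b n J u i := by
  simp only [epsV, div_eq_mul_one_div (∑ a, (_ : ℝ))]
  exact ((gr_sAvg n).const_mul _).sub
    ((Gr.sum fun a => (Gr.entry i a).mul (gr_cm2 i a)).mul (gr_inv_vw i))

lemma gr_resid (b : ℝ) (n : ℕ) (i j : Fin m) : Gr fun J u => resid b n J u i j := by
  unfold resid
  refine (Gr.sum fun k => ?_).sub (Gr.const _)
  refine Gr.mul ?_ (gr_cm2 k j)
  have hA' : Gr fun J u => hA' b 0 n J u i k := by
    unfold hA' hA
    refine Gr.sub ?_ (((gr_mg i).mul (gr_mg k)).const_mul _)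
    refine Gr.sub ?_ (Gr.entry i k)
    split_ifs
    · simp only [add_zero]
      exact (gr_inv_vw i).add ((gr_sAvg n).const_mul _)
    · exact Gr.const 0
  refine hA'.sub ?_
  split_ifs
  · exact gr_epsV b n i
  · exact Gr.const 0

lemma gr_sq2_resid (b : ℝ) (n : ℕ) : Gr fun (J : Mat m) u => sq2 (resid b n J u) :=
  Gr.sum fun i => Gr.sum fun j => (gr_resid b n i j).pow 2

lemma gr_sum_eps (b : ℝ) (n : ℕ) : Gr fun (J : Mat m) u => ∑ i, epsV b n J u i ^ 4 :=
  Gr.sum fun i => (gr_epsV b n i).pow 4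

lemma gr_sq2_cm2 : Gr fun (J : Mat m) u => sq2 (cm2 J u) :=
  Gr.sum fun i => Gr.sum fun j => (gr_cm2 i j).pow 2

lemma gr_dot_vv : Gr fun (J : Mat m) u => ∑ i, mg J u i * vv J u i :=
  Gr.sum fun i => (gr_mg i).mul (Gr.sum fun j => (gr_cm2 i j).mul (gr_mg j))

end Vale.Agent.P150.Weak.YB
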