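import Vale.Agent.P150.Weak.Found.Deriv

/-!
Linear algebra of the linear response identity: the operator norm, the top eigenvector of the
covariance, and the bound of the covariance norm by the response error.
-/

open MeasureTheory Finset Real
open scoped Matrix

namespace Vale.Agent.P150.Weak.YB

open Gap

variable {m : ℕ}

/-- Euclidean inner product. -/
def dt (a c : Vec m) : ℝ := ∑ i, a i * c i

/-- Matrix times vector. -/
def mv (A : Mat m) (v : Vec m) : Vec m := fun i => ∑ j, A i j * v j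

lemma dt_comm (a c : Vec m) : dt a c = dt c a := by simp only [dt, mul_comm]

lemma dt_self (a : Vec m) : dt a a = sq1 a := by simp only [dt, sq1, sq]

lemma dt_add_left (a c d : Vec m) : dt (a + c) d = dt a d + dt c d := by
  simp only [dt, Pi.add_apply, add_mul, sum_add_distrib]

lemma dt_sub_left (a c d : Vec m) : dt (a - c) d = dt a d - dt c d := by
  simp only [dt, Pi.sub_apply, sub_mul, sum_sub_distrib]

lemma dt_smul_left (r : ℝ) (a c : Vec m) : dt (r • a) c = r * dt a c := by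
  simp only [dt, Pi.smul_apply, smul_eq_mul, mul_sum, mul_assoc]

lemma dt_add_right (a c d : Vec m) : dt a (c + d) = dt a c + dt a d := by
  rw [dt_comm, dt_add_left, dt_comm c, dt_comm d]

lemma dt_sub_right (a c d : Vec m) : dt a (c - d) = dt a c - dt a d := by
  rw [dt_comm, dt_sub_left, dt_comm c, dt_comm d]

lemma dt_smul_right (r : ℝ) (a c : Vec m) : dt a (r • c) = r * dt a c := by
  rw [dt_comm, dt_smul_left, dt_comm]

lemma mv_add (A : Mat m) (v w : Vec m) : mv A (v + w) = mv A v + mv A w := by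
  funext i; simp only [mv, Pi.add_apply, mul_add, sum_add_distrib]

lemma mv_smul (A : Mat m) (r : ℝ) (v : Vec m) : mv A (r • v) = r • mv A v := by
  funext i
  simp only [mv, Pi.smul_apply, smul_eq_mul, mul_sum]
  exact sum_congr rfl fun j _ => by ring

lemma mv_sub (A : Mat m) (v w : Vec m) : mv A (v - w) = mv A v - mv A w := by
  funext i; simp only [mv, Pi.sub_apply, mul_sub, sum_sub_distrib]

lemma dt_mv_symm {A : Mat m} (hA : ∀ i j, A i j = A j i) (a c : Vec m) :
    dt a (mv A c) = dt (mv A a) c := by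
  simp only [dt, mv, mul_sum, sum_mul]
  rw [sum_comm]
  exact sum_congr rfl fun i _ => sum_congr rfl fun j _ => by rw [hA]; ring

lemma dt_quad (A : Mat m) (v : Vec m) : dt v (mv A v) = ∑ i, ∑ j, A i j * v i * v j := by
  simp only [dt, mv, mul_sum]
  exact sum_congr rfl fun i _ => sum_congr rfl fun j _ => by ring

lemma sq1_nonneg (a : Vec m) : 0 ≤ sq1 a := sum_nonneg fun i _ => sq_nonneg _

lemma abs_dt_le (a c : Vec m) : |dt a c| ≤ √(sq1 a) * √(sq1 c) := by
  rw [← Real.sqrt_mul (sq1_nonneg a)]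
  exact Real.abs_le_sqrt (sum_mul_sq_le_sq_mul_sq univ a c)

lemma norm_toLp (v : Vec m) : ‖(WithLp.toLp 2 v : EuclideanSpace ℝ (Fin m))‖ = √(sq1 v) := by
  simp [EuclideanSpace.norm_eq, sq1, sq_abs]

lemma op_nonneg (A : Mat m) : 0 ≤ op A := norm_nonneg _

lemma sqrt_sq1_mv_le (A : Mat m) (v : Vec m) : √(sq1 (mv A v)) ≤ op A * √(sq1 v) := by
  have h := (Matrix.toEuclideanCLM (𝕜 := ℝ) (Matrix.of A)).le_opNorm (WithLp.toLp 2 v)
  rw [Matrix.toEuclideanCLM_toLp, norm_toLp, norm_toLp] at h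
  exact h

lemma abs_dt_mv_le (A : Mat m) (a c : Vec m) :
    |dt a (mv A c)| ≤ op A * (√(sq1 a) * √(sq1 c)) := by
  refine (abs_dt_le _ _).trans ?_
  rw [mul_left_comm]
  exact mul_le_mul_of_nonneg_left (sqrt_sq1_mv_le A c) (sqrt_nonneg _)

lemma abs_dt_mv_self_le (A : Mat m) (a : Vec m) : |dt a (mv A a)| ≤ op A * sq1 a := by
  have := abs_dt_mv_le A a a
  rwa [mul_self_sqrt (sq1_nonneg a)] at this

lemma op_le_of_mv {A : Mat m} {B : ℝ} (hB : 0 ≤ B)
    (h : ∀ v : Vec m, √(sq1 (mv A v)) ≤ B * √(sq1 v)) : op A ≤ B := by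
  refine ContinuousLinearMap.opNorm_le_bound _ hB fun x => ?_
  have h' := h (WithLp.ofLp x)
  rw [← norm_toLp, ← norm_toLp, WithLp.toLp_ofLp] at h'
  rw [← WithLp.toLp_ofLp (p := 2) x, Matrix.toEuclideanCLM_toLp]
  exact h'

lemma op_le_sqrt_sq2 (A : Mat m) : op A ≤ √(sq2 A) := by
  refine op_le_of_mv (sqrt_nonneg _) fun v => ?_
  rw [← Real.sqrt_mul (show 0 ≤ sq2 A from sum_nonneg fun i _ => sum_nonneg fun j _ => sq_nonneg _)]
  refine Real.sqrt_le_sqrt ?_
  show ∑ i, (∑ j, A i j * v j) ^ 2 ≤ (∑ i, ∑ j, A i j ^ 2) * ∑ j, v j ^ 2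
  rw [sum_mul]
  exact sum_le_sum fun i _ => sum_mul_sq_le_sq_mul_sq univ (A i) v

lemma op_add_le (A B : Mat m) : op (fun i j => A i j + B i j) ≤ op A + op B := by
  refine le_trans (le_of_eq ?_) (norm_add_le _ _)
  show _ = ‖Matrix.toEuclideanCLM (𝕜 := ℝ) (Matrix.of A) + Matrix.toEuclideanCLM (𝕜 := ℝ) (Matrix.of B)‖
  rw [← map_add]
  rfl

lemma op_neg (A : Mat m) : op (fun i j => -A i j) = op A := by
  refine Eq.trans ?_ (norm_neg (Matrix.toEuclideanCLM (𝕜 := ℝ) (Matrix.of A)))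
  rw [← map_neg]
  rfl

lemma continuous_op : Continuous fun A : Mat m => op A := by
  have : Continuous fun A : Matrix (Fin m) (Fin m) ℝ => Matrix.toEuclideanCLM (𝕜 := ℝ) A :=
    LinearMap.continuous_of_finiteDimensional
      ((Matrix.toEuclideanCLM (n := Fin m) (𝕜 := ℝ)).toAlgEquiv.toLinearMap)
  exact this.norm

/-- A top eigenvector of the covariance. -/
lemma exists_top (hm : 0 < m) (J : Mat m) (u : Vec m) :
    ∃ v : Vec m, sq1 v = 1 ∧ mv (cm2 J u) v = op (cm2 J u) • v := by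
  have : Nonempty (Fin m) := ⟨⟨0, hm⟩⟩
  have hH : (Matrix.of (cm2 J u)).IsHermitian := Matrix.IsHermitian.ext fun i j => by
    simp [cm2_comm J u i j]
  set b := hH.eigenvectorBasis
  obtain ⟨i₀, hi₀⟩ := Finite.exists_max hH.eigenvalues
  set v : Vec m := WithLp.ofLp (b i₀)
  have heig : ∀ i, mv (cm2 J u) (WithLp.ofLp (b i)) = hH.eigenvalues i • WithLp.ofLp (b i) :=
    fun i => hH.mulVec_eigenvectorBasis i
  have hv : sq1 v = 1 := by
    have := b.orthonormal.1 i₀
    rw [← WithLp.toLp_ofLp (p := 2) (b i₀), norm_toLp, Real.sqrt_eq_one] at this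
    exact this
  have hnn : ∀ i, 0 ≤ hH.eigenvalues i := fun i => by
    have h := cm2_quad J u (WithLp.ofLp (b i))
    rw [← dt_quad, heig, dt_smul_right, dt_self] at h
    have h1 := b.orthonormal.1 i
    rw [← WithLp.toLp_ofLp (p := 2) (b i), norm_toLp, Real.sqrt_eq_one] at h1
    rw [h1, mul_one] at h
    rw [h]
    exact ev_nonneg fun x => sq_nonneg _
  refine ⟨v, hv, ?_⟩
  suffices h : op (cm2 J u) = hH.eigenvalues i₀ by rw [h]; exact heig i₀
  refine le_antisymm ?_ ?_
  · refine op_le_of_mv (hnn i₀) fun x => ?_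
    rw [← norm_toLp, ← norm_toLp]
    set y : EuclideanSpace ℝ (Fin m) := WithLp.toLp 2 x with hy
    have hz : (WithLp.toLp 2 (mv (cm2 J u) x) : EuclideanSpace ℝ (Fin m)) =
        ∑ i, (hH.eigenvalues i * inner ℝ (b i) y) • b i := by
      conv_lhs => rw [← WithLp.ofLp_toLp (p := 2) x, ← hy, ← b.sum_repr' y]
      refine WithLp.ofLp_injective 2 ?_
      show mv (cm2 J u) (WithLp.ofLp (∑ i, inner ℝ (b i) y • b i)) = _
      rw [WithLp.ofLp_sum, WithLp.ofLp_sum,
        show mv (cm2 J u) = fun v => Matrix.of (cm2 J u) *ᵥ v from rfl]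
      simp only [Matrix.mulVec_sum, WithLp.ofLp_smul, Matrix.mulVec_smul]
      refine sum_congr rfl fun i _ => ?_
      rw [show Matrix.of (cm2 J u) *ᵥ WithLp.ofLp (b i) = _ from heig i, smul_smul, mul_comm]
    refine abs_le_of_sq_le_sq' ?_ (mul_nonneg (hnn i₀) (norm_nonneg _)) |>.2
    rw [hz, ← b.sum_sq_inner_right, mul_pow, ← b.sum_sq_inner_right y, mul_sum]
    refine sum_le_sum fun i _ => ?_
    rw [b.orthonormal.inner_right_fintype, mul_pow]
    exact mul_le_mul_of_nonneg_right (pow_le_pow_left₀ (hnn i) (hi₀ i) 2) (sq_nonneg _)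
  · have h := sqrt_sq1_mv_le (cm2 J u) v
    have hs : sq1 (hH.eigenvalues i₀ • v) = hH.eigenvalues i₀ ^ 2 * sq1 v := by
      simp only [sq1, Pi.smul_apply, smul_eq_mul, mul_pow, mul_sum]
    rw [show mv (cm2 J u) v = _ from heig i₀, hs, hv, mul_one, Real.sqrt_one, mul_one,
      Real.sqrt_sq (hnn i₀)] at h
    exact h

/-- The response identity in vector form. -/
lemma resid_mv (b : ℝ) (n : ℕ) (J : Mat m) (u : Vec m) (x : Vec m) :
    mv (hA' b 0 n J u) (mv (cm2 J u) x) - (fun i => epsV b n J u i * mv (cm2 J u) x i) =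
      x + mv (resid b n J u) x := by
  funext i
  have e : mv (hA' b 0 n J u) (mv (cm2 J u) x) i - epsV b n J u i * mv (cm2 J u) x i =
      ∑ k, (hA' b 0 n J u i k - if i = k then epsV b n J u i else 0) * mv (cm2 J u) x k := by
    simp only [mv, sub_mul, ite_mul, zero_mul, sum_sub_distrib, sum_ite_eq, mem_univ, if_true]
  show mv (hA' b 0 n J u) (mv (cm2 J u) x) i - epsV b n J u i * mv (cm2 J u) x i = _
  rw [e]
  have hr : ∀ j, ∑ k, (hA' b 0 n J u i k - if i = k then epsV b n J u i else 0) * cm2 J u k j =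
      (if i = j then 1 else 0) + resid b n J u i j := fun j => by rw [resid]; ring
  calc ∑ k, (hA' b 0 n J u i k - if i = k then epsV b n J u i else 0) * mv (cm2 J u) x k
      = ∑ j, (∑ k, (hA' b 0 n J u i k - if i = k then epsV b n J u i else 0) * cm2 J u k j) * x j := by
        simp only [mv, mul_sum, sum_mul, mul_assoc]
        exact sum_comm
    _ = (x + mv (resid b n J u) x) i := by
        simp only [hr, add_mul, sum_add_distrib, ite_mul, one_mul, zero_mul, sum_ite_eq, mem_univ,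
          if_true, mv, Pi.add_apply]

end Vale.Agent.P150.Weak.YB
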