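import Vale.Agent.P150.Weak.YBound.Alg
import Vale.Agent.P150.Weak.Spec

/-!
The deterministic bounds of the covariance norm by the linear response error, the longitudinal
susceptibility and the norm of the couplings.
-/

open MeasureTheory Finset Real

namespace Vale.Agent.P150.Weak.YB

open Gap

variable {m : ℕ}

lemma sAvg_nonneg (n : ℕ) (J : Mat m) (u : Vec m) : 0 ≤ sAvg n J u :=
  div_nonneg (sum_nonneg fun i _ => (vw_pos J u i).le) (Nat.cast_nonneg n)

lemma sAvg_le_one {n : ℕ} (hmn : m ≤ n) (J : Mat m) (u : Vec m) : sAvg n J u ≤ 1 := by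
  rcases Nat.eq_zero_or_pos n with rfl | hn
  · simp [sAvg]
  rw [sAvg, div_le_one (by positivity)]
  calc ∑ i, vw J u i ≤ ∑ _i : Fin m, (1 : ℝ) := sum_le_sum fun i _ => vw_le_one J u i
    _ ≤ (n : ℝ) := by simp; exact_mod_cast hmn

lemma sq1_mg_le {n : ℕ} (hmn : m ≤ n) (J : Mat m) (u : Vec m) : sq1 (mg J u) ≤ n := by
  calc sq1 (mg J u) ≤ ∑ _i : Fin m, (1 : ℝ) := sum_le_sum fun i _ => by
        rw [← sq_abs]; exact pow_le_one₀ (abs_nonneg _) (abs_mg_le J u i)
    _ ≤ (n : ℝ) := by simp; exact_mod_cast hmn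

lemma mv_hA (b η : ℝ) (n : ℕ) (J : Mat m) (u : Vec m) (v : Vec m) :
    mv (hA b η n J u) v =
      fun i => (1 / (vw J u i + η) + b ^ 2 * sAvg n J u) * v i - mv J v i := by
  funext i
  simp only [mv, hA, sub_mul, ite_mul, zero_mul, sum_sub_distrib, sum_ite_eq, mem_univ, if_true]

lemma mv_hA' (b η : ℝ) (n : ℕ) (J : Mat m) (u : Vec m) (v : Vec m) :
    mv (hA' b η n J u) v =
      mv (hA b η n J u) v - (2 * (b ^ 2 / n) * dt (mg J u) v) • mg J u := by
  funext i
  simp only [mv, hA', sub_mul, sum_sub_distrib, Pi.sub_apply, Pi.smul_apply, smul_eq_mul, dt,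
    mul_sum, sum_mul]
  congr 1
  exact sum_congr rfl fun j _ => by ring

lemma op_hA_le (b : ℝ) {η : ℝ} (hη : 0 < η) {n : ℕ} (hmn : m ≤ n) (J : Mat m) (u : Vec m) :
    op (hA b η n J u) ≤ 1 / η + b ^ 2 + op J := by
  have := op_nonneg J
  refine op_le_of_mv (by positivity) fun v => ?_
  set D : Vec m := fun i => (1 / (vw J u i + η) + b ^ 2 * sAvg n J u) * v i
  have hD : √(sq1 D) ≤ (1 / η + b ^ 2) * √(sq1 v) := by
    rw [← Real.sqrt_sq (show (0:ℝ) ≤ 1 / η + b ^ 2 by positivity), ← Real.sqrt_mul (sq_nonneg _)]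
    refine Real.sqrt_le_sqrt ?_
    simp only [sq1, D, mul_sum, mul_pow]
    refine sum_le_sum fun i _ => mul_le_mul_of_nonneg_right (pow_le_pow_left₀ ?_ ?_ 2) (sq_nonneg _)
    · have := vw_pos J u i; have := sAvg_nonneg n J u; positivity
    · exact add_le_add (one_div_le_one_div_of_le hη (by linarith [vw_pos J u i]))
        (mul_le_of_le_one_right (sq_nonneg b) (sAvg_le_one hmn J u))
  rw [mv_hA, ← norm_toLp, ← norm_toLp]
  rw [← norm_toLp, ← norm_toLp] at hD
  refine (norm_sub_le (WithLp.toLp 2 D) (WithLp.toLp 2 (mv J v))).trans ?_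
  have hJ := sqrt_sq1_mv_le J v
  rw [← norm_toLp, ← norm_toLp] at hJ
  linarith

lemma dt_hA'_mono (b : ℝ) {η : ℝ} (hη : 0 ≤ η) (n : ℕ) (J : Mat m) (u : Vec m) (v : Vec m) :
    dt v (mv (hA' b η n J u) v) ≤ dt v (mv (hA' b 0 n J u) v) := by
  rw [mv_hA', mv_hA', dt_sub_right, dt_sub_right]
  refine sub_le_sub_right ?_ _
  simp only [mv_hA, dt]
  refine sum_le_sum fun i _ => ?_
  have hw := vw_pos J u i
  have : 1 / (vw J u i + η) ≤ 1 / (vw J u i + 0) :=
    one_div_le_one_div_of_le (by linarith) (by linarith)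
  nlinarith [sq_nonneg (v i)]

/-- The large part of `ε` costs at most a fourth power. -/
lemma eps_term_le (b : ℝ) (n : ℕ) (J : Mat m) (u : Vec m) {Y δ : ℝ} (hδ : 0 < δ) (hY : 0 ≤ Y)
    {v : Vec m} (hv : sq1 v = 1) (hYv : ∀ i, Y * v i ^ 2 ≤ 1) :
    Y * ∑ i, epsV b n J u i * v i ^ 2 ≤ δ * Y + (∑ i, epsV b n J u i ^ 4) / δ ^ 3 := by
  rw [show δ * Y = δ * (Y * sq1 v) by rw [hv, mul_one], sum_div, sq1, mul_sum, mul_sum, mul_sum,
    ← sum_add_distrib]
  refine sum_le_sum fun i _ => ?_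
  set e := epsV b n J u i
  have h0 : 0 ≤ Y * v i ^ 2 := mul_nonneg hY (sq_nonneg _)
  have he : 0 ≤ e ^ 4 / δ ^ 3 := div_nonneg (Even.pow_nonneg (by decide) _) (by positivity)
  rcases le_or_gt e δ with h | h
  · calc Y * (e * v i ^ 2) = e * (Y * v i ^ 2) := by ring
      _ ≤ δ * (Y * v i ^ 2) := mul_le_mul_of_nonneg_right h h0
      _ ≤ _ := le_add_of_nonneg_right he
  · have : e ≤ e ^ 4 / δ ^ 3 := by
      rw [le_div_iff₀ (by positivity)]
      have := pow_le_pow_left₀ hδ.le h.le 3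
      nlinarith [mul_le_mul_of_nonneg_left this (hδ.trans h).le]
    calc Y * (e * v i ^ 2) = e * (Y * v i ^ 2) := by ring
      _ ≤ e * 1 := mul_le_mul_of_nonneg_left (hYv i) (hδ.trans h).le
      _ ≤ δ * (Y * v i ^ 2) + e ^ 4 / δ ^ 3 := by
        rw [mul_one]; exact le_add_of_nonneg_of_le (mul_nonneg hδ.le h0) this

/-- Squared entries of a top eigenvector. -/
lemma top_entry_le (J : Mat m) (u : Vec m) {v : Vec m} (hv : sq1 v = 1) {Y : ℝ}
    (hC : mv (cm2 J u) v = Y • v) (i : Fin m) : Y * v i ^ 2 ≤ 1 := by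
  set a : Vec m := Pi.single i 1 - v i • v
  have h0 : 0 ≤ dt a (mv (cm2 J u) a) := by
    rw [dt_quad, cm2_quad]; exact ev_nonneg fun x => sq_nonneg _
  have h1 : dt (Pi.single i 1) (mv (cm2 J u) (Pi.single i 1)) = vw J u i := by
    rw [← cm2_diag]; simp [dt, mv, Pi.single_apply]
  have h2 : dt (Pi.single i 1) v = v i := by simp [dt, Pi.single_apply]
  have hs : dt v (mv (cm2 J u) (Pi.single i 1)) = Y * v i := by
    rw [dt_mv_symm (cm2_comm J u), hC, dt_smul_left, dt_comm, h2]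
  simp only [a, mv_sub, mv_smul, hC, dt_sub_left, dt_sub_right, dt_smul_left, dt_smul_right, h1, h2,
    hs, dt_self, hv] at h0
  nlinarith [vw_le_one J u i]

/-- The response identity at a top eigenvector. -/
lemma top_identity (b : ℝ) (n : ℕ) (J : Mat m) (u : Vec m) {v : Vec m} (hv : sq1 v = 1) {Y δ : ℝ}
    (hY : 0 ≤ Y) (hδ : 0 < δ) (hC : mv (cm2 J u) v = Y • v) :
    Y * dt v (mv (hA' b 0 n J u) v) ≤
      1 + op (resid b n J u) + δ * Y + (∑ i, epsV b n J u i ^ 4) / δ ^ 3 := by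
  have h := congrArg (dt v) (resid_mv b n J u v)
  rw [dt_sub_right, dt_add_right, dt_self, hv, hC, mv_smul, dt_smul_right] at h
  have he : dt v (fun i => epsV b n J u i * (Y • v) i) = Y * ∑ i, epsV b n J u i * v i ^ 2 := by
    simp only [dt, Pi.smul_apply, smul_eq_mul, mul_sum]
    exact sum_congr rfl fun i _ => by ring
  have hE : dt v (mv (resid b n J u) v) ≤ op (resid b n J u) := by
    simpa [hv] using (le_abs_self _).trans (abs_dt_mv_self_le (resid b n J u) v)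
  have heps := eps_term_le b n J u hδ hY hv (top_entry_le J u hv hC)
  linarith

/-- Lower bound of `v' A'_η v` from the bound on `e⊥`. -/
lemma quad_lower {b η κ : ℝ} {n : ℕ} (hη : 0 < η) (hm : 0 < m) (hmn : m ≤ n) {J : Mat m}
    (hJ : IsCoupling J) (u : Vec m) {e w : Vec m} {α : ℝ} (he1 : sq1 e = 1)
    (hwm : dt w (mg J u) = 0) (hq : κ * sq1 w ≤ dt w (mv (hA b η n J u) w)) :
    κ * sq1 w - 2 * |α| * ((1 / η + b ^ 2 + op J) * √(sq1 w)) - α ^ 2 * (op J + 2 * b ^ 2) ≤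
      dt (w + α • e) (mv (hA' b η n J u) (w + α • e)) := by
  have hAs : ∀ i j, hA b η n J u i j = hA b η n J u j i := by
    intro i j
    simp only [hA, hJ.symm i j, eq_comm (a := j) (b := i)]
    split_ifs with h <;> simp [h]
  have hcross : |dt w (mv (hA b η n J u) e)| ≤ (1 / η + b ^ 2 + op J) * √(sq1 w) := by
    refine (abs_dt_mv_le _ _ _).trans ?_
    rw [he1, Real.sqrt_one, mul_one]
    exact mul_le_mul_of_nonneg_right (op_hA_le b hη hmn J u) (sqrt_nonneg _)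
  have he2 : -(op J + 2 * b ^ 2) ≤ dt e (mv (hA' b η n J u) e) := by
    rw [mv_hA', dt_sub_right, dt_smul_right, dt_comm e (mg J u), mv_hA,
      show (fun i => (1 / (vw J u i + η) + b ^ 2 * sAvg n J u) * e i - mv J e i) =
        (fun i => (1 / (vw J u i + η) + b ^ 2 * sAvg n J u) * e i) - mv J e from rfl, dt_sub_right]
    have h1 : 0 ≤ dt e (fun i => (1 / (vw J u i + η) + b ^ 2 * sAvg n J u) * e i) :=
      sum_nonneg fun i _ => by
        have := vw_pos J u i; have := sAvg_nonneg n J u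
        rw [mul_left_comm]; exact mul_nonneg (by positivity) (mul_self_nonneg _)
    have h2 : dt e (mv J e) ≤ op J := by
      simpa [he1] using (le_abs_self _).trans (abs_dt_mv_self_le J e)
    have h3 : dt (mg J u) e * dt (mg J u) e ≤ n := by
      have h := mul_self_le_mul_self (abs_nonneg _) (abs_dt_le (mg J u) e)
      rw [abs_mul_abs_self, he1, Real.sqrt_one, mul_one, mul_self_sqrt (sq1_nonneg _)] at h
      exact h.trans (sq1_mg_le hmn J u)
    have h4 := mul_le_mul_of_nonneg_left h3 (by positivity : (0:ℝ) ≤ 2 * (b ^ 2 / n))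
    have hn : (n:ℝ) ≠ 0 := (Nat.cast_pos.2 (hm.trans_le hmn)).ne'
    rw [show 2 * (b ^ 2 / (n:ℝ)) * n = 2 * b ^ 2 by field_simp] at h4
    linarith [mul_assoc (2 * (b ^ 2 / (n:ℝ))) (dt (mg J u) e) (dt (mg J u) e)]
  have hm' : dt (mg J u) w = 0 := by rw [dt_comm]; exact hwm
  have eA : mv (hA' b η n J u) w = mv (hA b η n J u) w := by
    rw [mv_hA', hm', mul_zero, zero_smul, sub_zero]
  have e1 : dt e (mv (hA' b η n J u) w) = dt w (mv (hA b η n J u) e) := by
    rw [eA, dt_mv_symm hAs, dt_comm]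
  have e2 : dt w (mv (hA' b η n J u) e) = dt w (mv (hA b η n J u) e) := by
    rw [mv_hA', dt_sub_right, dt_smul_right, hwm, mul_zero, sub_zero]
  simp only [mv_add, mv_smul, dt_add_left, dt_add_right, dt_smul_left, dt_smul_right, e1, e2]
  rw [eA]
  have hc2 : -(2 * |α| * ((1 / η + b ^ 2 + op J) * √(sq1 w))) ≤
      2 * α * dt w (mv (hA b η n J u) e) := by
    refine neg_le_of_abs_le ?_
    rw [abs_mul, abs_mul, abs_two]
    exact mul_le_mul_of_nonneg_left hcross (by positivity)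
  have := mul_le_mul_of_nonneg_left he2 (sq_nonneg α)
  linarith

/-- The scalar step. -/
lemma top_algebra {κ Y a2 s2 q O G X R : ℝ} (hκ : 0 < κ) (hY : 0 ≤ Y)
    (hs : s2 + a2 = 1) (hα : Y * a2 ≤ X) (hO : 0 ≤ O) (hG : 0 ≤ G)
    (hq : κ / 2 * s2 - a2 * (2 / κ * O ^ 2 + G) ≤ q) (hid : Y * q ≤ R + κ / 4 * Y) :
    Y ≤ 4 / κ * R + X * (4 / κ * G + 8 / κ ^ 2 * O ^ 2 + 2) := by
  have h1 := mul_le_mul_of_nonneg_left hq hY
  have h2 := mul_le_mul_of_nonneg_right hα (by positivity : 0 ≤ 2 / κ * O ^ 2 + G + κ / 2)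
  have h3 : κ / 4 * Y ≤ R + X * (2 / κ * O ^ 2 + G + κ / 2) := by
    have e : Y * (κ / 2 * s2) = κ / 2 * Y - κ / 2 * (Y * a2) := by
      rw [show s2 = 1 - a2 by linarith]; ring
    linarith
  calc Y = 4 / κ * (κ / 4 * Y) := by field_simp
    _ ≤ 4 / κ * (R + X * (2 / κ * O ^ 2 + G + κ / 2)) :=
      mul_le_mul_of_nonneg_left h3 (by positivity)
    _ = _ := by field_simp; ring

/-- **The covariance norm** against the response error. -/
theorem op_cov_le {b η κ : ℝ} {n : ℕ} (hη : 0 < η) (hκ : 0 < κ) (hm : 0 < m) (hmn : m ≤ n)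
    {J : Mat m} (hJ : IsCoupling J) (u : Vec m) (hne : 0 < sq1 (mg J u))
    (hH : ∀ v : Vec m, ∑ i, v i * mg J u i = 0 →
      κ * sq1 v ≤ ∑ i, ∑ j, hA b η n J u i j * v i * v j) :
    op (cm2 J u) ≤
      4 / κ * (1 + op (resid b n J u) + (∑ i, epsV b n J u i ^ 4) / (κ / 4) ^ 3) +
        xe J u * (4 / κ * (op J + 2 * b ^ 2) + 8 / κ ^ 2 * (1 / η + b ^ 2 + op J) ^ 2 + 2) := by
  obtain ⟨v, hv, hC⟩ := exists_top hm J u
  set Y := op (cm2 J u)
  have hY : 0 ≤ Y := op_nonneg _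
  set e : Vec m := (√(sq1 (mg J u)))⁻¹ • mg J u with he
  have hee : dt e e = 1 := by
    rw [he, dt_smul_left, dt_smul_right, dt_self, ← mul_assoc, ← mul_inv, mul_self_sqrt hne.le,
      inv_mul_cancel₀ hne.ne']
  have hxe : dt e (mv (cm2 J u) e) = xe J u := by
    rw [he, mv_smul, dt_smul_left, dt_smul_right, ← mul_assoc, ← mul_inv, mul_self_sqrt hne.le,
      xe, div_eq_inv_mul]
    rfl
  obtain ⟨α, hαe⟩ : ∃ α, dt e v = α := ⟨_, rfl⟩
  obtain ⟨w, hw⟩ : ∃ w, v - α • e = w := ⟨_, rfl⟩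
  have hwe : dt w e = 0 := by
    rw [← hw, dt_sub_left, dt_smul_left, hee, mul_one, dt_comm, hαe, sub_self]
  have hwm : dt w (mg J u) = 0 := by
    rw [he, dt_smul_right] at hwe
    exact (mul_eq_zero.1 hwe).resolve_left (inv_ne_zero (Real.sqrt_ne_zero'.2 hne))
  have hvw : v = w + α • e := by rw [← hw, sub_add_cancel]
  have hw2 : sq1 w + α ^ 2 = 1 := by
    rw [← dt_self, ← hv, ← dt_self v, hvw]
    simp only [dt_add_left, dt_add_right, dt_smul_left, dt_smul_right, dt_comm e w, hwe, hee]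
    ring
  have hα : Y * α ^ 2 ≤ xe J u := by
    have h0 : 0 ≤ dt (e - α • v) (mv (cm2 J u) (e - α • v)) := by
      rw [dt_quad, cm2_quad]; exact ev_nonneg fun x => sq_nonneg _
    have hs : dt v (mv (cm2 J u) e) = Y * α := by
      rw [dt_mv_symm (cm2_comm J u), hC, dt_smul_left, dt_comm v e, hαe]
    simp only [mv_sub, mv_smul, hC, dt_sub_left, dt_sub_right, dt_smul_left, dt_smul_right, hxe,
      dt_self, hv, hs, hαe] at h0
    nlinarith
  have hq : κ * sq1 w ≤ dt w (mv (hA b η n J u) w) := by rw [dt_quad]; exact hH w hwm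
  have hlow := quad_lower (b := b) (η := η) hη hm hmn hJ u (α := α) (by rw [← dt_self, hee]) hwm hq
  rw [← hvw] at hlow
  have hmono := dt_hA'_mono b hη.le n J u v
  have hid := top_identity b n J u hv hY (δ := κ / 4) (by positivity) hC
  have := op_nonneg J
  refine top_algebra (q := dt v (mv (hA' b 0 n J u) v)) hκ hY hw2 hα (by positivity) (by positivity)
    ?_ (by linarith)
  set O := 1 / η + b ^ 2 + op J
  have hsc : 2 * |α| * (O * √(sq1 w)) ≤ κ / 2 * sq1 w + 2 / κ * (α ^ 2 * O ^ 2) := by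
    refine le_of_mul_le_mul_left ?_ hκ
    have h := sq_nonneg (κ * √(sq1 w) - 2 * |α| * O)
    have e : κ * (κ / 2 * sq1 w + 2 / κ * (α ^ 2 * O ^ 2)) =
        ((κ * √(sq1 w)) ^ 2 + (2 * |α| * O) ^ 2) / 2 := by
      rw [mul_pow, mul_pow, mul_pow, sq_sqrt (sq1_nonneg w), sq_abs]; field_simp
    rw [e]
    linarith
  linarith

/-- The bound when the Hessian is positive everywhere. -/
theorem op_cov_le_of_pos {b c : ℝ} {n : ℕ} (hc : 0 < c) (hm : 0 < m) (J : Mat m) (u : Vec m)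
    (hH : ∀ v : Vec m, c * sq1 v ≤ dt v (mv (hA' b 0 n J u) v)) :
    op (cm2 J u) ≤
      2 / c * (1 + op (resid b n J u) + (∑ i, epsV b n J u i ^ 4) / (c / 2) ^ 3) := by
  obtain ⟨v, hv, hC⟩ := exists_top hm J u
  set Y := op (cm2 J u)
  have hY : 0 ≤ Y := op_nonneg _
  have hid := top_identity b n J u hv hY (δ := c / 2) (by positivity) hC
  have hq := mul_le_mul_of_nonneg_left (hH v) hY
  rw [hv, mul_one] at hq
  rw [div_mul_eq_mul_div, le_div_iff₀ hc]
  linarith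

end Vale.Agent.P150.Weak.YB
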