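import Vale.Agent.P150.Weak.YBound.Integr
import Vale.Agent.P150.Weak.YBound.Det
import Vale.Agent.P150.Weak.Found.Slice

/-!
Planted expectations bounded on a good event and on its complement, and the measurability and
integrability facts used by the bounds of the covariance norm.
-/

open MeasureTheory ProbabilityTheory Finset Real

namespace Vale.Agent.P150.Weak.YB

open Gap

variable {m : ℕ} {b τ : ℝ} {n : ℕ}

lemma Gr.integrable' {f : Mat m → Vec m → ℝ} (hf : Gr f) :
    Integrable (fun g => f (plJ (b ^ 2 / n) g) (plU τ g)) (gauss (Idx m)) :=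
  hf.integrable _ _

lemma gr_op_pow (p : ℕ) : Gr fun (J : Mat m) (_ : Vec m) => op J ^ (2 * p) := by
  refine Gr.mono ((Gr.sum (s := univ) fun i =>
    Gr.sum (s := univ) fun j => (Gr.entry i j).pow 2).pow p)
    ((continuous_op.comp continuous_fst).pow _) fun J u => ?_
  have h0 : 0 ≤ sq2 J := sum_nonneg fun i _ => sum_nonneg fun j _ => sq_nonneg _
  rw [abs_of_nonneg (pow_nonneg (op_nonneg J) _), abs_pow]
  refine (pow_le_pow_left₀ (op_nonneg J) (op_le_sqrt_sq2 J) _).trans (le_of_eq ?_)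
  rw [pow_mul, sq_sqrt h0]
  show sq2 J ^ p = |sq2 J| ^ p
  rw [abs_of_nonneg h0]

/-- A bound valid off an event, corrected on it. -/
lemma pEv_le_split {F G H : Mat m → Vec m → ℝ} {bad : Set (Idx m → ℝ)} {P : ℝ}
    (hF0 : ∀ J u, 0 ≤ F J u) (hG : Gr G) (hH : Gr H) (hG0 : ∀ J u, 0 ≤ G J u)
    (hP : (gauss (Idx m)).real bad ≤ P)
    (hgood : ∀ g, g ∉ bad →
      F (plJ (b ^ 2 / n) g) (plU τ g) ≤ G (plJ (b ^ 2 / n) g) (plU τ g))
    {c : ℝ} (hc : 0 ≤ c)
    (hbad : ∀ g, F (plJ (b ^ 2 / n) g) (plU τ g) ≤ H (plJ (b ^ 2 / n) g) (plU τ g) + c)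
    (hH0 : ∀ J u, 0 ≤ H J u) :
    pEv b n m τ F ≤ pEv b n m τ G + pEv b n m τ H + c * P := by
  set S := toMeasurable (gauss (Idx m)) bad
  have hS : MeasurableSet S := measurableSet_toMeasurable _ _
  have hreal : (gauss (Idx m)).real S ≤ P := by
    rwa [measureReal_def, measure_toMeasurable, ← measureReal_def]
  have hI : Integrable (S.indicator fun _ : Idx m → ℝ => c) (gauss (Idx m)) :=
    (integrable_const c).indicator hS
  have hGi := hG.integrable' (b := b) (n := n) (τ := τ)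
  have hHi := hH.integrable' (b := b) (n := n) (τ := τ)
  calc pEv b n m τ F ≤ ∫ g, (G (plJ (b ^ 2 / n) g) (plU τ g) + H (plJ (b ^ 2 / n) g) (plU τ g)) +
        S.indicator (fun _ => c) g ∂gauss (Idx m) := by
        refine integral_mono_of_nonneg (ae_of_all _ fun g => hF0 _ _) ((hGi.add hHi).add hI)
          (ae_of_all _ fun g => ?_)
        show F (plJ (b ^ 2 / n) g) (plU τ g) ≤
          G (plJ (b ^ 2 / n) g) (plU τ g) + H (plJ (b ^ 2 / n) g) (plU τ g) +
            S.indicator (fun _ => c) g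
        by_cases hg : g ∈ S
        · rw [Set.indicator_of_mem hg]
          linarith [hbad g, hG0 (plJ (b ^ 2 / n) g) (plU τ g)]
        · rw [Set.indicator_of_notMem hg, add_zero]
          linarith [hgood g fun h => hg (subset_toMeasurable _ _ h),
            hH0 (plJ (b ^ 2 / n) g) (plU τ g)]
    _ ≤ _ := by
        refine (integral_add (f := fun g => G (plJ (b ^ 2 / n) g) (plU τ g) +
          H (plJ (b ^ 2 / n) g) (plU τ g)) (hGi.add hHi) hI).trans_le ?_
        rw [integral_add hGi hHi, integral_indicator_const c hS, smul_eq_mul,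
          mul_comm ((gauss (Idx m)).real S)]
        exact add_le_add le_rfl (mul_le_mul_of_nonneg_left hreal hc)

lemma pEv_add' {F G : Mat m → Vec m → ℝ} (hF : Gr F) (hG : Gr G) :
    pEv b n m τ (fun J u => F J u + G J u) = pEv b n m τ F + pEv b n m τ G :=
  integral_add hF.integrable' hG.integrable'

lemma pEv_mul_left (c : ℝ) (F : Mat m → Vec m → ℝ) :
    pEv b n m τ (fun J u => c * F J u) = c * pEv b n m τ F :=
  integral_const_mul c _

lemma pEv_const' (c : ℝ) : pEv b n m τ (fun (_ : Mat m) (_ : Vec m) => c) = c := by simp [pEv]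

lemma sq2_nonneg (A : Mat m) : 0 ≤ sq2 A := sum_nonneg fun _ _ => sum_nonneg fun _ _ => sq_nonneg _

lemma sum_eps_nonneg (b : ℝ) (n : ℕ) (J : Mat m) (u : Vec m) :
    0 ≤ ∑ i, epsV b n J u i ^ 4 :=
  sum_nonneg fun i _ => Even.pow_nonneg (by decide) _

lemma op_sq_le_sq2 (A : Mat m) : op A ^ 2 ≤ sq2 A :=
  (pow_le_pow_left₀ (op_nonneg A) (op_le_sqrt_sq2 A) 2).trans_eq (sq_sqrt (sq2_nonneg A))

lemma pPr_union_le (A B : Set (Idx m → ℝ)) {x y : ℝ} (hA : (gauss (Idx m)).real A ≤ x)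
    (hB : (gauss (Idx m)).real B ≤ y) : (gauss (Idx m)).real (A ∪ B) ≤ x + y :=
  (measureReal_union_le A B).trans (add_le_add hA hB)

lemma sq_mul_exp_le {c x : ℝ} (hc : 0 < c) (hx : 0 ≤ x) :
    x ^ 2 * exp (-(c * x)) ≤ 2 / c ^ 2 := by
  have h := quadratic_le_exp_of_nonneg (mul_nonneg hc.le hx)
  rw [exp_neg, ← div_eq_mul_inv, div_le_div_iff₀ (exp_pos _) (by positivity)]
  have : 0 ≤ c * x := mul_nonneg hc.le hx
  linarith [mul_pow c x 2]

end Vale.Agent.P150.Weak.YB
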