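import Vale.Agent.P150.Weak.YBound.Events

/-!
The gradient of the longitudinal iterate is small in mean: small on the good event by delocalisation,
bounded uniformly in the cap where only the covariance is large, and integrable otherwise.
-/

open MeasureTheory ProbabilityTheory Finset Real Filter
open scoped Topology

namespace Vale.Agent.P150.Weak.YB

open Gap

/-- The norm bound `K` of the iterate over `√n`. -/
noncomputable def kY (b : ℝ) : ℝ := 4 / kap b

/-- The bound of `|y/(w+η)|` over `√n`. -/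
noncomputable def kBeta (b c Q : ℝ) : ℝ := 2 + (4 + pen0 b c Q) * kY b

/-- The coefficient of `|y|²/√n` in the gradient. -/
noncomputable def kF (b c Q : ℝ) : ℝ := 2 * b ^ 2 + 2 * |pen0 b c Q|

/-- The uniform bound of the gradient on the good event. -/
noncomputable def kA (b c Q : ℝ) : ℝ :=
  2 * kY b + 4 * kBeta b c Q ^ 2 + kF b c Q * kY b ^ 2 + 1

/-- The coefficient of the geometric remainder of the gradient. -/
noncomputable def kTail (b η c Q : ℝ) : ℝ :=
  (2 / η ^ 2 + 2 * b ^ 2 + 2 * |pen0 b c Q|) / (lam0 b η c Q * (kap b / 2))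

lemma lam0_pos {b η c Q : ℝ} (h0 : 0 < b) (h1 : b < 1) (hη : 0 < η) (hc : 0 < c) (hQ : 0 ≤ Q) :
    0 < lam0 b η c Q := by
  have := pen0_pos h0 h1 hc hQ
  unfold lam0
  positivity

/-- The gradient on the good event. -/
theorem avec_good {b η c Q : ℝ} (h0 : 0 < b) (h1 : b < 1) (hη : 0 < η) (hc : 0 < c) (hQ : 0 ≤ Q)
    {n : ℕ} (hn : 0 < n) {J : Mat n} (hJ : IsCoupling J) {u : Vec n}
    (hg : Good0 b η c Q n J u) (j : ℕ) :
    let G := pen0 b c Q
    let L := lam0 b η c Q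
    √(sq1 (avec b η G L n j J u)) ≤
        (2 * kY b + kF b c Q * kY b ^ 2) / √(n:ℝ) +
          4 * (√(∑ k, (yIt b η G L n j J u k / (vw J u k + η)) ^ 4) / n) +
          kTail b η c Q * (j * rho0 b η c Q ^ (j - 1)) ∧
      √(∑ k, (yIt b η G L n j J u k / (vw J u k + η)) ^ 4) / n ≤ kBeta b c Q ^ 2 := by
  intro G L
  have hκ := kap_pos h0 h1
  have hG : 0 < G := pen0_pos h0 h1 hc hQ
  have hn' : (0:ℝ) < n := Nat.cast_pos.2 hn
  obtain ⟨-, hy, -, hbeta⟩ := basic_bounds h0 h1 hη hc hQ hn le_rfl hJ hg j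
  have hop : op (hM b η G n J u) ≤ L := by
    refine (op_hM_le b G hη hn le_rfl J u).trans ?_
    rw [abs_of_pos hG]
    simp only [L, lam0, G]
    linarith [hg.2.1]
  have hav := avec_le (L := L) hη (lam0_pos h0 h1 hη hc hQ) (by positivity : 0 < kap b / 2) hn hn
    le_rfl j hJ u (pd_of_good h0 h1 hη hc hQ hn le_rfl hJ hg) hop
  set y := yIt b η G L n j J u
  change √(sq1 y) ≤ kY b * √(n:ℝ) at hy
  change √(sq1 fun i => y i / (vw J u i + η)) ≤ kBeta b c Q * √(n:ℝ) at hbeta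
  have hs : √(n:ℝ) * √(n:ℝ) = n := mul_self_sqrt hn'.le
  have hs0 : 0 < √(n:ℝ) := sqrt_pos.2 hn'
  refine ⟨hav.trans ?_, ?_⟩
  · have hy2 : sq1 y ≤ kY b ^ 2 * n := by
      have h := pow_le_pow_left₀ (sqrt_nonneg _) hy 2
      rwa [sq_sqrt (sq1_nonneg y), mul_pow, sq_sqrt hn'.le] at h
    have hF : 0 ≤ kF b c Q := by unfold kF; positivity
    rw [div_le_iff₀ hn']
    have a1 : 2 * √(sq1 y) ≤ 2 * kY b / √(n:ℝ) * n := by
      rw [show 2 * kY b / √(n:ℝ) * n = 2 * (kY b * √(n:ℝ)) by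
        nth_rw 2 [← hs]; field_simp]
      exact mul_le_mul_of_nonneg_left hy zero_le_two
    have a2 : (2 * b ^ 2 + 2 * |G|) * sq1 y / √(n:ℝ) ≤ kF b c Q * kY b ^ 2 / √(n:ℝ) * n := by
      refine (div_le_div_of_nonneg_right (mul_le_mul_of_nonneg_left hy2 hF) hs0.le).trans
        (le_of_eq ?_)
      ring
    have a3 : 4 * √(∑ k, (y k / (vw J u k + η)) ^ 4) =
        4 * (√(∑ k, (y k / (vw J u k + η)) ^ 4) / n) * n := by
      field_simp
    simp only [kTail, rho0] at *
    rw [add_mul _ _ (n:ℝ), add_mul _ _ (n:ℝ)]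
    have a4 : (2 * kY b + kF b c Q * kY b ^ 2) / √(n:ℝ) * n =
        2 * kY b / √(n:ℝ) * n + kF b c Q * kY b ^ 2 / √(n:ℝ) * n := by ring
    simp only [G, L] at *
    linarith
  · rw [div_le_iff₀ hn', Real.sqrt_le_iff]
    refine ⟨by positivity, (sum_pow_four_le _).trans ?_⟩
    have h := pow_le_pow_left₀ (sqrt_nonneg _) hbeta 2
    rw [sq_sqrt (sq1_nonneg _), mul_pow, sq_sqrt hn'.le] at h
    exact pow_le_pow_left₀ (sq1_nonneg _) h 2

/-- Two independent copies separated by `d` on two events. -/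
lemma two_copies {α : Type*} [MeasurableSpace α] {μ : Measure α} [IsProbabilityMeasure μ]
    {p : α → ℝ} (hp : Integrable p μ) {A B : Set α} (hA : MeasurableSet A) (hB : MeasurableSet B)
    {d : ℝ} (hAB : ∀ x ∈ A, ∀ y ∈ B, d ≤ |p x - p y|) :
    d * μ.real A * μ.real B ≤ ∫ x, ∫ y, |p x - p y| ∂μ ∂μ := by
  have hi : ∀ x, Integrable (fun y => |p x - p y|) μ := fun x =>
    ((integrable_const _).sub hp).abs
  have hin : ∀ x ∈ A, d * μ.real B ≤ ∫ y, |p x - p y| ∂μ := by
    intro x hx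
    calc d * μ.real B = ∫ y, B.indicator (fun _ => d) y ∂μ := by
          rw [integral_indicator_const d hB, smul_eq_mul, mul_comm]
      _ ≤ _ := by
          refine integral_mono ((integrable_const d).indicator hB) (hi x) fun y => ?_
          by_cases hy : y ∈ B
          · simpa [Set.indicator_of_mem hy] using hAB x hx y hy
          · simp [Set.indicator_of_notMem hy]
  calc d * μ.real A * μ.real B = ∫ x, A.indicator (fun _ => d * μ.real B) x ∂μ := by
        rw [integral_indicator_const _ hA, smul_eq_mul]; ring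
    _ ≤ _ := by
        refine integral_mono ((integrable_const _).indicator hA)
          (((hp.comp_fst _).sub (hp.comp_snd _)).abs).integral_prod_left fun x => ?_
        by_cases hx : x ∈ A
        · simpa [Set.indicator_of_mem hx] using hin x hx
        · simp [Set.indicator_of_notMem hx, integral_nonneg fun _ => abs_nonneg _]

/-- Young's inequality in the form used below. -/
lemma mul_le_sq_add {a x δ : ℝ} (hδ : 0 < δ) : a * x ≤ δ * a ^ 2 + x ^ 2 / (4 * δ) := by
  have h : δ * a ^ 2 + x ^ 2 / (4 * δ) - a * x = (2 * δ * a - x) ^ 2 / (4 * δ) := by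
    field_simp
    ring
  have : 0 ≤ (2 * δ * a - x) ^ 2 / (4 * δ) := by positivity
  linarith

/-- The mean of the gradient of `p_j`. -/
theorem conc_mean {b η c Q : ℝ} (h0 : 0 < b) (h1 : b < 1) (hη : 0 < η) (hc : 0 < c) (hQ : 0 ≤ Q)
    (hJS : JSpec b) (j : ℕ) {ε' : ℝ} (hε' : 0 < ε') :
    ∃ Cη CJ : ℝ, 0 ≤ Cη ∧ 0 ≤ CJ ∧ ∀ n : ℕ, ∀ τ θ M ε δ' Cg : ℝ, ∀ S₀ S₁ : Set (Idx n → ℝ),
      0 < n → 0 ≤ τ → 0 < ε → 0 < δ' → δ' * CJ ≤ ε' →
      pEv b n n τ (fun J u => gradSize b τ n J u ^ 2) ≤ Cg →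
      (∀ g, g ∉ S₀ → Good0 b η c Q n (jOf b n g) (plU τ g)) →
      (∀ g, g ∉ S₀ → g ∉ S₁ → √(sq1 (avec b η (pen0 b c Q) (lam0 b η c Q) n j
        (jOf b n g) (plU τ g))) ≤ ε) →
      (∀ g, g ∉ S₀ → √(sq1 (avec b η (pen0 b c Q) (lam0 b η c Q) n j
        (jOf b n g) (plU τ g))) ≤ kA b c Q) →
      (gauss (Idx n)).real S₀ ≤ θ → (gauss (Idx n)).real S₁ ≤ M →
      pEv b n n τ (fun J u =>
        gradSize b τ n J u * √(sq1 (avec b η (pen0 b c Q) (lam0 b η c Q) n j J u)) +
          4 * √(b ^ 2 / n) * √(sq2 (bmat b η (pen0 b c Q) (lam0 b η c Q) n j J (u : Vec n)))) ≤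
        2 * ε * Cg + ε + ε' + 4 * √(b ^ 2 / n) * (Cη * CJ) + kA b c Q ^ 2 / (4 * ε) * M +
          (Cη ^ 2 / (4 * ε)) ^ 2 / (4 * δ') * θ := by
  have hL := lam0_pos h0 h1 hη hc hQ
  obtain ⟨Cη, hCη0, hCη⟩ := grad_global (b := b) (G := pen0 b c Q) hη hL j
  obtain ⟨CJ, hCJ⟩ := hJS.2 (8 * j)
  refine ⟨Cη, 2 ^ (8 * j) * (1 + |CJ|), hCη0, by positivity,
    fun n τ θ M ε δ' Cg S₀ S₁ hn hτ hε hδ hδ' hCg hgood hsmall hunif hS₀ hS₁ => ?_⟩
  set G := pen0 b c Q
  set L := lam0 b η c Q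
  set μ := gauss (Idx n)
  set T₀ := toMeasurable μ S₀
  set T₁ := toMeasurable μ S₁
  have hT₀ : MeasurableSet T₀ := measurableSet_toMeasurable _ _
  have hT₁ : MeasurableSet T₁ := measurableSet_toMeasurable _ _
  have hT₀' : μ.real T₀ ≤ θ := by
    rwa [measureReal_def, measure_toMeasurable, ← measureReal_def]
  have hT₁' : μ.real T₁ ≤ M := by
    rwa [measureReal_def, measure_toMeasurable, ← measureReal_def]
  set c₀ := (Cη ^ 2 / (4 * ε)) ^ 2 / (4 * δ')
  set c₁ := kA b c Q ^ 2 / (4 * ε)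
  have hc₀ : 0 ≤ c₀ := by positivity
  have hc₁ : 0 ≤ c₁ := by positivity
  set v := 4 * √(b ^ 2 / (n:ℝ))
  have hv : 0 ≤ v := by positivity
  set X : Mat n → Vec n → ℝ := fun J u =>
    2 * ε * gradSize b τ n J u ^ 2 + ε + (δ' + v * Cη) * (1 + op J) ^ (8 * j)
  have hgs : PB fun J (u : Vec n) => gradSize b τ n J u ^ 2 := (pb_gradSize b τ n).pow 2
  have hpow : PB fun J (_ : Vec n) => (1 + op J) ^ (8 * j) := pb_one_add_op.pow _
  have hX1 : PB fun J (u : Vec n) => 2 * ε * gradSize b τ n J u ^ 2 + ε :=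
    (hgs.const_mul _).add (PB.const ε)
  have hXi : PB X := hX1.add (hpow.const_mul _)
  obtain ⟨-, hRi, -, -⟩ := conc_pIt (b := b) (G := G) h0 hη hL hτ hn (le_refl n) j
  have hI₀ : Integrable (T₀.indicator fun _ : Idx n → ℝ => c₀) μ :=
    (integrable_const _).indicator hT₀
  have hI₁ : Integrable (T₁.indicator fun _ : Idx n → ℝ => c₁) μ :=
    (integrable_const _).indicator hT₁
  have hXg := hXi.integrable (b ^ 2 / n) τ
  refine (integral_mono hRi ((hXg.add hI₀).add hI₁) fun g => ?_).trans ?_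
  · simp only [Pi.add_apply]
    set J := plJ (b ^ 2 / n) g
    set u := plU τ g
    set a := gradSize b τ n J u
    have ha : 0 ≤ a := gradSize_nonneg b τ h0.le n J u
    set x := √(sq1 (avec b η G L n j J u))
    have hx : 0 ≤ x := sqrt_nonneg _
    obtain ⟨hA, hB⟩ := hCη n n hn le_rfl J u
    set P := (1 + op J) ^ (2 * j)
    have hP1 : 1 ≤ P := one_le_pow₀ (le_add_of_nonneg_right (op_nonneg J))
    have hP4 : (1 + op J) ^ (8 * j) = P ^ 4 := by
      simp only [P, ← pow_mul]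
      ring_nf
    have hPle : P ≤ P ^ 4 := le_self_pow₀ hP1 (by norm_num)
    have hBm : v * √(sq2 (bmat b η G L n j J u)) ≤ v * Cη * P ^ 4 := by
      calc v * √(sq2 (bmat b η G L n j J u)) ≤ v * (Cη * P ^ 4) :=
            mul_le_mul_of_nonneg_left (hB.trans (mul_le_mul_of_nonneg_left hPle hCη0)) hv
        _ = _ := by ring
    have h₀ : 0 ≤ T₀.indicator (fun _ => c₀) g := Set.indicator_nonneg (fun _ _ => hc₀) g
    have h₁ : 0 ≤ T₁.indicator (fun _ => c₁) g := Set.indicator_nonneg (fun _ _ => hc₁) g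
    have h8 : 0 ≤ δ' * P ^ 4 := mul_nonneg hδ.le (pow_nonneg (by linarith) 4)
    have key : a * x ≤ 2 * ε * a ^ 2 + ε + δ' * P ^ 4 + T₀.indicator (fun _ => c₀) g +
        T₁.indicator (fun _ => c₁) g := by
      have hea : 0 ≤ ε * a ^ 2 := by positivity
      by_cases hg₀ : g ∈ T₀
      · have q1 : a * x ≤ ε * a ^ 2 + (Cη * P) ^ 2 / (4 * ε) :=
          (mul_le_mul_of_nonneg_left hA ha).trans (mul_le_sq_add hε)
        have q2 : (Cη * P) ^ 2 / (4 * ε) ≤ δ' * P ^ 4 + c₀ := by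
          have := mul_le_sq_add (a := P ^ 2) (x := Cη ^ 2 / (4 * ε)) hδ
          calc (Cη * P) ^ 2 / (4 * ε) = P ^ 2 * (Cη ^ 2 / (4 * ε)) := by ring
            _ ≤ δ' * (P ^ 2) ^ 2 + c₀ := this
            _ = _ := by ring
        rw [Set.indicator_of_mem hg₀]
        linarith
      · have hg₀' : g ∉ S₀ := fun h => hg₀ (subset_toMeasurable _ _ h)
        by_cases hg₁ : g ∈ T₁
        · have q1 : a * x ≤ ε * a ^ 2 + c₁ :=
            (mul_le_mul_of_nonneg_left (hunif g hg₀') ha).trans (mul_le_sq_add hε)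
          rw [Set.indicator_of_mem hg₁]
          linarith
        · have q1 : a * x ≤ a * ε :=
            mul_le_mul_of_nonneg_left (hsmall g hg₀' fun h => hg₁ (subset_toMeasurable _ _ h)) ha
          have q2 : a * ε ≤ (a ^ 2 + 1) * ε :=
            mul_le_mul_of_nonneg_right (by nlinarith [sq_nonneg (a - 1 / 2)]) hε.le
          linarith
    simp only [X, hP4]
    linarith
  · rw [integral_add' (hXg.add hI₀) hI₁, integral_add' hXg hI₀, integral_indicator_const c₁ hT₁,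
      integral_indicator_const c₀ hT₀, smul_eq_mul, smul_eq_mul]
    simp only [X]
    rw [integral_add (hX1.integrable (b ^ 2 / n) τ) ((hpow.const_mul (δ' + v * Cη)).integrable (b ^ 2 / n) τ),
      integral_add ((hgs.const_mul (2 * ε)).integrable (b ^ 2 / n) τ) (integrable_const ε), integral_const_mul,
      integral_const_mul, integral_const, probReal_univ, one_smul]
    set CJ' := 2 ^ (8 * j) * (1 + |CJ|)
    have hm8 : ∫ g, (1 + op (plJ (b ^ 2 / n) g)) ^ (8 * j) ∂μ ≤ CJ' := by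
      have i8 : PB fun J (_ : Vec n) => op J ^ (8 * j) := pb_op.pow _
      calc ∫ g, (1 + op (plJ (b ^ 2 / n) g)) ^ (8 * j) ∂μ
          ≤ ∫ g, (2 ^ (8 * j) + 2 ^ (8 * j) * op (plJ (b ^ 2 / n) g) ^ (8 * j)) ∂μ := by
            refine integral_mono (hpow.integrable (b ^ 2 / n) τ)
              (((PB.const _).add (i8.const_mul ((2:ℝ) ^ (8 * j)))).integrable (b ^ 2 / n) τ) fun g => ?_
            show (1 + op (plJ (b ^ 2 / n) g)) ^ (8 * j) ≤ _
            refine (add_pow_le zero_le_one (op_nonneg _) _).trans ?_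
            rw [one_pow, mul_add, mul_one]
            have h2 : (2:ℝ) ^ (8 * j - 1) ≤ 2 ^ (8 * j) :=
              pow_le_pow_right₀ one_le_two (Nat.sub_le _ _)
            exact add_le_add h2 (mul_le_mul_of_nonneg_right h2 (pow_nonneg (op_nonneg _) _))
        _ = 2 ^ (8 * j) + 2 ^ (8 * j) * ∫ g, op (plJ (b ^ 2 / n) g) ^ (8 * j) ∂μ := by
            rw [integral_add (integrable_const ((2:ℝ) ^ (8 * j))) ((i8.const_mul ((2:ℝ) ^ (8 * j))).integrable (b ^ 2 / n) τ),
              integral_const_mul]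
            simp [μ]
        _ ≤ _ := by
            simp only [CJ', mul_add, mul_one]
            exact add_le_add le_rfl (mul_le_mul_of_nonneg_left
              ((hCJ n n τ hn le_rfl).trans (le_abs_self _)) (by positivity))
    have h1 := mul_le_mul_of_nonneg_left hm8 (by positivity : 0 ≤ δ' + v * Cη)
    have h2 := mul_le_mul_of_nonneg_left hCg (by positivity : 0 ≤ 2 * ε)
    have h3 := mul_le_mul_of_nonneg_left hT₀' hc₀
    have h4 := mul_le_mul_of_nonneg_left hT₁' hc₁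
    simp only [pEv] at h2
    rw [mul_comm (μ.real T₁), mul_comm (μ.real T₀)]
    linarith

end Vale.Agent.P150.Weak.YB
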