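import Vale.Agent.P150.Weak.YBound.GradDefs
import Vale.Agent.P150.Weak.Found.Slice
import Vale.Agent.P150.Weak.Found.Split
import Vale.Agent.P150.Weak.GaussDiv

/-!
Continuity, crude bounds and integrability of the observables used in the bound of the covariance
norm, with Markov's and Cauchy's inequality in the planted family.
-/

open MeasureTheory Finset Real

namespace Vale.Agent.P150.Weak.YB

open Gap

variable {m : ℕ}

/-! ### Observables with polynomial growth in the operator norm of the couplings -/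

/-- Jointly continuous, and bounded on couplings by a power of `1 + ‖J‖`. -/
def PB (φ : Mat m → Vec m → ℝ) : Prop :=
  Continuous (fun q : Mat m × Vec m => φ q.1 q.2) ∧
    ∃ C : ℝ, ∃ k : ℕ, ∀ J : Mat m, IsCoupling J → ∀ u, |φ J u| ≤ C * (1 + op J) ^ k

lemma one_le_one_add_op (J : Mat m) : (1:ℝ) ≤ 1 + op J := le_add_of_nonneg_right (op_nonneg J)

namespace PB

variable {φ ψ : Mat m → Vec m → ℝ}

lemma of_le (hc : Continuous fun q : Mat m × Vec m => φ q.1 q.2) {B : ℝ}
    (h : ∀ J : Mat m, IsCoupling J → ∀ u, |φ J u| ≤ B) : PB φ :=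
  ⟨hc, B, 0, fun J hJ u => by simpa using h J hJ u⟩

lemma const (c : ℝ) : PB fun (_ : Mat m) (_ : Vec m) => c :=
  of_le continuous_const fun _ _ _ => le_rfl

lemma nonneg_const (h : PB φ) : ∃ C : ℝ, ∃ k : ℕ, 0 ≤ C ∧
    ∀ J : Mat m, IsCoupling J → ∀ u, |φ J u| ≤ C * (1 + op J) ^ k := by
  obtain ⟨-, C, k, hC⟩ := h
  exact ⟨|C|, k, abs_nonneg C, fun J hJ u => (hC J hJ u).trans
    (mul_le_mul_of_nonneg_right (le_abs_self C) (pow_nonneg (by linarith [op_nonneg J]) k))⟩

lemma add (h : PB φ) (h' : PB ψ) : PB fun J u => φ J u + ψ J u := by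
  obtain ⟨C, k, hC0, hC⟩ := h.nonneg_const
  obtain ⟨C', k', hC0', hC'⟩ := h'.nonneg_const
  refine ⟨h.1.add h'.1, C + C', k + k', fun J hJ u => ?_⟩
  have h1 := one_le_one_add_op J
  refine (abs_add_le _ _).trans ((add_le_add
    ((hC J hJ u).trans (mul_le_mul_of_nonneg_left (pow_le_pow_right₀ h1 (Nat.le_add_right k k')) hC0))
    ((hC' J hJ u).trans (mul_le_mul_of_nonneg_left (pow_le_pow_right₀ h1 (Nat.le_add_left k' k))
      hC0'))).trans_eq ?_)
  ring

lemma mul (h : PB φ) (h' : PB ψ) : PB fun J u => φ J u * ψ J u := by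
  obtain ⟨C, k, hC0, hC⟩ := h.nonneg_const
  obtain ⟨C', k', hC0', hC'⟩ := h'.nonneg_const
  refine ⟨h.1.mul h'.1, C * C', k + k', fun J hJ u => ?_⟩
  rw [abs_mul]
  refine (mul_le_mul (hC J hJ u) (hC' J hJ u) (abs_nonneg _)
    ((abs_nonneg _).trans (hC J hJ u))).trans_eq ?_
  rw [pow_add]
  ring

lemma neg (h : PB φ) : PB fun J u => -φ J u := by
  obtain ⟨hc, C, k, hC⟩ := h
  exact ⟨hc.neg, C, k, fun J hJ u => by rw [abs_neg]; exact hC J hJ u⟩

lemma sub (h : PB φ) (h' : PB ψ) : PB fun J u => φ J u - ψ J u := by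
  simpa [sub_eq_add_neg] using h.add h'.neg

lemma const_mul (h : PB φ) (c : ℝ) : PB fun J u => c * φ J u := (const c).mul h

lemma div_const (h : PB φ) (c : ℝ) : PB fun J u => φ J u / c := by
  simpa [div_eq_mul_inv] using h.mul (const c⁻¹)

lemma pow (h : PB φ) (k : ℕ) : PB fun J u => φ J u ^ k := by
  induction k with
  | zero => simpa using const (m := m) 1
  | succ k ih => simpa [pow_succ] using ih.mul h

lemma sum {α : Type*} {s : Finset α} {F : α → Mat m → Vec m → ℝ} (h : ∀ a, PB (F a)) :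
    PB fun J u => ∑ a ∈ s, F a J u := by
  classical
  induction s using Finset.induction with
  | empty => simpa using const (m := m) 0
  | @insert a s ha ih =>
    simp only [Finset.sum_insert ha]
    exact (h a).add ih

lemma abs (h : PB φ) : PB fun J u => |φ J u| := by
  obtain ⟨hc, C, k, hC⟩ := h
  exact ⟨hc.abs, C, k, fun J hJ u => by rw [abs_abs]; exact hC J hJ u⟩

lemma sqrt (h : PB φ) : PB fun J u => √(φ J u) := by
  obtain ⟨C, k, hC0, hC⟩ := h.nonneg_const
  refine ⟨h.1.sqrt, 1 + C, k, fun J hJ u => ?_⟩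
  have h1 : (1:ℝ) ≤ (1 + op J) ^ k := one_le_pow₀ (one_le_one_add_op J)
  rw [abs_of_nonneg (sqrt_nonneg _)]
  refine (Real.sqrt_le_iff.2 ⟨by nlinarith, ?_⟩)
  nlinarith [hC J hJ u, le_abs_self (φ J u)]

lemma op_of_entries {A : Mat m → Vec m → Mat m} (h : ∀ i j, PB fun J u => A J u i j) :
    PB fun J u => op (A J u) := by
  obtain ⟨-, C, k, hC⟩ := (PB.sum (s := univ) fun i => PB.sum (s := univ) fun j => (h i j).pow 2).sqrt
  refine ⟨continuous_op.comp (f := fun q : Mat m × Vec m => A q.1 q.2)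
    (continuous_pi fun i => continuous_pi fun j => (h i j).1), C, k, fun J hJ u => ?_⟩
  rw [abs_of_nonneg (op_nonneg _)]
  exact (op_le_sqrt_sq2 _).trans ((le_abs_self _).trans (hC J hJ u))

end PB

lemma abs_entry_le_op (A : Mat m) (i j : Fin m) : |A i j| ≤ op A := by
  set e : Vec m := Pi.single j 1 with he
  have h1 : sq1 e = 1 := by simp [sq1, he, Pi.single_apply]
  have h2 : mv A e i = A i j := by simp [mv, he, Pi.single_apply]
  have h3 := sqrt_sq1_mv_le A e
  rw [h1, Real.sqrt_one, mul_one, Real.sqrt_le_left (op_nonneg A)] at h3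
  rw [← h2]
  refine abs_le_of_sq_le_sq (le_trans ?_ h3) (op_nonneg A)
  exact single_le_sum (f := fun a => mv A e a ^ 2) (fun _ _ => sq_nonneg _) (mem_univ i)

lemma pb_entry (i j : Fin m) : PB fun J (_ : Vec m) => J i j :=
  ⟨by fun_prop, 1, 1, fun J _ _ => by
    rw [one_mul, pow_one]; linarith [abs_entry_le_op J i j]⟩

lemma pb_op : PB fun J (_ : Vec m) => op J := PB.op_of_entries fun i j => pb_entry i j

lemma pb_one_add_op : PB fun J (_ : Vec m) => 1 + op J := (PB.const 1).add pb_op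

/-! ### Crude bounds -/

lemma op_cm2_le (J : Mat m) (u : Vec m) : op (cm2 J u) ≤ 4 * m := by
  refine (op_le_sqrt_sq2 _).trans (Real.sqrt_le_iff.2 ⟨by positivity, ?_⟩)
  calc sq2 (cm2 J u) ≤ ∑ _i : Fin m, ∑ _j : Fin m, (16:ℝ) :=
        sum_le_sum fun i _ => sum_le_sum fun j _ => by
          rw [← sq_abs]
          nlinarith [abs_cm2_le J u i j, abs_nonneg (cm2 J u i j)]
    _ = (4 * (m:ℝ)) ^ 2 := by simp; ring

lemma abs_del_mg_le (i : Fin (m + 1)) (J : Mat (m + 1)) (u : Vec (m + 1)) (a : Fin m) :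
    |del i mg J u a| ≤ 1 := by
  have h1 := abs_le.1 (abs_mg_le (Weak.sub i J) (subU i u + rowOf i J) a)
  have h2 := abs_le.1 (abs_mg_le (Weak.sub i J) (subU i u - rowOf i J) a)
  simp only [del, Pi.smul_apply, Pi.sub_apply, smul_eq_mul]
  rw [abs_le]; constructor <;> linarith

lemma abs_bar_mg_le (i : Fin (m + 1)) (J : Mat (m + 1)) (u : Vec (m + 1)) (a : Fin m) :
    |bar i mg J u a| ≤ 1 := by
  have h1 := abs_le.1 (abs_mg_le (Weak.sub i J) (subU i u + rowOf i J) a)
  have h2 := abs_le.1 (abs_mg_le (Weak.sub i J) (subU i u - rowOf i J) a)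
  simp only [bar, Pi.smul_apply, Pi.add_apply, smul_eq_mul]
  rw [abs_le]; constructor <;> linarith

/-- `|C_ia| ≤ w_i`. -/
lemma abs_cm2_le_vw {J : Mat m} (hJ : IsCoupling J) (u : Vec m) (i a : Fin m) :
    |cm2 J u i a| ≤ vw J u i := by
  rcases m with _ | k
  · exact i.elim0
  rcases eq_or_ne a i with rfl | h
  · rw [cm2_diag, abs_of_pos (vw_pos J u a)]
  · obtain ⟨c, rfl⟩ := Fin.exists_succAbove_eq h
    rw [cm2_self_rest hJ, abs_mul, abs_of_pos (vw_pos J u i)]
    exact mul_le_of_le_one_right (vw_pos J u i).le (abs_del_mg_le i J u c)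

/-- `|v_i / w_i| ≤ 2 m`. -/
lemma abs_brk_le {J : Mat m} (hJ : IsCoupling J) (u : Vec m) (i : Fin m) :
    |brk J u i| ≤ 2 * m := by
  rcases m with _ | k
  · exact i.elim0
  rw [brk, vv_self hJ, mul_div_cancel_left₀ _ (vw_pos J u i).ne']
  have h1 : sq1 (del i mg J u) ≤ k := by
    refine (sum_le_sum fun a _ => ((sq_le_one_iff_abs_le_one _).2
      (abs_del_mg_le i J u a))).trans_eq ?_
    simp
  have h2 : |∑ a, bar i mg J u a * del i mg J u a| ≤ k := by
    refine (abs_sum_le_sum_abs _ _).trans ((sum_le_sum (g := fun _ => (1:ℝ)) fun a _ => ?_).trans_eq (by simp))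
    rw [abs_mul]
    exact mul_le_one₀ (abs_bar_mg_le i J u a) (abs_nonneg _) (abs_del_mg_le i J u a)
  refine (abs_add_le _ _).trans ?_
  rw [abs_mul, abs_of_nonneg (show 0 ≤ 1 + sq1 (del i mg J u) by linarith [sq1_nonneg (del i mg J u)])]
  have h3 := abs_mg_le J u i
  push_cast
  nlinarith [sq1_nonneg (del i mg J u)]

lemma abs_div_vw_le {J : Mat m} (hJ : IsCoupling J) (u : Vec m) (i a : Fin m) :
    |cm2 J u i a / vw J u i| ≤ 1 := by
  rw [abs_div, abs_of_pos (vw_pos J u i), div_le_one (vw_pos J u i)]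
  exact abs_cm2_le_vw hJ u i a

lemma abs_sAvg_le (n : ℕ) (J : Mat m) (u : Vec m) : |sAvg n J u| ≤ m := by
  have h0 : 0 ≤ ∑ i, vw J u i := sum_nonneg fun i _ => (vw_pos J u i).le
  rw [sAvg, abs_of_nonneg (div_nonneg h0 (Nat.cast_nonneg n))]
  refine le_trans ?_ ((sum_le_sum fun i _ => vw_le_one J u i).trans_eq
    (show ∑ _i : Fin m, (1:ℝ) = m by simp))
  rcases n.eq_zero_or_pos with hn | hn
  · simpa [hn] using h0
  · exact div_le_self h0 (by exact_mod_cast hn)

lemma sum_abs_row_le (J : Mat m) (i : Fin m) : ∑ a, |J i a| ≤ m * op J := by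
  refine (sum_le_sum fun a _ => abs_entry_le_op J i a).trans_eq ?_
  simp

/-- `|ε_i| ≤ (b² + 1) (m + 1) (1 + ‖J‖)`, uniformly in `n`. -/
lemma abs_epsV_le (b : ℝ) (n : ℕ) {J : Mat m} (hJ : IsCoupling J) (u : Vec m) (i : Fin m) :
    |epsV b n J u i| ≤ (b ^ 2 + 1) * (m + 1) * (1 + op J) := by
  have h1 : |(∑ a, J i a * cm2 J u i a) / vw J u i| ≤ m * op J := by
    rw [sum_div]
    refine (abs_sum_le_sum_abs _ _).trans ((sum_le_sum fun a _ => ?_).trans (sum_abs_row_le J i))
    rw [mul_div_assoc, abs_mul]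
    exact mul_le_of_le_one_right (abs_nonneg _) (abs_div_vw_le hJ u i a)
  rw [epsV]
  refine (abs_sub _ _).trans ?_
  rw [abs_mul, abs_of_nonneg (sq_nonneg b)]
  have h2 := mul_le_mul_of_nonneg_left (abs_sAvg_le n J u) (sq_nonneg b)
  have h3 := op_nonneg J
  have : (0:ℝ) ≤ m := Nat.cast_nonneg m
  nlinarith [mul_nonneg (mul_nonneg (sq_nonneg b) this) h3, sq_nonneg b, mul_nonneg (sq_nonneg b) h3]

/-- The entries of the linear response error, uniformly in `n`. -/
lemma abs_resid_le (b : ℝ) (n : ℕ) {J : Mat m} (hJ : IsCoupling J) (u : Vec m) (i j : Fin m) :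
    |resid b n J u i j| ≤ 4 * (b ^ 2 + 1) * (m + 1) * (1 + op J) := by
  have hC : ∀ k, |cm2 J u k j| ≤ 1 := fun k => (abs_cm2_le_vw hJ u k j).trans (vw_le_one J u k)
  have e : resid b n J u i j = cm2 J u i j / vw J u i + b ^ 2 * sAvg n J u * cm2 J u i j -
      ∑ k, (J i k + 2 * (b ^ 2 / n) * (mg J u i * mg J u k)) * cm2 J u k j -
      epsV b n J u i * cm2 J u i j - if i = j then 1 else 0 := by
    simp only [resid, hA', hA, add_zero, sub_mul, add_mul, ite_mul, zero_mul, sum_sub_distrib,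
      sum_add_distrib, sum_ite_eq, mem_univ, if_true]
    ring
  have hv : 2 * (b ^ 2 / n) ≤ 2 * b ^ 2 := by
    rcases n.eq_zero_or_pos with hn | hn
    · simp [hn]; positivity
    · exact mul_le_mul_of_nonneg_left (div_le_self (sq_nonneg b) (by exact_mod_cast hn)) zero_le_two
  have h1 : |∑ k, (J i k + 2 * (b ^ 2 / n) * (mg J u i * mg J u k)) * cm2 J u k j| ≤
      m * op J + m * (2 * b ^ 2) := by
    refine (abs_sum_le_sum_abs _ _).trans ((sum_le_sum (g := fun k => |J i k| + 2 * b ^ 2)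
      fun k _ => ?_).trans ?_)
    · rw [abs_mul]
      refine (mul_le_of_le_one_right (abs_nonneg _) (hC k)).trans ((abs_add_le _ _).trans
        (add_le_add le_rfl ?_))
      rw [abs_mul, abs_of_nonneg (show 0 ≤ 2 * (b ^ 2 / (n:ℝ)) by positivity), abs_mul]
      exact (mul_le_of_le_one_right (by positivity) (mul_le_one₀ (abs_mg_le J u i) (abs_nonneg _)
        (abs_mg_le J u k))).trans hv
    · simp only [sum_add_distrib, sum_const, card_univ, Fintype.card_fin, nsmul_eq_mul]
      linarith [sum_abs_row_le J i]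
  have h2 : |b ^ 2 * sAvg n J u * cm2 J u i j| ≤ b ^ 2 * m := by
    rw [abs_mul, abs_mul, abs_of_nonneg (sq_nonneg b)]
    exact (mul_le_of_le_one_right (by positivity) (hC i)).trans
      (mul_le_mul_of_nonneg_left (abs_sAvg_le n J u) (sq_nonneg b))
  have h3 : |epsV b n J u i * cm2 J u i j| ≤ (b ^ 2 + 1) * (m + 1) * (1 + op J) := by
    rw [abs_mul]
    exact (mul_le_of_le_one_right (abs_nonneg _) (hC i)).trans (abs_epsV_le b n hJ u i)
  have h4 : |(if i = j then (1:ℝ) else 0)| ≤ 1 := by split_ifs <;> norm_num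
  rw [e]
  refine (abs_sub _ _).trans ?_
  refine (add_le_add ((abs_sub _ _).trans (add_le_add ((abs_sub _ _).trans (add_le_add
    ((abs_add_le _ _).trans (add_le_add (abs_div_vw_le hJ u i j) h2)) h1)) h3)) h4).trans ?_
  have hm : (0:ℝ) ≤ m := Nat.cast_nonneg m
  have h5 := op_nonneg J
  nlinarith [mul_nonneg (mul_nonneg (sq_nonneg b) hm) h5, mul_nonneg (sq_nonneg b) h5,
    mul_nonneg hm h5, sq_nonneg b, mul_nonneg (sq_nonneg b) hm]

/-- The operator norm of the linear response error, uniformly in `n`. -/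
lemma op_resid_le (b : ℝ) (n : ℕ) {J : Mat m} (hJ : IsCoupling J) (u : Vec m) :
    op (resid b n J u) ≤ 4 * (b ^ 2 + 1) * (m + 1) ^ 2 * (1 + op J) := by
  set B := 4 * (b ^ 2 + 1) * ((m:ℝ) + 1) * (1 + op J) with hB
  have hB0 : 0 ≤ B := by
    have := op_nonneg J
    positivity
  refine (op_le_sqrt_sq2 _).trans (Real.sqrt_le_iff.2 ⟨by have := op_nonneg J; positivity, ?_⟩)
  calc sq2 (resid b n J u) ≤ ∑ _i : Fin m, ∑ _j : Fin m, B ^ 2 :=
        sum_le_sum fun i _ => sum_le_sum fun j _ =>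
          sq_le_sq.2 ((abs_resid_le b n hJ u i j).trans (le_abs_self _))
    _ = ((m:ℝ) * B) ^ 2 := by simp; ring
    _ ≤ _ := by
        refine pow_le_pow_left₀ (by positivity) ?_ 2
        calc (m:ℝ) * B ≤ ((m:ℝ) + 1) * B := by nlinarith
          _ = _ := by rw [hB]; ring

/-! ### The observables -/

lemma pb_mg (i : Fin m) : PB fun J u => mg J u i :=
  PB.of_le (continuous_mg i) fun J _ u => abs_mg_le J u i

lemma pb_cm2 (i j : Fin m) : PB fun J u => cm2 J u i j :=
  PB.of_le (continuous_cm2 i j) fun J _ u => abs_cm2_le J u i j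

lemma pb_cm3 (i j k : Fin m) : PB fun J u => cm3 J u i j k :=
  PB.of_le (continuous_cm3 i j k) fun J _ u => abs_cm3_le J u i j k

lemma pb_vw (i : Fin m) : PB fun J u => vw J u i := (PB.const 1).sub ((pb_mg i).pow 2)

lemma pb_vv (i : Fin m) : PB fun J u => vv J u i := PB.sum fun j => (pb_cm2 i j).mul (pb_mg j)

lemma pb_sAvg (n : ℕ) : PB fun J (u : Vec m) => sAvg n J u := (PB.sum fun i => pb_vw i).div_const _

lemma pb_div_vw (i a : Fin m) : PB fun J u => cm2 J u i a / vw J u i :=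
  PB.of_le ((pb_cm2 i a).1.div (pb_vw i).1 fun q => (vw_pos q.1 q.2 i).ne')
    fun _ hJ u => abs_div_vw_le hJ u i a

lemma pb_brk (i : Fin m) : PB fun J u => brk J u i :=
  PB.of_le ((pb_vv i).1.div (pb_vw i).1 fun q => (vw_pos q.1 q.2 i).ne')
    fun _ hJ u => abs_brk_le hJ u i

lemma pb_inv_vw_add {η : ℝ} (hη : 0 < η) (i : Fin m) : PB fun J u => 1 / (vw J u i + η) :=
  PB.of_le (continuous_const.div ((pb_vw i).1.add continuous_const)
    fun q => by have := vw_pos q.1 q.2 i; positivity) fun J _ u => by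
    have := vw_pos J u i
    rw [abs_of_pos (by positivity)]
    exact one_div_le_one_div_of_le hη (by linarith)

lemma pb_op_cm2 : PB fun J (u : Vec m) => op (cm2 J u) := PB.op_of_entries fun i j => pb_cm2 i j

lemma pb_sq3_cm3 : PB fun J (u : Vec m) => sq3 (cm3 J u) :=
  PB.sum fun i => PB.sum fun j => PB.sum fun k => (pb_cm3 i j k).pow 2

lemma pb_sq1_brk : PB fun J (u : Vec m) => sq1 (brk J u) := PB.sum fun i => (pb_brk i).pow 2

lemma pb_brk_pow (p : ℕ) : PB fun J (u : Vec m) => ∑ i, brk J u i ^ p :=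
  PB.sum fun i => (pb_brk i).pow p

lemma pb_dt_mg_vv : PB fun J (u : Vec m) => ∑ i, mg J u i * vv J u i :=
  PB.sum fun i => (pb_mg i).mul (pb_vv i)

lemma pb_sq1_mg : PB fun J (u : Vec m) => sq1 (mg J u) := PB.sum fun i => (pb_mg i).pow 2

lemma pb_epsV (b : ℝ) (n : ℕ) (i : Fin m) : PB fun J u => epsV b n J u i := by
  have h : (fun (J : Mat m) (u : Vec m) => epsV b n J u i) =
      fun J u => b ^ 2 * sAvg n J u - ∑ a, J i a * (cm2 J u i a / vw J u i) := by
    funext J u
    simp only [epsV, sum_div, mul_div_assoc]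
  rw [h]
  exact ((pb_sAvg n).const_mul _).sub (PB.sum fun a => (pb_entry i a).mul (pb_div_vw i a))

lemma pb_resid (b : ℝ) (n : ℕ) (i j : Fin m) : PB fun J u => resid b n J u i j := by
  have h : (fun (J : Mat m) (u : Vec m) => resid b n J u i j) = fun J u =>
      cm2 J u i j / vw J u i + b ^ 2 * sAvg n J u * cm2 J u i j -
        ∑ k, (J i k + 2 * (b ^ 2 / n) * (mg J u i * mg J u k)) * cm2 J u k j -
        epsV b n J u i * cm2 J u i j - if i = j then 1 else 0 := by
    funext J u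
    simp only [resid, hA', hA, add_zero, sub_mul, add_mul, ite_mul, zero_mul, sum_sub_distrib,
      sum_add_distrib, sum_ite_eq, mem_univ, if_true]
    ring
  rw [h]
  exact (((((pb_div_vw i j).add (((pb_sAvg n).const_mul _).mul (pb_cm2 i j))).sub
    (PB.sum fun k => ((pb_entry i k).add
      (((pb_mg i).mul (pb_mg k)).const_mul _)).mul (pb_cm2 k j))).sub
    ((pb_epsV b n i).mul (pb_cm2 i j))).sub (PB.const _))

lemma pb_op_resid (b : ℝ) (n : ℕ) : PB fun J (u : Vec m) => op (resid b n J u) :=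
  PB.op_of_entries fun i j => pb_resid b n i j

lemma pb_sq2_resid (b : ℝ) (n : ℕ) : PB fun J (u : Vec m) => sq2 (resid b n J u) :=
  PB.sum fun i => PB.sum fun j => (pb_resid b n i j).pow 2

lemma pb_sum_epsV_pow (b : ℝ) (n p : ℕ) : PB fun J (u : Vec m) => ∑ i, epsV b n J u i ^ p :=
  PB.sum fun i => (pb_epsV b n i).pow p

lemma pb_qAvg {η : ℝ} (hη : 0 < η) (n : ℕ) : PB fun J (u : Vec m) => qAvg η n J u := by
  refine (PB.sum fun i => ?_).div_const _
  simpa [div_eq_mul_inv] using ((pb_mg i).mul (pb_inv_vw_add hη i)).pow 2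

section iterates

variable {b η : ℝ} (hη : 0 < η) (G L : ℝ) (n : ℕ)

include hη

lemma pb_hA (i k : Fin m) : PB fun J u => hA b η n J u i k := by
  refine PB.sub ?_ (pb_entry i k)
  by_cases h : i = k
  · simp only [h, if_true]
    exact (pb_inv_vw_add hη k).add ((pb_sAvg n).const_mul _)
  · simp only [h, if_false]
    exact PB.const _

lemma pb_hA' (i k : Fin m) : PB fun J u => hA' b η n J u i k :=
  (pb_hA hη n i k).sub (((pb_mg i).mul (pb_mg k)).const_mul _)

lemma pb_hM (i k : Fin m) : PB fun J u => hM b η G n J u i k :=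
  (pb_hA hη n i k).add (((pb_mg i).mul (pb_mg k)).const_mul _)

lemma pb_op_hA : PB fun J (u : Vec m) => op (hA b η n J u) :=
  PB.op_of_entries fun i k => pb_hA hη n i k

lemma pb_step {z : Mat m → Vec m → Vec m} (hz : ∀ i, PB fun J u => z J u i) (i : Fin m) :
    PB fun J u => step L (hM b η G n J u) (z J u) i :=
  (hz i).sub ((PB.sum fun k => (pb_hM hη G n i k).mul (hz k)).const_mul L⁻¹)

lemma pb_step_iter (j : ℕ) : ∀ i : Fin m,
    PB fun J u => (step L (hM b η G n J u))^[j] (mg J u) i := by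
  induction j with
  | zero => exact fun i => pb_mg i
  | succ j ih =>
    intro i
    simp only [Function.iterate_succ_apply']
    exact pb_step hη G L n ih i

lemma pb_yIt (j : ℕ) : ∀ i : Fin m, PB fun J u => yIt b η G L n j J u i := by
  induction j with
  | zero => exact fun i => PB.const 0
  | succ j ih =>
    intro i
    exact (ih i).add (((pb_mg i).sub (PB.sum fun k => (pb_hM hη G n i k).mul (ih k))).const_mul L⁻¹)

lemma pb_pIt (j : ℕ) : PB fun J (u : Vec m) => pIt b η G L n j J u :=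
  (PB.sum fun i => (pb_mg i).mul (pb_yIt hη G L n j i)).div_const _

lemma pb_fvec {z w : Mat m → Vec m → Vec m} (hz : ∀ i, PB fun J u => z J u i)
    (hw : ∀ i, PB fun J u => w J u i) (k : Fin m) :
    PB fun J u => fvec b η G n J u (z J u) (w J u) k := by
  refine PB.add (PB.sub ?_ ?_) ?_
  · refine ((?_ : PB _).mul (hz k)).mul (hw k)
    simpa [div_eq_mul_inv] using ((pb_mg k).const_mul 2).mul ((pb_inv_vw_add hη k).pow 2)
  · exact ((pb_mg k).const_mul _).mul (PB.sum fun i => (hz i).mul (hw i))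
  · exact (((PB.sum fun i => (pb_mg i).mul (hw i)).mul (hz k)).add
      ((PB.sum fun i => (pb_mg i).mul (hz i)).mul (hw k))).const_mul _

lemma pb_avec (j : ℕ) (a : Fin m) : PB fun J u => avec b η G L n j J u a := by
  simp only [avec, Pi.smul_apply, Pi.sub_apply, smul_eq_mul, Finset.sum_apply]
  exact ((((pb_yIt hη G L n j a).const_mul 2)).sub ((PB.sum fun i =>
    pb_fvec hη G n (fun c => pb_step_iter hη G L n (j - 1 - i) c)
      (fun c => pb_yIt hη G L n i c) a).const_mul L⁻¹)).const_mul _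

lemma pb_bmat (j : ℕ) (a c : Fin m) : PB fun J u => bmat b η G L n j J u a c :=
  ((PB.sum fun i => (pb_step_iter hη G L n (j - 1 - i) a).mul
    (pb_yIt hη G L n i c)).const_mul L⁻¹).const_mul _

lemma pb_sq1_avec (j : ℕ) : PB fun J (u : Vec m) => sq1 (avec b η G L n j J u) :=
  PB.sum fun a => (pb_avec hη G L n j a).pow 2

lemma pb_sq2_bmat (j : ℕ) : PB fun J (u : Vec m) => sq2 (bmat b η G L n j J u) :=
  PB.sum fun a => PB.sum fun c => (pb_bmat hη G L n j a c).pow 2

end iterates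

lemma pb_gradSize (b τ : ℝ) (n : ℕ) : PB fun J (u : Vec m) => gradSize b τ n J u :=
  (pb_op_cm2.const_mul _).add ((pb_sq3_cm3).sqrt.const_mul _)

/-! ### Integrability -/

/-- Polynomially bounded observables are tame in the disorder. -/
theorem PB.tame {φ : Mat m → Vec m → ℝ} (h : PB φ) (v τ : ℝ) :
    Tame fun g : Idx m → ℝ => φ (plJ v g) (plU τ g) := by
  obtain ⟨C, k, hC0, hC⟩ := h.nonneg_const
  have hop : Tame fun g : Idx m → ℝ => 1 + ∑ i, ∑ j, |plJ v g i j| := by
    refine (Tame.const 1).add (Tame.sum fun i _ => Tame.sum fun j _ => ?_)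
    refine ⟨(by fun_prop : Continuous fun g : Idx m → ℝ => |plJ v g i j|), |v| + √v, 1,
      fun g => ?_⟩
    have hS : 0 ≤ ∑ a : Idx m, |g a| := sum_nonneg fun _ _ => abs_nonneg _
    rw [abs_abs, pow_one]
    by_cases hij : i = j
    · simp [plJ, hij]
      positivity
    · have hs : |sym (fun e => g (.inl e)) i j| ≤ 1 + ∑ a : Idx m, |g a| := by
        unfold Gap.sym
        split_ifs with h1 h2 <;>
        first
        | exact (single_le_sum (f := fun a => |g a|) (fun _ _ => abs_nonneg _) (mem_univ _)).trans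
            (le_add_of_nonneg_left zero_le_one)
        | (rw [abs_zero]; positivity)
      rw [plJ, if_neg hij]
      refine (abs_add_le _ _).trans ?_
      rw [abs_mul, abs_of_nonneg (sqrt_nonneg v)]
      nlinarith [mul_le_mul_of_nonneg_left hs (sqrt_nonneg v), abs_nonneg v]
  obtain ⟨-, D, K, hD⟩ := (Tame.const (ι := Idx m) C).mul (hop.pow k)
  refine ⟨h.1.comp (f := fun g : Idx m → ℝ => (plJ v g, plU τ g)) (by fun_prop), D, K, fun g => ?_⟩
  refine (hC _ (isCoupling_plJ v g) _).trans (le_trans ?_ ((le_abs_self _).trans (hD g)))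
  refine mul_le_mul_of_nonneg_left (pow_le_pow_left₀ (by linarith [op_nonneg (plJ v g)]) ?_ k) hC0
  refine add_le_add le_rfl ((op_le_sqrt_sq2 _).trans (Real.sqrt_le_iff.2 ⟨by positivity, ?_⟩))
  calc sq2 (plJ v g) ≤ ∑ i, (∑ j, |plJ v g i j|) ^ 2 := sum_le_sum fun i _ => by
        refine le_of_eq_of_le (sum_congr rfl fun j _ => (sq_abs _).symm) ?_
        exact sum_sq_le_sq_sum_of_nonneg fun j _ => abs_nonneg _
    _ ≤ _ := sum_sq_le_sq_sum_of_nonneg fun i _ => sum_nonneg fun j _ => abs_nonneg _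

theorem PB.integrable {φ : Mat m → Vec m → ℝ} (h : PB φ) (v τ : ℝ) :
    Integrable (fun g => φ (plJ v g) (plU τ g)) (gauss (Idx m)) := (h.tame v τ).integrable

/-! ### Markov and Cauchy in the planted family -/

/-- Markov's inequality in the planted family. -/
theorem mul_pPr_le {b : ℝ} {n : ℕ} {τ : ℝ} {F : Mat m → Vec m → ℝ}
    (hF : Integrable (fun g => F (plJ (b ^ 2 / n) g) (plU τ g)) (gauss (Idx m)))
    (h0 : ∀ J u, IsCoupling J → 0 ≤ F J u) (a : ℝ) :
    a * pPr b n m τ (fun J u => a ≤ F J u) ≤ pEv b n m τ F :=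
  mul_meas_ge_le_integral_of_nonneg (ae_of_all _ fun g => h0 _ _ (isCoupling_plJ _ g)) hF a

/-- Cauchy's inequality for an expectation restricted to an event. -/
theorem pEv_ite_le {b : ℝ} {n : ℕ} {τ : ℝ} {F : Mat m → Vec m → ℝ}
    (hF : Integrable (fun g => F (plJ (b ^ 2 / n) g) (plU τ g)) (gauss (Idx m)))
    (hF2 : Integrable (fun g => F (plJ (b ^ 2 / n) g) (plU τ g) ^ 2) (gauss (Idx m)))
    (A : Mat m → Vec m → Prop) [∀ J u, Decidable (A J u)]
    (hA : MeasurableSet {g : Idx m → ℝ | A (plJ (b ^ 2 / n) g) (plU τ g)}) :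
    pEv b n m τ (fun J u => if A J u then F J u else 0) ≤
      √(pEv b n m τ (fun J u => F J u ^ 2) * pPr b n m τ A) := by
  set S := {g : Idx m → ℝ | A (plJ (b ^ 2 / n) g) (plU τ g)}
  set f : (Idx m → ℝ) → ℝ := fun g => F (plJ (b ^ 2 / n) g) (plU τ g)
  set μ := gauss (Idx m)
  have hX : pEv b n m τ (fun J u => if A J u then F J u else 0) = ∫ g in S, f g ∂μ := by
    rw [← integral_indicator hA, pEv]
    refine integral_congr_ae (ae_of_all _ fun g => ?_)
    by_cases h : g ∈ S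
    · simp only [Set.indicator_of_mem h, if_pos (show A (plJ (b ^ 2 / n) g) (plU τ g) from h), f]
    · simp only [Set.indicator_of_notMem h,
        if_neg (show ¬ A (plJ (b ^ 2 / n) g) (plU τ g) from h)]
  have hY : ∫ g in S, f g ^ 2 ∂μ ≤ pEv b n m τ (fun J u => F J u ^ 2) :=
    setIntegral_le_integral hF2 (ae_of_all _ fun g => sq_nonneg _)
  have hq : ∀ t : ℝ, 0 ≤ pPr b n m τ A * (t * t) + (-2 * ∫ g in S, f g ∂μ) * t +
      ∫ g in S, f g ^ 2 ∂μ := by
    intro t
    have h : 0 ≤ ∫ g in S, (f g - t) ^ 2 ∂μ := integral_nonneg fun g => sq_nonneg _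
    have e : (fun g => (f g - t) ^ 2) = fun g => (t * t + -2 * t * f g) + f g ^ 2 :=
      funext fun g => by ring
    have i1 : Integrable (fun g => t * t + -2 * t * f g) (μ.restrict S) :=
      (integrable_const _).add (hF.restrict.const_mul _)
    rw [e, integral_add i1 hF2.restrict, integral_add (integrable_const _) (hF.restrict.const_mul _),
      setIntegral_const, integral_const_mul, smul_eq_mul] at h
    calc (0:ℝ) ≤ _ := h
      _ = _ := by simp only [pPr]; ring
  have hd := discrim_le_zero hq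
  rw [discrim] at hd
  have hP : 0 ≤ pPr b n m τ A := measureReal_nonneg
  rw [hX]
  refine Real.le_sqrt_of_sq_le ?_
  nlinarith [mul_le_mul_of_nonneg_left hY hP]

end Vale.Agent.P150.Weak.YB
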