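import Vale.Agent.P150.Weak.YBound.Good

/-!
When the response error is small, `s a = p` up to a small error and the iterate over the variances
is delocalised.
-/

open MeasureTheory Finset Real

namespace Vale.Agent.P150.Weak.YB

open Gap

variable {m : ℕ}

lemma sum_pow_four_le (a : Vec m) : ∑ i, a i ^ 4 ≤ sq1 a ^ 2 := by
  simp only [show ∀ i, a i ^ 4 = (a i ^ 2) ^ 2 from fun i => by ring, sq1]
  exact sum_sq_le_sq_sum_of_nonneg fun i _ => sq_nonneg _

lemma add_pow_four_le (x z : ℝ) : (x + z) ^ 4 ≤ 8 * (x ^ 4 + z ^ 4) := by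
  have h1 : (x + z) ^ 2 ≤ 2 * (x ^ 2 + z ^ 2) := add_sq_le
  have h2 : (x ^ 2 + z ^ 2) ^ 2 ≤ 2 * ((x ^ 2) ^ 2 + (z ^ 2) ^ 2) := add_sq_le
  calc (x + z) ^ 4 = ((x + z) ^ 2) ^ 2 := by ring
    _ ≤ (2 * (x ^ 2 + z ^ 2)) ^ 2 := pow_le_pow_left₀ (sq_nonneg _) h1 2
    _ ≤ 8 * (x ^ 4 + z ^ 4) := by linarith

/-- **Small error and delocalisation** on the good event. -/
theorem refined_bounds {b c Q : ℝ} (h0 : 0 < b) (h1 : b < 1) (hc : 0 < c) (hQ : 0 ≤ Q) :
    ∃ C : ℝ, 0 < C ∧ ∀ η θ M h : ℝ, ∀ n m j : ℕ, ∀ J : Mat m, ∀ u : Vec m,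
      0 < η → 0 ≤ θ → 0 ≤ M → θ * (1 + M) ≤ h → η * √M ≤ h ^ 2 → h ≤ 1 →
      0 < n → m ≤ n → IsCoupling J → Good0 b η c Q n J u →
      rho0 b η c Q ^ j ≤ θ → op (resid b n J u) ≤ θ → (∀ i, |epsV b n J u i| ≤ θ) →
      op (cm2 J u) ≤ M → sq1 (brk J u) ≤ M * n → ∑ i, brk J u i ^ 4 ≤ θ ^ 4 * (n : ℝ) ^ 2 →
      let G := pen0 b c Q
      let p := pIt b η G (lam0 b η c Q) n j J u
      |(1 - (G + 2 * b ^ 2) * p) * (dt (mg J u) (vv J u) / n) - p| ≤ C * h ∧
        ∑ i, (yIt b η G (lam0 b η c Q) n j J u i / (vw J u i + η)) ^ 4 ≤ C * h ^ 4 * (n : ℝ) ^ 2 := by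
  have hκ := kap_pos h0 h1
  have hG := pen0_pos h0 h1 hc hQ
  set G := pen0 b c Q with hGdef
  set K := 4 / kap b with hKdef
  have hK : 0 < K := by positivity
  set Cs := 1 + (G + 2 * b ^ 2) * K
  set Cb := 2 + (4 + G) * K
  set C1 := K + 1 + Cb
  set D0 := (G + 2 * b ^ 2) * C1 + Cs + 1
  set U := √(4 / kap b * (D0 ^ 2 / kap b + Cs * Cb))
  set C3 := 2 * b ^ 2 * C1 + 1 + 4 * U + Cs
  refine ⟨C1 + 8 * Cs ^ 4 + 8 * C3 ^ 4, by positivity, ?_⟩
  intro η θ M h n m j J u hη hθ hM0 hθM hηM hh1 hn hmn hJ hg hρ hF heps hY hbrk hbrk4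
  simp only []
  have hn' : (0:ℝ) < n := Nat.cast_pos.2 hn
  set sn := √(n : ℝ) with hsn
  have hsn2 : sn * sn = n := mul_self_sqrt hn'.le
  have hsn0 : 0 ≤ sn := sqrt_nonneg _
  set L := lam0 b η c Q with hLdef
  set y := yIt b η G L n j J u with hydef
  set r := rres L (hM b η G n J u) (mg J u) j with hrdef
  obtain ⟨hr, hy, hp, hbeta⟩ := basic_bounds h0 h1 hη hc hQ hn hmn hJ hg j
  simp only [← hGdef, ← hLdef, ← hydef, ← hrdef, ← hsn, ← hKdef] at hr hy hp hbeta
  have hh0 : 0 ≤ h := le_trans (by positivity) hθM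
  have hθh : θ ≤ h := le_trans (le_mul_of_one_le_right hθ (by linarith)) hθM
  have hθMh : θ * M ≤ h := le_trans (by linarith) hθM
  have hr' : √(sq1 r) ≤ θ * sn := hr.trans (mul_le_mul_of_nonneg_right hρ hsn0)
  have hMy : mv (hM b η G n J u) y = mg J u + r := by
    simp only [hrdef, hydef, rres, yIt]; abel
  have hlong := longitudinal hη.le hn hJ hMy
  have hdiff := longitudinal_diff hη.le hn hJ hMy
  have hbe := beta_eq hη.le hn hJ hMy
  have hpy : pIt b η G L n j J u = dt (mg J u) y / n := rfl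
  simp only [hpy]
  set p := dt (mg J u) y / n
  set s := 1 - (G + 2 * b ^ 2) * p with hsdef
  set err := errT b η n J u y r with herr
  have hs : |s| ≤ Cs := by
    refine (abs_sub _ _).trans ?_
    rw [abs_one, abs_mul, abs_of_nonneg (by positivity : 0 ≤ G + 2 * b ^ 2)]
    exact add_le_add_right (mul_le_mul_of_nonneg_left hp (by positivity)) 1
  have hvn : √(sq1 (vv J u)) ≤ M * sn :=
    (sqrt_sq1_mv_le (cm2 J u) (mg J u)).trans
      (mul_le_mul hY (sqrt_sq1_mg_le hmn J u) (sqrt_nonneg _) hM0)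
  have hEm : √(sq1 (mv (resid b n J u) (mg J u))) ≤ θ * sn :=
    (sqrt_sq1_mv_le _ _).trans (mul_le_mul hF (sqrt_sq1_mg_le hmn J u) (sqrt_nonneg _) hθ)
  have hev : √(sq1 fun i => epsV b n J u i * vv J u i) ≤ θ * M * sn := by
    rw [mul_assoc]
    exact (sqrt_sq1_diag_le hθ heps _).trans (mul_le_mul_of_nonneg_left hvn hθ)
  have hsM : √(sq1 (brk J u)) ≤ √M * sn := by
    rw [← Real.sqrt_mul hM0]; exact Real.sqrt_le_sqrt hbrk
  have hcrossb : η * |∑ i, y i / (vw J u i + η) * brk J u i| ≤ Cb * h ^ 2 * n := by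
    calc η * |∑ i, y i / (vw J u i + η) * brk J u i| ≤ η * ((Cb * sn) * (√M * sn)) :=
          mul_le_mul_of_nonneg_left ((abs_dt_le (fun i => y i / (vw J u i + η)) (brk J u)).trans
            (mul_le_mul hbeta hsM (sqrt_nonneg _) (by positivity))) hη.le
      _ = Cb * (η * √M) * n := by rw [← hsn2]; ring
      _ ≤ Cb * h ^ 2 * n := by gcongr
  have hh2 : h ^ 2 ≤ h := pow_le_of_le_one hh0 hh1 two_ne_zero
  have herr_le : |err| ≤ C1 * h := by
    rw [herr, errT, abs_div, abs_of_pos hn', div_le_iff₀ hn']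
    refine (abs_sub _ _).trans ?_
    refine (add_le_add (abs_sub _ _) le_rfl).trans ?_
    refine (add_le_add (add_le_add (abs_add_le _ _) le_rfl) le_rfl).trans ?_
    have q1 : |dt y (mv (resid b n J u) (mg J u))| ≤ K * θ * n := by
      refine (abs_dt_le _ _).trans ((mul_le_mul hy hEm (sqrt_nonneg _) (by positivity)).trans_eq ?_)
      rw [← hsn2]; ring
    have q2 : |dt y fun i => epsV b n J u i * vv J u i| ≤ K * (θ * M) * n := by
      refine (abs_dt_le _ _).trans ((mul_le_mul hy hev (sqrt_nonneg _) (by positivity)).trans_eq ?_)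
      rw [← hsn2]; ring
    have q3 : |dt r (vv J u)| ≤ θ * M * n := by
      refine (abs_dt_le _ _).trans ((mul_le_mul hr' hvn (sqrt_nonneg _) (by positivity)).trans_eq ?_)
      rw [← hsn2]; ring
    have q4 := hcrossb
    rw [abs_mul η, abs_of_pos hη]
    have q5 : (K * θ + K * (θ * M) + θ * M + Cb * h ^ 2) * n ≤ C1 * h * n := by
      refine mul_le_mul_of_nonneg_right ?_ hn'.le
      have := mul_le_mul_of_nonneg_left hθM hK.le
      have := mul_le_mul_of_nonneg_left hh2 (show 0 ≤ Cb by positivity)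
      linarith
    linarith
  constructor
  · rw [hlong, add_sub_cancel_left]
    refine herr_le.trans (mul_le_mul_of_nonneg_right ?_ hh0)
    linarith [show 0 ≤ 8 * Cs ^ 4 + 8 * C3 ^ 4 by positivity]
  set w := s • vv J u - y with hwdef
  set ψb : Vec m := fun i => η / (vw J u i + η) * brk J u i
  set R : Vec m := ((G + 2 * b ^ 2) * err) • mg J u +
      s • (mv (resid b n J u) (mg J u) + fun i => epsV b n J u i * vv J u i) - r with hR
  have hdiff' : mv (hM b η G n J u) w = R - s • ψb := hdiff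
  have hRle : √(sq1 R) ≤ D0 * h * sn := by
    rw [hR]
    refine (sqrt_sq1_sub_le _ _).trans ((add_le_add (sqrt_sq1_add_le _ _) le_rfl).trans ?_)
    rw [sqrt_sq1_smul, sqrt_sq1_smul, abs_mul, abs_of_nonneg (by positivity : 0 ≤ G + 2 * b ^ 2)]
    have a1 : (G + 2 * b ^ 2) * |err| * √(sq1 (mg J u)) ≤ (G + 2 * b ^ 2) * (C1 * h) * sn := by
      gcongr; exact sqrt_sq1_mg_le hmn J u
    have a2 : |s| * √(sq1 (mv (resid b n J u) (mg J u) + fun i => epsV b n J u i * vv J u i)) ≤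
        Cs * (h * sn) := by
      refine mul_le_mul hs ((sqrt_sq1_add_le _ _).trans ?_) (sqrt_nonneg _) (by positivity)
      calc _ ≤ θ * sn + θ * M * sn := add_le_add hEm hev
        _ = θ * (1 + M) * sn := by ring
        _ ≤ h * sn := mul_le_mul_of_nonneg_right hθM hsn0
    have a3 : √(sq1 r) ≤ 1 * h * sn := by
      rw [one_mul]; exact hr'.trans (mul_le_mul_of_nonneg_right hθh hsn0)
    linarith
  have hψ : -(dt w (s • ψb)) ≤ Cs * (Cb * h ^ 2 * n) := by
    have e : dt w (s • ψb) = s ^ 2 * dt (vv J u) ψb -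
        s * (η * ∑ i, y i / (vw J u i + η) * brk J u i) := by
      rw [hwdef, dt_smul_right, dt_sub_left, dt_smul_left]
      have : dt y ψb = η * ∑ i, y i / (vw J u i + η) * brk J u i := by
        simp only [dt, ψb, mul_sum]
        exact sum_congr rfl fun i _ => by ring
      rw [this]; ring
    have hnn : 0 ≤ dt (vv J u) ψb := sum_nonneg fun i _ => by
      have := vw_pos J u i
      simp only [ψb, brk]
      rw [show vv J u i * (η / (vw J u i + η) * (vv J u i / vw J u i)) =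
        η / (vw J u i + η) / vw J u i * vv J u i ^ 2 by ring]
      positivity
    rw [e, neg_sub]
    have := mul_nonneg (sq_nonneg s) hnn
    have h5 : s * (η * ∑ i, y i / (vw J u i + η) * brk J u i) ≤ Cs * (Cb * h ^ 2 * n) := by
      refine (le_abs_self _).trans ?_
      rw [abs_mul, abs_mul, abs_of_pos hη]
      exact mul_le_mul hs hcrossb (by positivity) (by positivity)
    linarith
  have hU : √(sq1 w) ≤ U * h * sn := by
    have hpd := pd_of_good h0 h1 hη hc hQ hn hmn hJ hg w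
    rw [← hGdef, hdiff', dt_sub_right] at hpd
    have h6 := (le_abs_self _).trans ((abs_dt_le w R).trans (mul_le_mul_of_nonneg_left hRle (sqrt_nonneg _)))
    have h7 : √(sq1 w) * (D0 * h * sn) ≤ kap b / 4 * sq1 w + (D0 * h * sn) ^ 2 / kap b := by
      refine le_of_mul_le_mul_left ?_ hκ
      have := sq_nonneg (kap b / 2 * √(sq1 w) - D0 * h * sn)
      have e : kap b * (kap b / 4 * sq1 w + (D0 * h * sn) ^ 2 / kap b) =
          (kap b / 2 * √(sq1 w)) ^ 2 + (D0 * h * sn) ^ 2 := by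
        rw [mul_pow (kap b / 2), sq_sqrt (sq1_nonneg w)]; field_simp; ring
      rw [e]
      linarith
    have h8 : kap b / 4 * sq1 w ≤ (D0 ^ 2 / kap b + Cs * Cb) * (h * sn) ^ 2 := by
      have : (D0 ^ 2 / kap b + Cs * Cb) * (h * sn) ^ 2 =
          (D0 * h * sn) ^ 2 / kap b + Cs * (Cb * h ^ 2 * n) := by
        rw [← hsn2]; ring
      linarith
    refine Real.sqrt_le_iff.2 ⟨by positivity, ?_⟩
    rw [mul_assoc, mul_pow, sq_sqrt (by positivity), div_mul_eq_mul_div, div_mul_eq_mul_div,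
      le_div_iff₀ hκ]
    calc sq1 w * kap b = 4 * (kap b / 4 * sq1 w) := by ring
      _ ≤ 4 * ((D0 ^ 2 / kap b + Cs * Cb) * (h * sn) ^ 2) :=
        mul_le_mul_of_nonneg_left h8 (by norm_num)
      _ = _ := by ring
  have hb2 := congrArg (fun a : Vec m => ∑ i, a i ^ 4) hbe
  rw [hb2]
  set P : Vec m := (-2 * b ^ 2 * err) • mg J u + r + (b ^ 2 * sAvg n J u) • w - mv J w -
      s • (mv (resid b n J u) (mg J u) + fun i => epsV b n J u i * vv J u i) with hP
  have hPle : √(sq1 P) ≤ C3 * h * sn := by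
    rw [hP]
    refine (sqrt_sq1_sub_le _ _).trans ((add_le_add (sqrt_sq1_sub_le _ _) le_rfl).trans
      ((add_le_add (add_le_add (sqrt_sq1_add_le _ _) le_rfl) le_rfl).trans
      ((add_le_add (add_le_add (add_le_add (sqrt_sq1_add_le _ _) le_rfl) le_rfl) le_rfl).trans ?_)))
    simp only [sqrt_sq1_smul]
    have a1 : |-2 * b ^ 2 * err| * √(sq1 (mg J u)) ≤ 2 * b ^ 2 * (C1 * h) * sn := by
      rw [abs_mul, abs_mul, abs_neg, abs_two, abs_of_nonneg (sq_nonneg b)]
      gcongr; exact sqrt_sq1_mg_le hmn J u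
    have a2 : √(sq1 r) ≤ h * sn := hr'.trans (mul_le_mul_of_nonneg_right hθh hsn0)
    have a3 : |b ^ 2 * sAvg n J u| * √(sq1 w) ≤ 1 * (U * h * sn) := by
      refine mul_le_mul ?_ hU (sqrt_nonneg _) zero_le_one
      rw [abs_of_nonneg (mul_nonneg (sq_nonneg _) (sAvg_nonneg n J u))]
      exact mul_le_one₀ (pow_le_one₀ h0.le h1.le) (sAvg_nonneg n J u) (sAvg_le_one hmn J u)
    have a4 : √(sq1 (mv J w)) ≤ 3 * (U * h * sn) :=
      (sqrt_sq1_mv_le J w).trans (mul_le_mul hg.2.1 hU (sqrt_nonneg _) (by norm_num))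
    have a5 : |s| * √(sq1 (mv (resid b n J u) (mg J u) + fun i => epsV b n J u i * vv J u i)) ≤
        Cs * (h * sn) := by
      refine mul_le_mul hs ((sqrt_sq1_add_le _ _).trans ?_) (sqrt_nonneg _) (by positivity)
      calc _ ≤ θ * sn + θ * M * sn := add_le_add hEm hev
        _ = θ * (1 + M) * sn := by ring
        _ ≤ h * sn := mul_le_mul_of_nonneg_right hθM hsn0
    linarith
  have hP2 : ∑ i, P i ^ 4 ≤ (C3 * h) ^ 4 * (n : ℝ) ^ 2 := by
    refine (sum_pow_four_le P).trans ?_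
    calc sq1 P ^ 2 = √(sq1 P) ^ 4 := by
          rw [show (4:ℕ) = 2 * 2 from rfl, pow_mul, sq_sqrt (sq1_nonneg P)]
      _ ≤ (C3 * h * sn) ^ 4 := pow_le_pow_left₀ (sqrt_nonneg _) hPle 4
      _ = _ := by rw [← hsn2]; ring
  have hterm : ∀ i, (s • brk J u + P) i ^ 4 ≤ 8 * (s ^ 4 * brk J u i ^ 4) + 8 * P i ^ 4 := fun i => by
    simp only [Pi.add_apply, Pi.smul_apply, smul_eq_mul, ← mul_pow, ← mul_add]
    exact add_pow_four_le _ _
  refine (sum_le_sum fun i _ => hterm i).trans ?_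
  rw [sum_add_distrib, ← mul_sum, ← mul_sum, ← mul_sum]
  have q1 : s ^ 4 * ∑ i, brk J u i ^ 4 ≤ Cs ^ 4 * (h ^ 4 * (n : ℝ) ^ 2) := by
    refine mul_le_mul ?_ (hbrk4.trans ?_) (sum_nonneg fun i _ => Even.pow_nonneg (by decide) _)
      (by positivity)
    · rw [← Even.pow_abs (by decide : Even 4)]; exact pow_le_pow_left₀ (abs_nonneg s) hs 4
    · exact mul_le_mul_of_nonneg_right (pow_le_pow_left₀ hθ hθh 4) (sq_nonneg _)
  have q2 : 0 ≤ C1 * h ^ 4 * (n : ℝ) ^ 2 := by positivity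
  rw [mul_pow] at hP2
  linarith

end Vale.Agent.P150.Weak.YB
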