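import Vale.Agent.P150.Weak.YBound.Grad
import Vale.Agent.P150.Weak.YBound.Meas
import Vale.Agent.P150.Weak.YBound.Small
import Vale.Agent.P150.Weak.YBound.Refined

/-!
The exceptional events of the bound of the longitudinal susceptibility, and their probabilities.
-/

open MeasureTheory ProbabilityTheory Finset Real Filter
open scoped Topology

namespace Vale.Agent.P150.Weak.YB

open Gap

/-- The coupling of a sample in the system of `n` spins. -/
noncomputable def jOf (b : ℝ) (n : ℕ) (g : Idx n → ℝ) : Mat n := plJ (b ^ 2 / n) g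

/-- The event where the refined bounds may fail at negligible probability. -/
def bad0 (b η c Q θ τ : ℝ) (n : ℕ) : Set (Idx n → ℝ) :=
  {g | ¬ (Good0 b η c Q n (jOf b n g) (plU τ g) ∧ op (resid b n (jOf b n g) (plU τ g)) ≤ θ ∧
    ∑ i, epsV b n (jOf b n g) (plU τ g) i ^ 4 ≤ θ ^ 4 ∧
    ∑ i, brk (jOf b n g) (plU τ g) i ^ 4 ≤ θ ^ 4 * (n : ℝ) ^ 2)}

/-- The event where the covariance or the brackets exceed `M`. -/
def bad1 (b M τ : ℝ) (n : ℕ) : Set (Idx n → ℝ) :=
  {g | ¬ (op (cm2 (jOf b n g) (plU τ g)) ≤ M ∧ sq1 (brk (jOf b n g) (plU τ g)) ≤ M * n)}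

/-- Markov's inequality for a strict exceedance. -/
lemma pPr_lt_le {m : ℕ} {b τ a : ℝ} {n : ℕ} {F : Mat m → Vec m → ℝ}
    (hF : Integrable (fun g => F (plJ (b ^ 2 / n) g) (plU τ g)) (gauss (Idx m)))
    (h0 : ∀ J u, IsCoupling J → 0 ≤ F J u) (ha : 0 < a) {S : Set (Idx m → ℝ)}
    (hS : ∀ g ∈ S, a ≤ F (plJ (b ^ 2 / n) g) (plU τ g)) :
    (gauss (Idx m)).real S ≤ pEv b n m τ F / a :=
  (measureReal_mono (s₂ := {g | a ≤ F (plJ (b ^ 2 / n) g) (plU τ g)}) hS).trans
    ((le_div_iff₀' ha).2 (mul_pPr_le hF h0 a))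

lemma tendsto_zero_of_ev_le {f : ℕ → ℝ} (h0 : ∀ n, 0 ≤ f n)
    (h : ∀ e > 0, ∀ᶠ n in atTop, f n ≤ e) : Tendsto f atTop (𝓝 0) :=
  tendsto_order.2 ⟨fun a ha => Eventually.of_forall fun n => ha.trans_le (h0 n), fun a ha =>
    (h (a / 2) (half_pos ha)).mono fun _ hn => hn.trans_lt (half_lt_self ha)⟩

lemma tendsto_union {S T : ∀ n : ℕ, Set (Idx n → ℝ)}
    (hS : Tendsto (fun n => (gauss (Idx n)).real (S n)) atTop (𝓝 0))
    (hT : Tendsto (fun n => (gauss (Idx n)).real (T n)) atTop (𝓝 0)) :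
    Tendsto (fun n => (gauss (Idx n)).real (S n ∪ T n)) atTop (𝓝 0) :=
  squeeze_zero (fun _ => measureReal_nonneg) (fun _ => measureReal_union_le _ _)
    (by simpa using hS.add hT)

lemma tendsto_const_div_nat_sq (C : ℝ) :
    Tendsto (fun n : ℕ => C / (n : ℝ) ^ 2) atTop (𝓝 0) :=
  Tendsto.const_div_atTop ((tendsto_pow_atTop two_ne_zero).comp tendsto_natCast_atTop_atTop) C

lemma tendsto_exp_neg_mul_nat (C : ℝ) {c : ℝ} (hc : 0 < c) :
    Tendsto (fun n : ℕ => C * exp (-(c * n))) atTop (𝓝 0) := by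
  simpa using ((Real.tendsto_exp_neg_atTop_nhds_zero).comp
    (tendsto_natCast_atTop_atTop.const_mul_atTop hc)).const_mul C

lemma gradSize_nonneg {m : ℕ} (b τ : ℝ) (hb : 0 ≤ b) (n : ℕ) (J : Mat m) (u : Vec m) :
    0 ≤ gradSize b τ n J u := by
  have := op_nonneg (cm2 J u)
  unfold gradSize
  positivity

/-- The mean square of the gradient size. -/
theorem gradSize_mean {b : ℝ} (hb : 0 < b) (hY : YTightSpec b) (hR : RecSpec b) (τ₀ Tm : ℝ)
    (hτ₀ : 0 < τ₀) : ∃ C : ℝ, 0 ≤ C ∧ ∃ N : ℕ, ∀ n : ℕ, ∀ τ : ℝ, N ≤ n → τ₀ ≤ τ → τ ≤ Tm →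
      pEv b n n τ (fun J u => gradSize b τ n J u ^ 2) ≤ C := by
  obtain ⟨CY, N, hY⟩ := hY τ₀ Tm 0 hτ₀
  obtain ⟨CR, hR⟩ := hR.1 Tm
  refine ⟨2 * (√Tm + 4 * b) ^ 2 * |CY| + 8 * b ^ 2 * |CR|, by positivity, N + 1,
    fun n τ hn hτ hτT => ?_⟩
  have hn0 : 0 < n := by omega
  have hn' : (0:ℝ) < n := Nat.cast_pos.2 hn0
  set F : Mat n → Vec n → ℝ := fun J u => 2 * (√Tm + 4 * b) ^ 2 * op (cm2 J u) ^ 2 +
    8 * (b ^ 2 / n) * sq3 (cm3 J u) with hF
  have hpt : ∀ J u, gradSize b τ n J u ^ 2 ≤ F J u := by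
    intro J u
    have h0 := op_nonneg (cm2 J u)
    have h3 : 0 ≤ sq3 (cm3 J u) := sum_nonneg fun i _ => sq2_nonneg _
    refine (add_sq_le (a := (√τ + 4 * b) * op (cm2 J u))
      (b := 2 * √(b ^ 2 / n) * √(sq3 (cm3 J u)))).trans ?_
    simp only [hF, mul_pow, sq_sqrt h3, sq_sqrt (by positivity : 0 ≤ b ^ 2 / (n:ℝ))]
    have := mul_le_mul_of_nonneg_right (pow_le_pow_left₀ (by positivity)
      (add_le_add_left (Real.sqrt_le_sqrt hτT) (4 * b)) 2) (sq_nonneg (op (cm2 J u)))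
    linarith
  have i1 : PB fun J (u : Vec n) => op (cm2 J u) ^ 2 := pb_op_cm2.pow 2
  have hFi : PB F := (i1.const_mul _).add (pb_sq3_cm3.const_mul _)
  refine (integral_mono (((pb_gradSize b τ n).pow 2).integrable _ _) (hFi.integrable _ _)
    fun g => hpt _ _).trans ?_
  simp only [hF]
  rw [integral_add ((i1.const_mul _).integrable _ _) ((pb_sq3_cm3.const_mul _).integrable _ _),
    integral_const_mul, integral_const_mul]
  refine add_le_add (mul_le_mul_of_nonneg_left ((hY n n τ hτ hτT (by omega) le_rfl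
    (by omega)).trans (le_abs_self _)) (by positivity)) ?_
  refine (mul_le_mul_of_nonneg_left ((hR n n τ (hτ₀.le.trans hτ) hτT hn0 le_rfl).1.trans
    (mul_le_mul_of_nonneg_right (le_abs_self _) hn'.le)) (by positivity)).trans (le_of_eq ?_)
  field_simp

/-- The second event has probability `O(1/M)`. -/
theorem bad1_le {b : ℝ} (hY : YTightSpec b) (hR : RecSpec b) (τ₀ Tm : ℝ) (hτ₀ : 0 < τ₀) :
    ∃ C : ℝ, 0 ≤ C ∧ ∃ N : ℕ, ∀ n : ℕ, ∀ τ M : ℝ, N ≤ n → τ₀ ≤ τ → τ ≤ Tm → 1 ≤ M →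
      (gauss (Idx n)).real (bad1 b M τ n) ≤ C / M := by
  obtain ⟨CY, N, hY⟩ := hY τ₀ Tm 0 hτ₀
  obtain ⟨CR, hR⟩ := hR.1 Tm
  refine ⟨|CY| + |CR|, by positivity, N + 1, fun n τ M hn hτ hτT hM => ?_⟩
  have hn0 : 0 < n := by omega
  have hn' : (0:ℝ) < n := Nat.cast_pos.2 hn0
  have hM0 : 0 < M := one_pos.trans_le hM
  have h1 : (gauss (Idx n)).real {g | M < op (cm2 (jOf b n g) (plU τ g))} ≤ |CY| / M := by
    refine (pPr_lt_le (F := fun J (u : Vec n) => op (cm2 J u) ^ 2)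
      ((pb_op_cm2.pow 2).integrable _ _) (fun J u _ => sq_nonneg _)
      (by positivity : 0 < M ^ 2) fun g hg => pow_le_pow_left₀ hM0.le (le_of_lt hg) 2).trans ?_
    exact div_le_div₀ (abs_nonneg _) ((hY n n τ hτ hτT (by omega) le_rfl (by omega)).trans
      (le_abs_self _)) hM0 (le_self_pow₀ hM two_ne_zero)
  have h2 : (gauss (Idx n)).real {g | M * n < sq1 (brk (jOf b n g) (plU τ g))} ≤ |CR| / M := by
    refine (pPr_lt_le (F := fun J (u : Vec n) => sq1 (brk J u)) (pb_sq1_brk.integrable _ _) (fun J u _ => sq1_nonneg _)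
      (by positivity : 0 < M * n) fun g hg => le_of_lt hg).trans ?_
    rw [div_le_div_iff₀ (by positivity) hM0]
    have := (hR n n τ (hτ₀.le.trans hτ) hτT hn0 le_rfl).2.2.1
    calc pEv b n n τ (fun J u => sq1 (brk J u)) * M ≤ |CR| * n * M :=
          mul_le_mul_of_nonneg_right (this.trans (mul_le_mul_of_nonneg_right (le_abs_self _)
            hn'.le)) hM0.le
      _ = |CR| * (M * n) := by ring
  rw [add_div]
  refine (measureReal_mono fun g hg => ?_).trans (pPr_union_le _ _ h1 h2)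
  simp only [bad1, Set.mem_ofPred_eq, Set.mem_union, not_and_or, not_le] at hg ⊢
  exact hg

/-- The averaged capped inverse variance is bounded in probability. -/
theorem qAvg_tendsto {b : ℝ} (hb : 0 < b) (hS : SliceSpec b) (hY : YTightSpec b) (hR : RecSpec b)
    (Tm : ℝ) : ∃ Q : ℝ, 0 ≤ Q ∧ ∀ η τ : ℝ, 0 < η → 0 < τ → τ ≤ Tm →
      Tendsto (fun n => (gauss (Idx n)).real {g | Q < qAvg η n (jOf b n g) (plU τ g)}) atTop
        (𝓝 0) := by
  obtain ⟨C₂, hC₂⟩ := hS 2 Tm
  refine ⟨|C₂| + 1, by positivity, fun η τ hη hτ hτT => ?_⟩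
  obtain ⟨Cg, hCg0, N, hCg⟩ := gradSize_mean hb hY hR τ Tm hτ
  set K := 2 * (2 * (2 + η) / η ^ 3) * (Cg + 1) with hK
  refine squeeze_zero' (Eventually.of_forall fun _ => measureReal_nonneg) ?_
    (show Tendsto (fun n : ℕ => K / √(n:ℝ)) atTop (𝓝 0) from
      Tendsto.const_div_atTop (Real.tendsto_sqrt_atTop.comp tendsto_natCast_atTop_atTop) K)
  filter_upwards [eventually_ge_atTop (N + 1)] with n hn
  have hn0 : 0 < n := by omega
  have hn' : (0:ℝ) < n := Nat.cast_pos.2 hn0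
  obtain ⟨hqi, -, hq⟩ := conc_qAvg (b := b) hb hη hτ.le hn0 (le_refl n)
  set q : (Idx n → ℝ) → ℝ := fun g => qAvg η n (jOf b n g) (plU τ g)
  have hqi' : Integrable q (gauss (Idx n)) := hqi
  set e := ∫ g, q g ∂gauss (Idx n) with he
  have hmean : e ≤ |C₂| := by
    obtain ⟨m, rfl⟩ : ∃ m, n = m + 1 := ⟨n - 1, by omega⟩
    have hi : ∀ i, Integrable (fun g : Idx (m + 1) → ℝ =>
        (1 / vw (jOf b (m + 1) g) (plU τ g) i) ^ 2) (gauss (Idx (m + 1))) :=
      fun i => ((gr_inv_vw i).pow 2).integrable _ _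
    have hpt : ∀ g, q g ≤
        (∑ i, (1 / vw (jOf b (m + 1) g) (plU τ g) i) ^ 2) / ((m + 1 : ℕ) : ℝ) := by
      intro g
      refine div_le_div_of_nonneg_right (sum_le_sum fun i _ => ?_) (Nat.cast_nonneg _)
      rw [← sq_abs (mg _ _ i / _), abs_div]
      have hw := vw_pos (jOf b (m + 1) g) (plU τ g) i
      refine pow_le_pow_left₀ (div_nonneg (abs_nonneg _) (abs_nonneg _)) ?_ 2
      exact div_le_div₀ zero_le_one (abs_mg_le _ _ i) hw
        (le_trans (by linarith) (le_abs_self _))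
    refine (integral_mono hqi' ((integrable_finsetSum _ fun i _ => hi i).div_const _) hpt).trans ?_
    rw [integral_div, integral_finsetSum _ fun i _ => hi i, div_le_iff₀ hn']
    refine (sum_le_sum fun i _ => ((hC₂ (m + 1) m τ hτ.le hτT le_rfl i).2).trans
      (le_abs_self _)).trans (le_of_eq ?_)
    simp [mul_comm]
  have hd : ∀ g, |q g - e| ≤ ∫ g', |q g - q g'| ∂gauss (Idx n) := by
    intro g
    have : q g - e = ∫ g', (q g - q g') ∂gauss (Idx n) := by
      rw [integral_sub (integrable_const _) hqi']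
      simp [he]
    rw [this]
    exact abs_integral_le_integral_abs
  have hdi : Integrable (fun g => ∫ g', |q g - q g'| ∂gauss (Idx n)) (gauss (Idx n)) :=
    (((hqi'.comp_fst _).sub (hqi'.comp_snd _)).abs).integral_prod_left
  refine (measureReal_mono (s₂ := {g | (1:ℝ) ≤ |q g - e|}) fun g hg => ?_).trans ?_
  · simp only [Set.mem_ofPred_eq] at hg ⊢
    exact le_trans (by linarith) (le_abs_self _)
  have hm := mul_meas_ge_le_integral_of_nonneg (ae_of_all _ fun g => abs_nonneg (q g - e))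
    (hqi'.sub (integrable_const e)).abs 1
  rw [one_mul] at hm
  refine hm.trans ((integral_mono (hqi'.sub (integrable_const e)).abs hdi hd).trans (hq.trans ?_))
  have hgs : pEv b n n τ (gradSize b τ n) ≤ Cg + 1 := by
    calc pEv b n n τ (gradSize b τ n) ≤ pEv b n n τ (fun J u => gradSize b τ n J u ^ 2 + 1) :=
          integral_mono ((pb_gradSize b τ n).integrable _ _)
            ((((pb_gradSize b τ n).pow 2).add (PB.const 1)).integrable _ _) fun g => by
              nlinarith [sq_nonneg (gradSize b τ n (plJ (b ^ 2 / n) g) (plU τ g) - 1 / 2)]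
      _ = pEv b n n τ (fun J u => gradSize b τ n J u ^ 2) + 1 := by
          rw [pEv, integral_add (((pb_gradSize b τ n).pow 2).integrable _ _) (integrable_const _)]
          simp [pEv]
      _ ≤ Cg + 1 := add_le_add_left (hCg n τ (by omega) le_rfl hτT) 1
  refine (mul_le_mul_of_nonneg_left hgs (by positivity)).trans (le_of_eq ?_)
  simp only [hK]
  ring

/-- The first event is negligible. -/
theorem bad0_tendsto {b η c Q θ τ : ℝ} (hb0 : 0 < b) (hb1 : b < 1) (hθ : 0 < θ) (hτ : 0 < τ)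
    (hc : Tendsto (fun n => (gauss (Idx n)).real
      {g | sq1 (mg (jOf b n g) (plU τ g)) < c * n}) atTop (𝓝 0))
    (hQ : Tendsto (fun n => (gauss (Idx n)).real {g | Q < qAvg η n (jOf b n g) (plU τ g)}) atTop
      (𝓝 0))
    (hH : Tendsto (fun n => (gauss (Idx n)).real {g | ¬ ∀ v : Vec n,
      ∑ i, v i * mg (jOf b n g) (plU τ g) i = 0 →
        kap b * sq1 v ≤ ∑ i, ∑ j, hA b η n (jOf b n g) (plU τ g) i j * v i * v j}) atTop (𝓝 0))
    (hJ : JSpec b) (hRB : RespBoundSpec b) (hRS : RespSoftSpec b) (hG : GramSpec b)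
    (hR : RecSpec b) :
    Tendsto (fun n => (gauss (Idx n)).real (bad0 b η c Q θ τ n)) atTop (𝓝 0) := by
  have hJ3 : Tendsto (fun n => (gauss (Idx n)).real {g | 3 < op (jOf b n g)}) atTop (𝓝 0) := by
    obtain ⟨C, k, hk, h⟩ := hJ.1 (3 - 2 * b) (by linarith)
    refine squeeze_zero' (Eventually.of_forall fun _ => measureReal_nonneg) ?_
      (tendsto_exp_neg_mul_nat C hk)
    filter_upwards [eventually_gt_atTop 0] with n hn
    refine le_trans (measureReal_mono fun g hg => ?_) (h n n τ hn le_rfl)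
    simp only [Set.mem_ofPred_eq] at hg ⊢
    exact lt_of_le_of_lt (le_of_eq (by ring)) hg
  have hres : Tendsto (fun n => (gauss (Idx n)).real
      {g | θ < op (resid b n (jOf b n g) (plU τ g))}) atTop (𝓝 0) := by
    refine tendsto_zero_of_ev_le (fun _ => measureReal_nonneg) fun e he => ?_
    obtain ⟨N, hN⟩ := linP b hRS hG τ τ hτ hθ he
    filter_upwards [eventually_ge_atTop N] with n hn using hN n τ hn le_rfl le_rfl
  have heps : Tendsto (fun n => (gauss (Idx n)).real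
      {g | θ ^ 4 < ∑ i, epsV b n (jOf b n g) (plU τ g) i ^ 4}) atTop (𝓝 0) := by
    obtain ⟨C, h⟩ := hRB τ
    refine squeeze_zero' (Eventually.of_forall fun _ => measureReal_nonneg) ?_
      (tendsto_const_div_nat_sq (C / (θ ^ 4) ^ 2))
    filter_upwards [eventually_gt_atTop 0] with n hn
    refine (pPr_lt_le (F := fun J (u : Vec n) => (∑ i, epsV b n J u i ^ 4) ^ 2)
      (((pb_sum_epsV_pow b n 4).pow 2).integrable _ _) (fun J u _ => sq_nonneg _)
      (by positivity : 0 < (θ ^ 4) ^ 2)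
      fun g hg => pow_le_pow_left₀ (by positivity) (le_of_lt hg) 2).trans ?_
    rw [div_right_comm]
    exact div_le_div_of_nonneg_right (h n n τ hτ.le le_rfl hn le_rfl).2 (by positivity)
  have hbrk : Tendsto (fun n => (gauss (Idx n)).real
      {g | θ ^ 4 * (n : ℝ) ^ 2 < ∑ i, brk (jOf b n g) (plU τ g) i ^ 4}) atTop (𝓝 0) := by
    obtain ⟨C, h⟩ := hR.1 τ
    refine squeeze_zero' (Eventually.of_forall fun _ => measureReal_nonneg) ?_
      (show Tendsto (fun n : ℕ => C / θ ^ 4 * (n : ℝ) ^ (-(1 / 4) : ℝ)) atTop (𝓝 0) by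
        simpa using ((tendsto_rpow_neg_atTop (by norm_num : (0:ℝ) < 1 / 4)).comp
          tendsto_natCast_atTop_atTop).const_mul (C / θ ^ 4))
    filter_upwards [eventually_gt_atTop 0] with n hn
    have hn' : (0:ℝ) < n := Nat.cast_pos.2 hn
    refine (pPr_lt_le (F := fun J (u : Vec n) => ∑ i, brk J u i ^ 4)
      ((pb_brk_pow 4).integrable _ _)
      (fun J u _ => sum_nonneg fun i _ => Even.pow_nonneg (by decide) _)
      (by positivity : 0 < θ ^ 4 * (n : ℝ) ^ 2) fun g hg => le_of_lt hg).trans ?_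
    refine (div_le_div_of_nonneg_right (h n n τ hτ.le le_rfl hn le_rfl).2.2.2
      (by positivity)).trans (le_of_eq ?_)
    rw [show (-(1 / 4) : ℝ) = 7 / 4 - (2:ℕ) by norm_num, rpow_sub_natCast hn'.ne']
    field_simp
  refine squeeze_zero (fun _ => measureReal_nonneg)
    (fun n => measureReal_mono fun g hg => ?_)
    (tendsto_union (tendsto_union (tendsto_union hc hJ3) (tendsto_union hQ hH))
      (tendsto_union hres (tendsto_union heps hbrk)))
  simp only [bad0, Good0, Set.mem_ofPred_eq, Set.mem_union, not_and_or, not_le] at hg ⊢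
  tauto

end Vale.Agent.P150.Weak.YB
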