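import Vale.Agent.P150.Weak.YBound.GradDet

/-!
Bounds on the longitudinal iterate on the good event: uniformly in the cap `η` the iterate has norm
of order `√n`, and if the response error is small it is delocalised and `s a = p` up to a small error.
-/

open MeasureTheory Finset Real

namespace Vale.Agent.P150.Weak.YB

open Gap

variable {m : ℕ}

/-- The penalty that makes `M` positive definite. -/
noncomputable def pen0 (b c Q : ℝ) : ℝ :=
  (kap b / 2 + 2 * (3 * (Q + b ^ 4 + 9) / c) / kap b + 3) / c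

/-- The scale of the Richardson step. -/
noncomputable def lam0 (b η c Q : ℝ) : ℝ := 1 / η + b ^ 2 + 3 + pen0 b c Q

/-- The good event: nondegenerate magnetisation, bounded couplings, bounded average capped inverse
variance and positive Hessian on `m⊥`. -/
def Good0 (b η c Q : ℝ) (n : ℕ) (J : Mat m) (u : Vec m) : Prop :=
  c * n ≤ sq1 (mg J u) ∧ op J ≤ 3 ∧ qAvg η n J u ≤ Q ∧
    ∀ v : Vec m, ∑ i, v i * mg J u i = 0 →
      kap b * sq1 v ≤ ∑ i, ∑ j, hA b η n J u i j * v i * v j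

lemma kap_pos {b : ℝ} (h0 : 0 < b) (h1 : b < 1) : 0 < kap b := by
  unfold kap
  have : b ^ 2 < 1 := by nlinarith
  positivity

lemma pen0_pos {b c Q : ℝ} (h0 : 0 < b) (h1 : b < 1) (hc : 0 < c) (hQ : 0 ≤ Q) :
    0 < pen0 b c Q := by
  have := kap_pos h0 h1
  unfold pen0; positivity

lemma sqrt_sq1_mg_le {n : ℕ} (hmn : m ≤ n) (J : Mat m) (u : Vec m) : √(sq1 (mg J u)) ≤ √(n : ℝ) :=
  Real.sqrt_le_sqrt (sq1_mg_le hmn J u)

lemma sqrt_sq1_diag_le {B : ℝ} (hB : 0 ≤ B) {f : Vec m} (hf : ∀ i, |f i| ≤ B) (a : Vec m) :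
    √(sq1 fun i => f i * a i) ≤ B * √(sq1 a) := by
  rw [← Real.sqrt_sq hB, ← Real.sqrt_mul (sq_nonneg _)]
  refine Real.sqrt_le_sqrt ?_
  simp only [sq1, mul_pow, mul_sum]
  exact sum_le_sum fun i _ => mul_le_mul_of_nonneg_right
    (sq_le_sq.2 ((hf i).trans (le_abs_self B))) (sq_nonneg _)

section good

variable {b η c Q : ℝ} {n : ℕ} {J : Mat m} {u : Vec m}

/-- `M` is positive definite on the good event. -/
theorem pd_of_good (h0 : 0 < b) (h1 : b < 1) (hη : 0 < η) (hc : 0 < c) (hQ : 0 ≤ Q) (hn : 0 < n)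
    (hmn : m ≤ n) (hJ : IsCoupling J) (hg : Good0 b η c Q n J u) (v : Vec m) :
    kap b / 2 * sq1 v ≤ dt v (mv (hM b η (pen0 b c Q) n J u) v) := by
  obtain ⟨hmc, hJ3, hq, hH⟩ := hg
  have hκ := kap_pos h0 h1
  have hn' : (0:ℝ) < n := Nat.cast_pos.2 hn
  have hne : 0 < sq1 (mg J u) := lt_of_lt_of_le (mul_pos hc hn') hmc
  set e : Vec m := (√(sq1 (mg J u)))⁻¹ • mg J u with he
  have hee : dt e e = 1 := by
    rw [he, dt_smul_left, dt_smul_right, dt_self, ← mul_assoc, ← mul_inv, mul_self_sqrt hne.le,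
      inv_mul_cancel₀ hne.ne']
  obtain ⟨α, hαe⟩ : ∃ α, dt e v = α := ⟨_, rfl⟩
  obtain ⟨w, hw⟩ : ∃ w, v - α • e = w := ⟨_, rfl⟩
  have hwe : dt w e = 0 := by
    rw [← hw, dt_sub_left, dt_smul_left, hee, mul_one, dt_comm, hαe, sub_self]
  have hwm : dt w (mg J u) = 0 := by
    rw [he, dt_smul_right] at hwe
    exact (mul_eq_zero.1 hwe).resolve_left (inv_ne_zero (Real.sqrt_ne_zero'.2 hne))
  have hvw : v = w + α • e := by rw [← hw, sub_add_cancel]
  have hme : dt (mg J u) e = √(sq1 (mg J u)) := by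
    rw [he, dt_smul_right, dt_self, inv_mul_eq_div, Real.div_sqrt]
  set O := 3 * (Q + b ^ 4 + 9) / c
  have hAs : ∀ i j, hA b η n J u i j = hA b η n J u j i := by
    intro i j
    simp only [hA, hJ.symm i j, eq_comm (a := j) (b := i)]
    split_ifs with h <;> simp [h]
  have hAe : sq1 (mv (hA b η n J u) e) ≤ O := by
    rw [he, mv_smul]
    have hm1 : sq1 (mv (hA b η n J u) (mg J u)) ≤ 3 * ((Q + b ^ 4 + 9) * n) := by
      have e3 : ∀ i, mv (hA b η n J u) (mg J u) i ^ 2 ≤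
          3 * ((mg J u i / (vw J u i + η)) ^ 2 + b ^ 4 * mg J u i ^ 2 + mv J (mg J u) i ^ 2) := by
        intro i
        simp only [mv_hA]
        have h2 : (b ^ 2 * sAvg n J u * mg J u i) ^ 2 ≤ b ^ 4 * mg J u i ^ 2 := by
          rw [mul_pow, mul_pow, ← pow_mul]
          exact mul_le_mul_of_nonneg_right
            (mul_le_of_le_one_right (by positivity)
              (pow_le_one₀ (sAvg_nonneg n J u) (sAvg_le_one hmn J u))) (sq_nonneg _)
        rw [add_mul, one_div_mul_eq_div]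
        nlinarith [sq_nonneg (mg J u i / (vw J u i + η) - b ^ 2 * sAvg n J u * mg J u i),
          sq_nonneg (mg J u i / (vw J u i + η) + mv J (mg J u) i),
          sq_nonneg (b ^ 2 * sAvg n J u * mg J u i + mv J (mg J u) i)]
      refine (sum_le_sum fun i _ => e3 i).trans ?_
      rw [← mul_sum, sum_add_distrib, sum_add_distrib, ← mul_sum]
      have q1 : ∑ i, (mg J u i / (vw J u i + η)) ^ 2 ≤ Q * n := (div_le_iff₀ hn').1 hq
      have q2 := mul_le_mul_of_nonneg_left (sq1_mg_le hmn J u) (by positivity : (0:ℝ) ≤ b ^ 4)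
      have q3 : ∑ i, mv J (mg J u) i ^ 2 ≤ 9 * n := by
        have h := sqrt_sq1_mv_le J (mg J u)
        have hs := (Real.sqrt_le_iff.1 h).2
        rw [mul_pow, sq_sqrt (sq1_nonneg _)] at hs
        refine hs.trans (mul_le_mul ?_ (sq1_mg_le hmn J u) (sq1_nonneg _) (by norm_num))
        nlinarith [op_nonneg J]
      simp only [sq1] at q2
      linarith
    have hs : sq1 ((√(sq1 (mg J u)))⁻¹ • mv (hA b η n J u) (mg J u)) =
        sq1 (mv (hA b η n J u) (mg J u)) / sq1 (mg J u) := by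
      simp only [sq1, Pi.smul_apply, smul_eq_mul, mul_pow, ← mul_sum]
      rw [inv_pow, sq_sqrt (sum_nonneg fun i _ => sq_nonneg _), inv_mul_eq_div]
    rw [hs, div_le_iff₀ hne]
    calc _ ≤ 3 * ((Q + b ^ 4 + 9) * n) := hm1
      _ = O * (c * n) := by simp only [O]; field_simp
      _ ≤ O * sq1 (mg J u) := mul_le_mul_of_nonneg_left hmc (by positivity)
  have hcross : |dt w (mv (hA b η n J u) e)| ≤ √(sq1 w) * √O :=
    (abs_dt_le _ _).trans (mul_le_mul_of_nonneg_left (Real.sqrt_le_sqrt hAe) (sqrt_nonneg _))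
  have hee2 : -3 ≤ dt e (mv (hA b η n J u) e) := by
    rw [mv_hA, show (fun i => (1 / (vw J u i + η) + b ^ 2 * sAvg n J u) * e i - mv J e i) =
      (fun i => (1 / (vw J u i + η) + b ^ 2 * sAvg n J u) * e i) - mv J e from rfl, dt_sub_right]
    have h1 : 0 ≤ dt e (fun i => (1 / (vw J u i + η) + b ^ 2 * sAvg n J u) * e i) :=
      sum_nonneg fun i _ => by
        have := vw_pos J u i; have := sAvg_nonneg n J u
        rw [mul_left_comm]; exact mul_nonneg (by positivity) (mul_self_nonneg _)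
    have h2 : dt e (mv J e) ≤ op J := by
      simpa [← dt_self e, hee] using (le_abs_self _).trans (abs_dt_mv_self_le J e)
    linarith
  have hq' : kap b * sq1 w ≤ dt w (mv (hA b η n J u) w) := by rw [dt_quad]; exact hH w hwm
  have hG := pen0_pos h0 h1 hc hQ
  have hGc : kap b / 2 + 2 * O / kap b + 3 ≤ pen0 b c Q / n * sq1 (mg J u) := by
    refine le_trans (le_of_eq ?_) (mul_le_mul_of_nonneg_left hmc (by positivity))
    simp only [pen0, O]
    field_simp
  have hw2 : sq1 v = sq1 w + α ^ 2 := by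
    rw [← dt_self v, hvw, ← dt_self w]
    simp only [dt_add_left, dt_add_right, dt_smul_left, dt_smul_right, dt_comm e w, hwe, hee]
    ring
  have hsc : 2 * |α| * (√(sq1 w) * √O) ≤ kap b / 2 * sq1 w + 2 * O / kap b * α ^ 2 := by
    refine le_of_mul_le_mul_left ?_ hκ
    have h := sq_nonneg (kap b * √(sq1 w) - 2 * |α| * √O)
    have e : kap b * (kap b / 2 * sq1 w + 2 * O / kap b * α ^ 2) =
        ((kap b * √(sq1 w)) ^ 2 + (2 * |α| * √O) ^ 2) / 2 := by
      rw [mul_pow, mul_pow, mul_pow, sq_sqrt (sq1_nonneg w), sq_abs,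
        sq_sqrt (by positivity : 0 ≤ O)]
      field_simp
    rw [e]
    linarith
  have hmain : dt v (mv (hM b η (pen0 b c Q) n J u) v) = dt w (mv (hA b η n J u) w) +
      2 * α * dt w (mv (hA b η n J u) e) + α ^ 2 * dt e (mv (hA b η n J u) e) +
      α ^ 2 * (pen0 b c Q / n * sq1 (mg J u)) := by
    have hm' : dt (mg J u) w = 0 := by rw [dt_comm]; exact hwm
    have e1 : dt e (mv (hA b η n J u) w) = dt w (mv (hA b η n J u) e) := by
      rw [dt_mv_symm hAs, dt_comm]
    rw [mv_hM, dt_add_right, dt_smul_right, dt_comm v (mg J u), hvw]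
    simp only [mv_add, mv_smul, dt_add_left, dt_add_right, dt_smul_left, dt_smul_right, e1, hm', hme]
    rw [show sq1 (mg J u) = √(sq1 (mg J u)) * √(sq1 (mg J u)) from
      (mul_self_sqrt (sq1_nonneg _)).symm]
    ring_nf
    simp only [sq_sqrt (sq1_nonneg (mg J u))]
  rw [hmain, hw2]
  have hc2 : -(2 * |α| * (√(sq1 w) * √O)) ≤ 2 * α * dt w (mv (hA b η n J u) e) := by
    refine neg_le_of_abs_le ?_
    rw [abs_mul, abs_mul, abs_two]
    exact mul_le_mul_of_nonneg_left hcross (by positivity)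
  have := mul_le_mul_of_nonneg_left hGc (sq_nonneg α)
  have := mul_le_mul_of_nonneg_left hee2 (sq_nonneg α)
  linarith

/-- The contraction factor. -/
noncomputable def rho0 (b η c Q : ℝ) : ℝ := 1 - kap b / 2 / lam0 b η c Q

lemma rho0_mem (h0 : 0 < b) (h1 : b < 1) (hη : 0 < η) (hc : 0 < c) (hQ : 0 ≤ Q) :
    0 ≤ rho0 b η c Q ∧ rho0 b η c Q < 1 := by
  have hκ := kap_pos h0 h1
  have hG := pen0_pos h0 h1 hc hQ
  have hb : b ^ 2 < 1 := by nlinarith
  have hk1 : kap b / 2 ≤ 3 := by unfold kap; nlinarith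
  have hL : 3 ≤ lam0 b η c Q := by
    unfold lam0; have : 0 ≤ 1 / η := by positivity
    nlinarith
  unfold rho0
  constructor
  · rw [sub_nonneg, div_le_one (by linarith)]; linarith
  · have : 0 < kap b / 2 / lam0 b η c Q := div_pos (by linarith) (by linarith)
    linarith

/-- The basic bounds: residual, iterate and their entries over the variances. -/
theorem basic_bounds (h0 : 0 < b) (h1 : b < 1) (hη : 0 < η) (hc : 0 < c) (hQ : 0 ≤ Q) (hn : 0 < n)
    (hmn : m ≤ n) (hJ : IsCoupling J) (hg : Good0 b η c Q n J u) (j : ℕ) :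
    let G := pen0 b c Q
    let L := lam0 b η c Q
    let y := yIt b η G L n j J u
    let r := rres L (hM b η G n J u) (mg J u) j
    √(sq1 r) ≤ rho0 b η c Q ^ j * √(n : ℝ) ∧ √(sq1 y) ≤ 4 / kap b * √(n : ℝ) ∧
      |dt (mg J u) y / n| ≤ 4 / kap b ∧
      √(sq1 fun i => y i / (vw J u i + η)) ≤ (2 + (4 + G) * (4 / kap b)) * √(n : ℝ) := by
  intro G L y r
  have hκ := kap_pos h0 h1
  have hG : 0 < G := pen0_pos h0 h1 hc hQ
  have hn' : (0:ℝ) < n := Nat.cast_pos.2 hn
  have hpd := pd_of_good h0 h1 hη hc hQ hn hmn hJ hg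
  have hL : 0 < L := by simp only [L, lam0]; positivity
  have hop : op (hM b η G n J u) ≤ L := by
    refine (op_hM_le b G hη hn hmn J u).trans ?_
    rw [abs_of_pos hG]
    simp only [L, lam0, G]; linarith [hg.2.1]
  obtain ⟨hρ0, hρ1⟩ := rho0_mem (b := b) h0 h1 hη hc hQ
  have hstep : ∀ z, √(sq1 (step L (hM b η G n J u) z)) ≤ rho0 b η c Q * √(sq1 z) :=
    contract_all hL (hM_symm b η G n hJ u) hpd hop
  have hr : √(sq1 r) ≤ rho0 b η c Q ^ j * √(n : ℝ) := by
    simp only [r, rres_eq]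
    rw [← neg_one_smul ℝ, sqrt_sq1_smul, abs_neg, abs_one, one_mul]
    exact (step_iter_le hρ0 hstep _ j).trans
      (mul_le_mul_of_nonneg_left (sqrt_sq1_mg_le hmn J u) (pow_nonneg hρ0 j))
  have hMy : mv (hM b η G n J u) y = mg J u + r := by simp only [r, y, rres, yIt]; abel
  have hsum : √(sq1 (mg J u + r)) ≤ 2 * √(n : ℝ) := by
    refine (sqrt_sq1_add_le _ _).trans ?_
    have := hr.trans (mul_le_of_le_one_left (sqrt_nonneg _) (pow_le_one₀ hρ0 hρ1.le))
    linarith [sqrt_sq1_mg_le hmn J u]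
  have hy : √(sq1 y) ≤ 4 / kap b * √(n : ℝ) := by
    refine (norm_le_of_pd (by positivity) hpd y).trans ?_
    rw [hMy, div_le_iff₀ (by positivity)]
    calc _ ≤ 2 * √(n : ℝ) := hsum
      _ = _ := by field_simp; ring
  have hp : |dt (mg J u) y / n| ≤ 4 / kap b := by
    rw [abs_div, abs_of_pos hn', div_le_iff₀ hn']
    calc |dt (mg J u) y| ≤ √(sq1 (mg J u)) * √(sq1 y) := abs_dt_le _ _
      _ ≤ √(n : ℝ) * (4 / kap b * √(n : ℝ)) :=
        mul_le_mul (sqrt_sq1_mg_le hmn J u) hy (sqrt_nonneg _) (sqrt_nonneg _)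
      _ = 4 / kap b * n := by rw [mul_left_comm, mul_self_sqrt hn'.le]
  refine ⟨hr, hy, hp, ?_⟩
  have e : (fun i => y i / (vw J u i + η)) = (mg J u + r) - (b ^ 2 * sAvg n J u) • y + mv J y -
      (G / n * dt (mg J u) y) • mg J u := by
    rw [← hMy, mv_hM, mv_hA]
    funext i
    simp only [Pi.add_apply, Pi.sub_apply, Pi.smul_apply, smul_eq_mul]
    ring
  rw [e]
  refine (sqrt_sq1_sub_le _ _).trans ?_
  refine (add_le_add (sqrt_sq1_add_le _ _) le_rfl).trans ?_
  refine (add_le_add (add_le_add (sqrt_sq1_sub_le _ _) le_rfl) le_rfl).trans ?_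
  rw [sqrt_sq1_smul, sqrt_sq1_smul]
  have q1 : |b ^ 2 * sAvg n J u| * √(sq1 y) ≤ 1 * (4 / kap b * √(n : ℝ)) := by
    refine mul_le_mul ?_ hy (sqrt_nonneg _) zero_le_one
    rw [abs_of_nonneg (mul_nonneg (sq_nonneg _) (sAvg_nonneg n J u))]
    exact mul_le_one₀ (pow_le_one₀ h0.le h1.le) (sAvg_nonneg n J u) (sAvg_le_one hmn J u)
  have q2 : √(sq1 (mv J y)) ≤ 3 * (4 / kap b * √(n : ℝ)) :=
    (sqrt_sq1_mv_le J y).trans (mul_le_mul hg.2.1 hy (sqrt_nonneg _) (by norm_num))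
  have q3 : |G / n * dt (mg J u) y| * √(sq1 (mg J u)) ≤ G * (4 / kap b) * √(n : ℝ) := by
    rw [div_mul_eq_mul_div, mul_div_assoc, abs_mul, abs_of_pos hG]
    exact mul_le_mul (mul_le_mul_of_nonneg_left hp hG.le) (sqrt_sq1_mg_le hmn J u) (sqrt_nonneg _)
      (by positivity)
  linarith

end good

end Vale.Agent.P150.Weak.YB
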