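import Vale.Agent.P150.Weak.YBound.GradDefs

/-!
The differential of the longitudinal scalar `p_j` in the magnetisation and the couplings, and the
deterministic bounds of its two parts.
-/

open Finset Real

namespace Vale.Agent.P150.Weak.YB

open Gap

variable {m : ℕ}

lemma sqrt_sq1_add_le (a c : Vec m) : √(sq1 (a + c)) ≤ √(sq1 a) + √(sq1 c) := by
  rw [← norm_toLp, ← norm_toLp, ← norm_toLp, WithLp.toLp_add]
  exact norm_add_le _ _

lemma sqrt_sq1_sub_le (a c : Vec m) : √(sq1 (a - c)) ≤ √(sq1 a) + √(sq1 c) := by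
  rw [← norm_toLp, ← norm_toLp, ← norm_toLp, WithLp.toLp_sub]
  exact norm_sub_le _ _

lemma sqrt_sq1_smul (r : ℝ) (a : Vec m) : √(sq1 (r • a)) = |r| * √(sq1 a) := by
  rw [← norm_toLp, ← norm_toLp, WithLp.toLp_smul, norm_smul, Real.norm_eq_abs]

lemma sqrt_sq1_sum_le {α : Type*} (s : Finset α) (f : α → Vec m) :
    √(sq1 (∑ i ∈ s, f i)) ≤ ∑ i ∈ s, √(sq1 (f i)) := by
  simp only [← norm_toLp]
  rw [WithLp.toLp_sum]
  exact norm_sum_le _ _

lemma sqrt_sq1_mul_le (z d : Vec m) : √(sq1 fun k => z k * d k) ≤ √(sq1 z) * √(sq1 d) := by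
  rw [← Real.sqrt_mul (sq1_nonneg z)]
  refine Real.sqrt_le_sqrt ?_
  simp only [sq1, sum_mul, mul_pow]
  exact sum_le_sum fun k _ => mul_le_mul_of_nonneg_left
    (single_le_sum (f := fun l => d l ^ 2) (fun l _ => sq_nonneg _) (mem_univ k)) (sq_nonneg _)

lemma sqrt_sq1_scale_le {c : Vec m} {B : ℝ} (hB : 0 ≤ B) (hc : ∀ k, |c k| ≤ B) (a : Vec m) :
    √(sq1 fun k => c k * a k) ≤ B * √(sq1 a) := by
  rw [← Real.sqrt_sq hB, ← Real.sqrt_mul (sq_nonneg B)]
  refine Real.sqrt_le_sqrt ?_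
  simp only [sq1, mul_sum, mul_pow]
  exact sum_le_sum fun k _ => mul_le_mul_of_nonneg_right
    (by rw [← sq_abs]; exact pow_le_pow_left₀ (abs_nonneg _) (hc k) 2) (sq_nonneg _)

lemma abs_dt_mg_le {n : ℕ} (hmn : m ≤ n) (J : Mat m) (u : Vec m) (a : Vec m) :
    |dt (mg J u) a| ≤ √(n:ℝ) * √(sq1 a) :=
  (abs_dt_le _ _).trans (mul_le_mul_of_nonneg_right (Real.sqrt_le_sqrt (sq1_mg_le hmn J u))
    (sqrt_nonneg _))

lemma op_hM_le (b G : ℝ) {η : ℝ} (hη : 0 < η) {n : ℕ} (hn : 0 < n) (hmn : m ≤ n) (J : Mat m)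
    (u : Vec m) : op (hM b η G n J u) ≤ 1 / η + b ^ 2 + |G| + op J := by
  have := op_nonneg J
  refine op_le_of_mv (by positivity) fun v => ?_
  rw [mv_hM]
  refine (sqrt_sq1_add_le _ _).trans ?_
  have h1 := (sqrt_sq1_mv_le (hA b η n J u) v).trans
    (mul_le_mul_of_nonneg_right (op_hA_le b hη hmn J u) (sqrt_nonneg _))
  have h2 : √(sq1 ((G / n * dt (mg J u) v) • mg J u)) ≤ |G| * √(sq1 v) := by
    rw [sqrt_sq1_smul, abs_mul, abs_div, Nat.abs_cast]
    calc |G| / n * |dt (mg J u) v| * √(sq1 (mg J u))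
        ≤ |G| / n * (√(n:ℝ) * √(sq1 v)) * √(n:ℝ) := by
          gcongr
          exacts [abs_dt_mg_le hmn J u v, sq1_mg_le hmn J u]
      _ = _ := by
          have : (n:ℝ) ≠ 0 := (Nat.cast_pos.2 hn).ne'
          field_simp
          rw [Real.sq_sqrt (Nat.cast_nonneg n)]
  linarith

lemma hM_symm (b η G : ℝ) (n : ℕ) {J : Mat m} (hJ : IsCoupling J) (u : Vec m) (i k : Fin m) :
    hM b η G n J u i k = hM b η G n J u k i := by
  simp only [hM, hA, hJ.symm i k, mul_comm (mg J u i), eq_comm (a := i) (b := k)]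
  split_ifs with h <;> simp [h]

lemma dt_step_symm {L : ℝ} {M : Mat m} (hM : ∀ i k, M i k = M k i) (a c : Vec m) :
    dt a (step L M c) = dt (step L M a) c := by
  simp only [step, dt_sub_right, dt_sub_left, dt_smul_right, dt_smul_left, dt_mv_symm hM]

/-- The differential of the iterate. -/
noncomputable def dRich (L : ℝ) (M dM : Mat m) (x dx : Vec m) : ℕ → Vec m
  | 0 => 0
  | j + 1 => step L M (dRich L M dM x dx j) + L⁻¹ • (dx - mv dM (rich L M x j))

lemma dt_dRich {L : ℝ} {M : Mat m} (hM : ∀ i k, M i k = M k i) (dM : Mat m) (x dx : Vec m) :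
    ∀ (j : ℕ) (z : Vec m), dt z (dRich L M dM x dx j) = ∑ i ∈ range j,
      L⁻¹ * dt ((step L M)^[j - 1 - i] z) (dx - mv dM (rich L M x i)) := by
  intro j
  induction j with
  | zero => intro z; simp [dRich, dt]
  | succ j ih =>
    intro z
    rw [sum_range_succ, dRich, dt_add_right, dt_smul_right, dt_step_symm hM, ih]
    refine congrArg₂ (· + ·) (sum_congr rfl fun i hi => ?_) ?_
    · rw [← Function.iterate_succ_apply,
        show (j - 1 - i).succ = j + 1 - 1 - i by have := mem_range.1 hi; omega]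
    · simp

/-- Paths are differentiated entrywise. -/
lemma hasDerivAt_rich {L : ℝ} {M : ℝ → Mat m} {x : ℝ → Vec m} {dM : Mat m} {dx : Vec m} {t : ℝ}
    (hM : ∀ i k, HasDerivAt (fun s => M s i k) (dM i k) t)
    (hx : ∀ k, HasDerivAt (fun s => x s k) (dx k) t) :
    ∀ (j : ℕ) (k : Fin m),
      HasDerivAt (fun s => rich L (M s) (x s) j k) (dRich L (M t) dM (x t) dx j k) t := by
  intro j
  induction j with
  | zero => intro k; simpa [rich, dRich] using hasDerivAt_const t (0:ℝ)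
  | succ j ih =>
    intro k
    simp only [rich, Pi.add_apply, Pi.smul_apply, Pi.sub_apply, smul_eq_mul, mv]
    refine ((ih k).fun_add (((hx k).fun_sub
      (HasDerivAt.fun_sum fun l _ => (hM k l).fun_mul (ih l))).const_mul L⁻¹)).congr_deriv ?_
    simp only [dRich, step, Pi.add_apply, Pi.smul_apply, Pi.sub_apply, smul_eq_mul, mv,
      sum_add_distrib]
    ring

/-- The differential of `M`. -/
noncomputable def dHM (b η G : ℝ) (n : ℕ) (J : Mat m) (u : Vec m) (dm : Vec m) (dJ : Mat m) :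
    Mat m := fun i k =>
  ((if i = k then 2 * mg J u i / (vw J u i + η) ^ 2 * dm i - 2 * (b ^ 2 / n) * dt (mg J u) dm
    else 0) - dJ i k) + G / n * (dm i * mg J u k + mg J u i * dm k)

lemma dt_dHM (b η G : ℝ) (n : ℕ) (J : Mat m) (u : Vec m) (dm : Vec m) (dJ : Mat m) (z w : Vec m) :
    dt z (mv (dHM b η G n J u dm dJ) w) =
      dt (fvec b η G n J u z w) dm - ∑ a, ∑ c, dJ a c * (z a * w c) := by
  have h : mv (dHM b η G n J u dm dJ) w = (fun i =>
      (2 * mg J u i / (vw J u i + η) ^ 2 * dm i - 2 * (b ^ 2 / n) * dt (mg J u) dm) * w i) -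
        mv dJ w + ((G / n * dt (mg J u) w) • dm + (G / n * dt dm w) • mg J u) := by
    funext i
    simp only [mv, dHM, add_mul, sub_mul, ite_mul, zero_mul, sum_add_distrib, sum_sub_distrib,
      sum_ite_eq, mem_univ, if_true, Pi.add_apply, Pi.sub_apply, Pi.smul_apply, smul_eq_mul, dt,
      mul_sum, sum_mul, mul_add]
    refine congrArg₂ (· + ·) rfl ?_
    exact congrArg₂ (· + ·) (sum_congr rfl fun l _ => by ring) (sum_congr rfl fun l _ => by ring)
  rw [h, dt_add_right, dt_sub_right, dt_add_right, dt_smul_right, dt_smul_right,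
    show dt z (mv dJ w) = ∑ a, ∑ c, dJ a c * (z a * w c) by
      simp only [dt, mv, mul_sum]
      exact sum_congr rfl fun a _ => sum_congr rfl fun c _ => by ring]
  have hf : fvec b η G n J u z w =
      (fun k => 2 * mg J u k / (vw J u k + η) ^ 2 * z k * w k) -
        (2 * (b ^ 2 / n) * dt z w) • mg J u +
        ((G / n * dt (mg J u) w) • z + (G / n * dt (mg J u) z) • w) := by
    funext k
    simp only [fvec, Pi.add_apply, Pi.sub_apply, Pi.smul_apply, smul_eq_mul]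
    ring
  rw [hf, dt_add_left, dt_sub_left, dt_add_left, dt_smul_left, dt_smul_left, dt_smul_left]
  have h1 : dt z (fun i =>
      (2 * mg J u i / (vw J u i + η) ^ 2 * dm i - 2 * (b ^ 2 / n) * dt (mg J u) dm) * w i) =
      dt (fun k => 2 * mg J u k / (vw J u k + η) ^ 2 * z k * w k) dm -
        2 * (b ^ 2 / n) * dt z w * dt (mg J u) dm := by
    generalize dt (mg J u) dm = S
    simp only [dt, sub_mul, mul_sub, sum_sub_distrib]
    refine congrArg₂ (· - ·) (sum_congr rfl fun i _ => by ring) ?_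
    rw [mul_sum, sum_mul]
    exact sum_congr rfl fun i _ => by ring
  rw [h1, dt_comm z (mg J u), dt_comm dm w]
  ring

/-- The directional derivative of `p_j` along a path in parameter space. -/
theorem hasDerivAt_pIt {b η G L : ℝ} (hη : 0 < η) (n j : ℕ) {J : ℝ → Mat m} {u : ℝ → Vec m}
    {dJ : Mat m} {dm : Vec m} {t : ℝ} (hsymm : IsCoupling (J t))
    (hJ : ∀ a c, HasDerivAt (fun s => J s a c) (dJ a c) t)
    (hm : ∀ k, HasDerivAt (fun s => mg (J s) (u s) k) (dm k) t) :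
    HasDerivAt (fun s => pIt b η G L n j (J s) (u s))
      (dt (avec b η G L n j (J t) (u t)) dm +
        ∑ a, ∑ c, bmat b η G L n j (J t) (u t) a c * dJ a c) t := by
  have hsq : HasDerivAt (fun s => sAvg n (J s) (u s)) (-2 / n * dt (mg (J t) (u t)) dm) t := by
    simp only [sAvg, vw, div_eq_mul_inv]
    refine ((HasDerivAt.fun_sum fun i _ => ((hm i).fun_pow 2).const_sub (1:ℝ)).mul_const
      _).congr_deriv ?_
    simp only [dt, mul_sum, sum_mul]
    exact sum_congr rfl fun i _ => by simp; ring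
  have hM : ∀ i k, HasDerivAt (fun s => hM b η G n (J s) (u s) i k)
      (dHM b η G n (J t) (u t) dm dJ i k) t := by
    intro i k
    have hne : 1 - mg (J t) (u t) i ^ 2 + η ≠ 0 := by
      have := vw_pos (J t) (u t) i
      simp only [vw] at this
      linarith
    simp only [YB.hM, hA, dHM]
    refine (HasDerivAt.fun_sub ?_ (hJ i k)).fun_add
      (((hm i).fun_mul (hm k)).const_mul (G / (n:ℝ)))
    split_ifs
    · simp only [vw, one_div]
      refine (((((hm i).fun_pow 2).const_sub 1).add_const η).fun_inv hne |>.fun_add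
        (hsq.const_mul (b ^ 2))).congr_deriv ?_
      simp
      ring
    · exact hasDerivAt_const t 0
  have hy := hasDerivAt_rich (L := L) hM hm j
  have hp : HasDerivAt (fun s => pIt b η G L n j (J s) (u s))
      ((dt dm (yIt b η G L n j (J t) (u t)) + dt (mg (J t) (u t))
        (dRich L (YB.hM b η G n (J t) (u t)) (dHM b η G n (J t) (u t) dm dJ) (mg (J t) (u t)) dm j))
          / n) t := by
    simp only [pIt, yIt, dt]
    refine ((HasDerivAt.fun_sum fun i _ => (hm i).fun_mul (hy i)).div_const _).congr_deriv ?_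
    simp only [sum_add_distrib]
  refine hp.congr_deriv ?_
  rw [dt_dRich (hM_symm b η G n hsymm (u t))]
  set M := YB.hM b η G n (J t) (u t)
  set x := mg (J t) (u t)
  have h1 : ∀ i, dt ((step L M)^[j - 1 - i] x) (dm - mv (dHM b η G n (J t) (u t) dm dJ)
      (rich L M x i)) = dt ((step L M)^[j - 1 - i] x) dm -
        dt (fvec b η G n (J t) (u t) ((step L M)^[j - 1 - i] x) (rich L M x i)) dm +
        ∑ a, ∑ c, dJ a c * ((step L M)^[j - 1 - i] x a * rich L M x i c) := fun i => by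
    rw [dt_sub_right, dt_dHM]; ring
  simp only [h1, mul_add, mul_sub, sum_add_distrib, sum_sub_distrib]
  have h2 : ∑ i ∈ range j, L⁻¹ * dt ((step L M)^[j - 1 - i] x) dm = dt (rich L M x j) dm := by
    rw [rich_eq_sum, ← sum_range_reflect (fun k => (step L M)^[k] x) j, dt_smul_left, ← mul_sum]
    simp only [dt, Finset.sum_apply, sum_mul]
    rw [sum_comm]
  rw [h2, avec]
  simp only [bmat]
  simp only [yIt, dt_smul_left, dt_sub_left, dt_smul_left, dt_comm dm]
  have h3 : dt (∑ i ∈ range j,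
      fvec b η G n (J t) (u t) ((step L M)^[j - 1 - i] x) (rich L M x i)) dm =
      ∑ i ∈ range j, dt (fvec b η G n (J t) (u t) ((step L M)^[j - 1 - i] x) (rich L M x i)) dm := by
    simp only [dt, Finset.sum_apply, sum_mul]
    rw [sum_comm]
  have h4 : ∑ a, ∑ c, ((n:ℝ)⁻¹ * (L⁻¹ * ∑ i ∈ range j,
      (step L M)^[j - 1 - i] x a * rich L M x i c)) * dJ a c =
      (n:ℝ)⁻¹ * ∑ i ∈ range j, L⁻¹ * ∑ a, ∑ c,
        dJ a c * ((step L M)^[j - 1 - i] x a * rich L M x i c) := by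
    simp only [mul_sum, sum_mul]
    rw [sum_comm (s := range j)]
    refine sum_congr rfl fun a _ => ?_
    rw [sum_comm (s := range j)]
    exact sum_congr rfl fun c _ => sum_congr rfl fun i _ => by ring
  rw [h3, h4]
  simp only [← mul_sum]
  ring

lemma two_abs_mg_div_le {η : ℝ} (hη : 0 < η) (J : Mat m) (u : Vec m) (k : Fin m) :
    |2 * mg J u k / (vw J u k + η) ^ 2| ≤ 2 / η ^ 2 := by
  have hw := vw_pos J u k
  rw [abs_div, abs_mul, abs_two, abs_of_nonneg (sq_nonneg (vw J u k + η))]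
  gcongr
  · exact mul_le_of_le_one_right two_pos.le (abs_mg_le J u k)
  · linarith

lemma fvec_le {b η G : ℝ} (hη : 0 < η) {n : ℕ} (hn : 0 < n) (hmn : m ≤ n) (J : Mat m) (u : Vec m)
    (z w : Vec m) : √(sq1 (fvec b η G n J u z w)) ≤
      (2 / η ^ 2 + 2 * b ^ 2 + 2 * |G|) * (√(sq1 z) * √(sq1 w)) := by
  have hf : fvec b η G n J u z w =
      (fun k => 2 * mg J u k / (vw J u k + η) ^ 2 * (z k * w k)) -
        (2 * (b ^ 2 / n) * dt z w) • mg J u +
        ((G / n * dt (mg J u) w) • z + (G / n * dt (mg J u) z) • w) := by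
    funext k
    simp only [fvec, Pi.add_apply, Pi.sub_apply, Pi.smul_apply, smul_eq_mul]
    ring
  have hn' : (0:ℝ) < n := Nat.cast_pos.2 hn
  have hsn : √(n:ℝ) ≤ n := by
    rw [Real.sqrt_le_left hn'.le]; exact le_self_pow₀ (Nat.one_le_cast.2 hn) two_ne_zero
  have h1 := (sqrt_sq1_scale_le (by positivity) (two_abs_mg_div_le hη J u) fun k => z k * w k).trans
    (mul_le_mul_of_nonneg_left (sqrt_sq1_mul_le z w) (by positivity))
  have h2 : √(sq1 ((2 * (b ^ 2 / n) * dt z w) • mg J u)) ≤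
      2 * b ^ 2 * (√(sq1 z) * √(sq1 w)) := by
    rw [sqrt_sq1_smul, abs_mul, abs_of_nonneg (by positivity : (0:ℝ) ≤ 2 * (b ^ 2 / n))]
    calc 2 * (b ^ 2 / n) * |dt z w| * √(sq1 (mg J u))
        ≤ 2 * (b ^ 2 / n) * (√(sq1 z) * √(sq1 w)) * n := by
          gcongr
          exacts [abs_dt_le z w, (Real.sqrt_le_sqrt (sq1_mg_le hmn J u)).trans hsn]
      _ = _ := by field_simp
  have h3 : ∀ a c : Vec m, √(sq1 ((G / n * dt (mg J u) a) • c)) ≤
      |G| * (√(sq1 c) * √(sq1 a)) := by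
    intro a c
    rw [sqrt_sq1_smul, abs_mul, abs_div, Nat.abs_cast]
    calc |G| / n * |dt (mg J u) a| * √(sq1 c) ≤ |G| / n * (n * √(sq1 a)) * √(sq1 c) := by
          gcongr
          exact (abs_dt_mg_le hmn J u a).trans (mul_le_mul_of_nonneg_right hsn (sqrt_nonneg _))
      _ = _ := by field_simp
  rw [hf]
  refine (sqrt_sq1_add_le _ _).trans ((add_le_add (sqrt_sq1_sub_le _ _)
    (sqrt_sq1_add_le _ _)).trans ?_)
  have := h3 w z
  have := h3 z w
  linarith

lemma geom_tail {ρ : ℝ} (hρ : 0 ≤ ρ) {i j : ℕ} (hij : i ≤ j) :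
    (1 - ρ) * ∑ k ∈ Ico i j, ρ ^ k ≤ ρ ^ i := by
  suffices h : (1 - ρ) * ∑ k ∈ Ico i j, ρ ^ k = ρ ^ i - ρ ^ j by
    rw [h]; linarith [pow_nonneg hρ j]
  induction j, hij using Nat.le_induction with
  | base => simp
  | succ j hij ih => rw [sum_Ico_succ_top hij, mul_add, ih, pow_succ]; ring

/-- **The `dm` part of the gradient**, through the fourth moment of `y/(w+η)`. -/
theorem avec_le {b η G L κ : ℝ} (hη : 0 < η) (hL : 0 < L) (hκ : 0 < κ) (hm : 0 < m) {n : ℕ}
    (hn : 0 < n)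
    (hmn : m ≤ n) (j : ℕ) {J : Mat m} (hJ : IsCoupling J) (u : Vec m)
    (hlo : ∀ v, κ * sq1 v ≤ dt v (mv (hM b η G n J u) v)) (hhi : op (hM b η G n J u) ≤ L) :
    √(sq1 (avec b η G L n j J u)) ≤
      (2 * √(sq1 (yIt b η G L n j J u)) +
        4 * √(∑ k, (yIt b η G L n j J u k / (vw J u k + η)) ^ 4) +
        (2 * b ^ 2 + 2 * |G|) * sq1 (yIt b η G L n j J u) / √(n:ℝ) +
        (2 / η ^ 2 + 2 * b ^ 2 + 2 * |G|) / (L * κ) * j * (1 - κ / L) ^ (j - 1) * n) / n := by
  have hn' : (0:ℝ) < n := Nat.cast_pos.2 hn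
  have hρ : 0 ≤ 1 - κ / L := by
    set e : Vec m := Pi.single ⟨0, hm⟩ 1
    have he : sq1 e = 1 := by simp [e, sq1, Pi.single_apply, ite_pow]
    have h1 := (hlo e).trans ((le_abs_self _).trans (abs_dt_mv_self_le _ e))
    rw [he, mul_one, mul_one] at h1
    exact sub_nonneg.2 ((div_le_one hL).2 (h1.trans hhi))
  set ρ := 1 - κ / L
  set M := hM b η G n J u
  set x := mg J u
  set y := yIt b η G L n j J u with hy
  set K := 2 / η ^ 2 + 2 * b ^ 2 + 2 * |G|
  have hit : ∀ k, √(sq1 ((step L M)^[k] x)) ≤ ρ ^ k * √(n:ℝ) := fun k =>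
    (step_iter_le hρ (contract_all hL (hM_symm b η G n hJ u) hlo hhi) x k).trans
      (mul_le_mul_of_nonneg_left (Real.sqrt_le_sqrt (sq1_mg_le hmn J u)) (pow_nonneg hρ k))
  have htail : ∀ i ≤ j, √(sq1 (rich L M x i - y)) ≤ ρ ^ i * √(n:ℝ) / κ := by
    intro i hi
    rw [hy, yIt, rich_eq_sum, rich_eq_sum, ← smul_sub, sqrt_sq1_smul, abs_of_pos (inv_pos.2 hL)]
    have e : ∑ k ∈ range i, (step L M)^[k] x - ∑ k ∈ range j, (step L M)^[k] x =
        (-1:ℝ) • ∑ k ∈ Ico i j, (step L M)^[k] x := by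
      rw [sum_Ico_eq_sub _ hi]; module
    rw [e, sqrt_sq1_smul, abs_neg, abs_one, one_mul]
    calc L⁻¹ * √(sq1 (∑ k ∈ Ico i j, (step L M)^[k] x))
        ≤ L⁻¹ * ∑ k ∈ Ico i j, ρ ^ k * √(n:ℝ) :=
          mul_le_mul_of_nonneg_left ((sqrt_sq1_sum_le _ _).trans (sum_le_sum fun k _ => hit k))
            (inv_nonneg.2 hL.le)
      _ ≤ _ := by
          rw [le_div_iff₀ hκ, ← sum_mul]
          calc L⁻¹ * ((∑ k ∈ Ico i j, ρ ^ k) * √(n:ℝ)) * κ =
                (κ / L * ∑ k ∈ Ico i j, ρ ^ k) * √(n:ℝ) := by ring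
            _ ≤ _ := mul_le_mul_of_nonneg_right (by
                rw [show κ / L = 1 - ρ by simp [ρ]]; exact geom_tail hρ hi) (sqrt_nonneg _)
  have hfadd : ∀ z w, fvec b η G n J u z w =
      fvec b η G n J u z y + fvec b η G n J u z (w - y) := by
    intro z w
    funext k
    simp only [fvec, Pi.add_apply, Pi.sub_apply, dt_sub_right]
    ring
  have hfsum : L⁻¹ • ∑ i ∈ range j, fvec b η G n J u ((step L M)^[j - 1 - i] x) y =
      fvec b η G n J u y y := by
    have hy' : y = L⁻¹ • ∑ i ∈ range j, (step L M)^[j - 1 - i] x := by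
      rw [hy, yIt, rich_eq_sum, ← sum_range_reflect (fun k => (step L M)^[k] x) j]
    have hlin : ∀ (r : ℝ) (f : ℕ → Vec m), fvec b η G n J u (r • ∑ i ∈ range j, f i) y =
        r • ∑ i ∈ range j, fvec b η G n J u (f i) y := by
      intro r f
      funext k
      simp only [fvec, dt, Pi.smul_apply, Finset.sum_apply, smul_eq_mul, mul_sum, sum_mul,
        sum_add_distrib, sum_sub_distrib, mul_add, mul_sub]
      rw [sum_comm (s := univ), sum_comm (s := univ)]
      refine congrArg₂ (· + ·) (congrArg₂ (· - ·) (sum_congr rfl fun i _ => by ring)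
        (sum_congr rfl fun i _ => sum_congr rfl fun l _ => by ring))
        (congrArg₂ (· + ·) (sum_congr rfl fun l _ => sum_congr rfl fun i _ => by ring)
          (sum_congr rfl fun i _ => sum_congr rfl fun l _ => by ring))
    nth_rw 2 [hy']
    rw [hlin]
  have hyy : √(sq1 (fvec b η G n J u y y)) ≤ 2 * √(∑ k, (y k / (vw J u k + η)) ^ 4) +
      (2 * b ^ 2 + 2 * |G|) * sq1 y / √(n:ℝ) := by
    have hf : fvec b η G n J u y y =
        (fun k => (2 * x k) * (y k / (vw J u k + η)) ^ 2) -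
          (2 * (b ^ 2 / n) * dt y y) • x +
          ((G / n * dt x y) • y + (G / n * dt x y) • y) := by
      funext k
      simp only [fvec, Pi.add_apply, Pi.sub_apply, Pi.smul_apply, smul_eq_mul, div_pow]
      ring
    have h1 : √(sq1 fun k => (2 * x k) * (y k / (vw J u k + η)) ^ 2) ≤
        2 * √(∑ k, (y k / (vw J u k + η)) ^ 4) := by
      refine (sqrt_sq1_scale_le two_pos.le (fun k => ?_) _).trans_eq ?_
      · rw [abs_mul, abs_two]; exact mul_le_of_le_one_right two_pos.le (abs_mg_le J u k)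
      · simp only [sq1, ← pow_mul]
    have hx := Real.sqrt_le_sqrt (sq1_mg_le hmn J u)
    have hns : √(n:ℝ) * √(n:ℝ) = n := mul_self_sqrt hn'.le
    have hs : 0 < √(n:ℝ) := sqrt_pos.2 hn'
    have h2 : √(sq1 ((2 * (b ^ 2 / n) * dt y y) • x)) ≤ 2 * b ^ 2 * sq1 y / √(n:ℝ) := by
      have := sq1_nonneg y
      rw [sqrt_sq1_smul, dt_self,
        abs_of_nonneg (by positivity : (0:ℝ) ≤ 2 * (b ^ 2 / n) * sq1 y)]
      refine (mul_le_mul_of_nonneg_left hx (by positivity)).trans (le_of_eq ?_)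
      field_simp
      rw [Real.sq_sqrt hn'.le]
      ring
    have h3 : √(sq1 ((G / n * dt x y) • y)) ≤ |G| * sq1 y / √(n:ℝ) := by
      rw [sqrt_sq1_smul, abs_mul, abs_div, Nat.abs_cast]
      refine (mul_le_mul_of_nonneg_right (mul_le_mul_of_nonneg_left (abs_dt_mg_le hmn J u y)
        (by positivity)) (sqrt_nonneg _)).trans (le_of_eq ?_)
      field_simp
      rw [Real.sq_sqrt (sq1_nonneg y), Real.sq_sqrt hn'.le]
    rw [hf]
    refine (sqrt_sq1_add_le _ _).trans ((add_le_add (sqrt_sq1_sub_le _ _)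
      (sqrt_sq1_add_le _ _)).trans ((add_le_add (add_le_add h1 h2) (add_le_add h3 h3)).trans
        (le_of_eq ?_)))
    ring
  have hrem : √(sq1 (L⁻¹ • ∑ i ∈ range j,
      fvec b η G n J u ((step L M)^[j - 1 - i] x) (rich L M x i - y))) ≤
      K / (L * κ) * j * ρ ^ (j - 1) * n := by
    rw [sqrt_sq1_smul, abs_of_pos (inv_pos.2 hL)]
    calc L⁻¹ * √(sq1 (∑ i ∈ range j,
          fvec b η G n J u ((step L M)^[j - 1 - i] x) (rich L M x i - y)))
        ≤ L⁻¹ * ∑ i ∈ range j, K / κ * ρ ^ (j - 1) * n := by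
          refine mul_le_mul_of_nonneg_left ((sqrt_sq1_sum_le _ _).trans (sum_le_sum fun i hi => ?_))
            (inv_nonneg.2 hL.le)
          refine (fvec_le hη hn hmn J u _ _).trans ?_
          calc K * (√(sq1 ((step L M)^[j - 1 - i] x)) * √(sq1 (rich L M x i - y)))
              ≤ K * (ρ ^ (j - 1 - i) * √(n:ℝ) * (ρ ^ i * √(n:ℝ) / κ)) := by
                refine mul_le_mul_of_nonneg_left (mul_le_mul (hit _)
                  (htail i (mem_range.1 hi).le) (sqrt_nonneg _) (by positivity)) (by positivity)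
            _ = K / κ * (ρ ^ (j - 1 - i) * ρ ^ i) * (√(n:ℝ) * √(n:ℝ)) := by ring
            _ = _ := by
                rw [← pow_add, mul_self_sqrt hn'.le,
                  show j - 1 - i + i = j - 1 by have := mem_range.1 hi; omega]
      _ = _ := by simp; field_simp
  have he : avec b η G L n j J u = (n:ℝ)⁻¹ • ((2:ℝ) • y - (fvec b η G n J u y y + L⁻¹ •
      ∑ i ∈ range j, fvec b η G n J u ((step L M)^[j - 1 - i] x) (rich L M x i - y))) := by
    rw [← hfsum, ← smul_add, ← sum_add_distrib]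
    simp only [← hfadd]
    rfl
  rw [he, sqrt_sq1_smul, abs_of_pos (inv_pos.2 hn'), inv_mul_eq_div]
  refine div_le_div_of_nonneg_right ?_ hn'.le
  refine (sqrt_sq1_sub_le _ _).trans ?_
  rw [sqrt_sq1_smul, abs_two]
  have := sqrt_sq1_add_le (fvec b η G n J u y y) (L⁻¹ • ∑ i ∈ range j,
    fvec b η G n J u ((step L M)^[j - 1 - i] x) (rich L M x i - y))
  have : 0 ≤ √(∑ k, (y k / (vw J u k + η)) ^ 4) := sqrt_nonneg _
  linarith

lemma sqrt_sum_sq_add_le {ι : Type*} [Fintype ι] (f g : ι → ℝ) :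
    √(∑ p, (f p + g p) ^ 2) ≤ √(∑ p, f p ^ 2) + √(∑ p, g p ^ 2) := by
  have hf : 0 ≤ ∑ p, f p ^ 2 := sum_nonneg fun p _ => sq_nonneg _
  have hg : 0 ≤ ∑ p, g p ^ 2 := sum_nonneg fun p _ => sq_nonneg _
  rw [Real.sqrt_le_iff]
  refine ⟨by positivity, ?_⟩
  have h := Real.abs_le_sqrt (sum_mul_sq_le_sq_mul_sq univ f g)
  rw [Real.sqrt_mul hf] at h
  have e : ∑ p, (f p + g p) ^ 2 = ∑ p, f p ^ 2 + 2 * ∑ p, f p * g p + ∑ p, g p ^ 2 := by
    rw [mul_sum, ← sum_add_distrib, ← sum_add_distrib]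
    exact sum_congr rfl fun p _ => by ring
  rw [e, add_sq, Real.sq_sqrt hf, Real.sq_sqrt hg]
  linarith [(abs_le.1 h).2]

lemma sqrt_sq2_add_le (A B : Mat m) :
    √(sq2 fun a c => A a c + B a c) ≤ √(sq2 A) + √(sq2 B) := by
  simpa [sq2, Fintype.sum_prod_type] using
    sqrt_sum_sq_add_le (fun p : Fin m × Fin m => A p.1 p.2) (fun p => B p.1 p.2)

lemma sqrt_sq2_outer_sum_le (r : ℝ) (s : Finset ℕ) (f g : ℕ → Vec m) :
    √(sq2 fun a c => r * ∑ i ∈ s, f i a * g i c) ≤ |r| * ∑ i ∈ s, √(sq1 (f i)) * √(sq1 (g i)) := by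
  induction s using Finset.induction with
  | empty => simp [sq2]
  | @insert i s hi ih =>
    simp only [sum_insert hi, mul_add]
    refine (sqrt_sq2_add_le _ _).trans (add_le_add (le_of_eq ?_) ih)
    rw [← Real.sqrt_mul (sq1_nonneg _), ← Real.sqrt_sq (abs_nonneg r),
      ← Real.sqrt_mul (sq_nonneg _), sq_abs]
    simp only [sq2, sq1, mul_pow, ← mul_sum, ← sum_mul]

lemma sqrt_sq2_bmat_le (b η G : ℝ) {L : ℝ} (hL : 0 < L) (n j : ℕ) (J : Mat m) (u : Vec m) :
    √(sq2 (bmat b η G L n j J u)) ≤ (n:ℝ)⁻¹ * (L⁻¹ * ∑ i ∈ range j,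
      √(sq1 ((step L (hM b η G n J u))^[j - 1 - i] (mg J u))) *
        √(sq1 (rich L (hM b η G n J u) (mg J u) i))) := by
  have e : bmat b η G L n j J u = fun a c => (n:ℝ)⁻¹ * L⁻¹ * ∑ i ∈ range j,
      (step L (hM b η G n J u))^[j - 1 - i] (mg J u) a * rich L (hM b η G n J u) (mg J u) i c := by
    funext a c; rw [bmat, mul_assoc]; rfl
  rw [e, ← mul_assoc]
  refine (sqrt_sq2_outer_sum_le _ _ _ _).trans_eq ?_
  rw [abs_of_nonneg (by positivity : (0:ℝ) ≤ (n:ℝ)⁻¹ * L⁻¹)]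

/-- The growth of the iterates. -/
lemma iter_growth (b G : ℝ) {η L : ℝ} (hη : 0 < η) (hL : 0 < L) {n : ℕ} (hn : 0 < n)
    (hmn : m ≤ n) (j : ℕ) (J : Mat m) (u : Vec m) :
    (∀ k ≤ j, √(sq1 ((step L (hM b η G n J u))^[k] (mg J u))) ≤
      ((1 + (1 / η + b ^ 2 + |G| + 1) / L) * (1 + op J)) ^ j * √(n:ℝ)) ∧
    ∀ i ≤ j, √(sq1 (rich L (hM b η G n J u) (mg J u) i)) ≤
      j / L * (((1 + (1 / η + b ^ 2 + |G| + 1) / L) * (1 + op J)) ^ j * √(n:ℝ)) := by
  have ho := op_nonneg J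
  set A := 1 + (1 / η + b ^ 2 + |G| + 1) / L
  set R := A * (1 + op J) with hR
  have hA1 : 1 ≤ A := le_add_of_nonneg_right (by positivity)
  have hR1 : 1 ≤ R := one_le_mul_of_one_le_of_one_le hA1 (by linarith)
  set M := hM b η G n J u
  set x := mg J u
  have hstep : ∀ c, √(sq1 (step L M c)) ≤ R * √(sq1 c) := by
    intro c
    refine (sqrt_sq1_sub_le _ _).trans ?_
    rw [sqrt_sq1_smul, abs_of_pos (inv_pos.2 hL)]
    have h1 := (sqrt_sq1_mv_le M c).trans
      (mul_le_mul_of_nonneg_right (op_hM_le b G hη hn hmn J u) (sqrt_nonneg _))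
    have h2 : L⁻¹ * (1 / η + b ^ 2 + |G| + op J) ≤ R - 1 := by
      have e : R - 1 = op J + (1 / η + b ^ 2 + |G| + 1) * (1 + op J) / L := by
        simp only [hR, A]; ring
      rw [e, inv_mul_eq_div]
      refine le_add_of_nonneg_of_le ho (div_le_div_of_nonneg_right ?_ hL.le)
      have : 0 ≤ (1 / η + b ^ 2 + |G|) * op J := by positivity
      linarith
    calc √(sq1 c) + L⁻¹ * √(sq1 (mv M c))
        ≤ √(sq1 c) + L⁻¹ * ((1 / η + b ^ 2 + |G| + op J) * √(sq1 c)) :=
          add_le_add le_rfl (mul_le_mul_of_nonneg_left h1 (inv_nonneg.2 hL.le))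
      _ ≤ _ := by
          rw [← mul_assoc]
          linarith [mul_le_mul_of_nonneg_right h2 (sqrt_nonneg (sq1 c))]
  have hit : ∀ k ≤ j, √(sq1 ((step L M)^[k] x)) ≤ R ^ j * √(n:ℝ) := fun k hk =>
    ((step_iter_le (by linarith) hstep x k).trans (mul_le_mul (pow_le_pow_right₀ hR1 hk)
      (Real.sqrt_le_sqrt (sq1_mg_le hmn J u)) (sqrt_nonneg _) (by positivity)))
  have hrich : ∀ i ≤ j, √(sq1 (rich L M x i)) ≤ j / L * (R ^ j * √(n:ℝ)) := by
    intro i hi
    rw [rich_eq_sum, sqrt_sq1_smul, abs_of_pos (inv_pos.2 hL)]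
    calc L⁻¹ * √(sq1 (∑ k ∈ range i, (step L M)^[k] x))
        ≤ L⁻¹ * ∑ _k ∈ range i, R ^ j * √(n:ℝ) := mul_le_mul_of_nonneg_left
          ((sqrt_sq1_sum_le _ _).trans (sum_le_sum fun k hk =>
            hit k ((mem_range.1 hk).le.trans hi))) (inv_nonneg.2 hL.le)
      _ ≤ L⁻¹ * (j * (R ^ j * √(n:ℝ))) := by
          simp only [sum_const, card_range, nsmul_eq_mul]
          gcongr
      _ = _ := by ring
  exact ⟨hit, hrich⟩

/-- The polynomial growth of both parts of the gradient. -/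
theorem grad_global {b η G L : ℝ} (hη : 0 < η) (hL : 0 < L) (j : ℕ) : ∃ C : ℝ, 0 ≤ C ∧
    ∀ (n m : ℕ), 0 < n → m ≤ n → ∀ (J : Mat m) (u : Vec m),
      √(sq1 (avec b η G L n j J u)) ≤ C * (1 + op J) ^ (2 * j) ∧
      √(sq2 (bmat b η G L n j J u)) ≤ C * (1 + op J) ^ (2 * j) := by
  set K₀ := 2 / η ^ 2 + 2 * b ^ 2 + 2 * |G|
  set A := 1 + (1 / η + b ^ 2 + |G| + 1) / L
  refine ⟨(2 * j / L + K₀ * j ^ 2 / L ^ 2 + j ^ 2 / L ^ 2) * A ^ (2 * j), by positivity,
    fun n m hn hmn J u => ?_⟩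
  have hn' : (0:ℝ) < n := Nat.cast_pos.2 hn
  have ho := op_nonneg J
  set R := A * (1 + op J) with hR
  have hA1 : 1 ≤ A := le_add_of_nonneg_right (by positivity)
  have hR1 : 1 ≤ R := one_le_mul_of_one_le_of_one_le hA1 (by linarith)
  set M := hM b η G n J u
  set x := mg J u
  obtain ⟨hit, hrich⟩ := iter_growth b G hη hL hn hmn j J u
  have hns : √(n:ℝ) ≤ n := by
    rw [Real.sqrt_le_left hn'.le]; exact le_self_pow₀ (Nat.one_le_cast.2 hn) two_ne_zero
  have hR2 : R ^ (2 * j) = R ^ j * R ^ j := by rw [two_mul, pow_add]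
  have hRj : R ^ j ≤ R ^ (2 * j) := pow_le_pow_right₀ hR1 (by omega)
  have hpair : ∀ i ∈ range j, √(sq1 ((step L M)^[j - 1 - i] x)) * √(sq1 (rich L M x i)) ≤
      j / L * R ^ (2 * j) * n := fun i hi => by
    refine (mul_le_mul (hit _ (by omega)) (hrich i (mem_range.1 hi).le) (sqrt_nonneg _)
      (by positivity)).trans_eq ?_
    rw [hR2]
    calc R ^ j * √(n:ℝ) * (j / L * (R ^ j * √(n:ℝ))) =
          j / L * (R ^ j * R ^ j) * (√(n:ℝ) * √(n:ℝ)) := by ring
      _ = _ := by rw [mul_self_sqrt hn'.le]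
  constructor
  · rw [avec, sqrt_sq1_smul, abs_of_pos (inv_pos.2 hn'), inv_mul_le_iff₀ hn']
    refine (sqrt_sq1_sub_le _ _).trans ?_
    rw [sqrt_sq1_smul, sqrt_sq1_smul, abs_two, abs_of_pos (inv_pos.2 hL), yIt]
    calc 2 * √(sq1 (rich L M x j)) + L⁻¹ * √(sq1 (∑ i ∈ range j,
          fvec b η G n J u ((step L M)^[j - 1 - i] x) (rich L M x i)))
        ≤ 2 * (j / L * (R ^ (2 * j) * n)) + L⁻¹ * ∑ _i ∈ range j, K₀ * (j / L * R ^ (2 * j) * n) := by
          refine add_le_add (mul_le_mul_of_nonneg_left ((hrich j le_rfl).trans ?_) two_pos.le)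
            (mul_le_mul_of_nonneg_left ((sqrt_sq1_sum_le _ _).trans (sum_le_sum fun i hi =>
              (fvec_le hη hn hmn J u _ _).trans
                (mul_le_mul_of_nonneg_left (hpair i hi) (by positivity)))) (inv_nonneg.2 hL.le))
          exact mul_le_mul_of_nonneg_left (mul_le_mul hRj hns (sqrt_nonneg _) (by positivity))
            (by positivity)
      _ = n * ((2 * j / L + K₀ * j ^ 2 / L ^ 2) * A ^ (2 * j) * (1 + op J) ^ (2 * j)) := by
          simp only [sum_const, card_range, nsmul_eq_mul, hR, mul_pow]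
          field_simp
      _ ≤ _ := mul_le_mul_of_nonneg_left (mul_le_mul_of_nonneg_right (mul_le_mul_of_nonneg_right
          (le_add_of_nonneg_right (by positivity)) (by positivity)) (by positivity)) hn'.le
  · have hb := sqrt_sq2_bmat_le b η G hL n j J u
    refine hb.trans ?_
    calc (n:ℝ)⁻¹ * (L⁻¹ * ∑ i ∈ range j,
          √(sq1 ((step L M)^[j - 1 - i] x)) * √(sq1 (rich L M x i)))
        ≤ (n:ℝ)⁻¹ * (L⁻¹ * ∑ _i ∈ range j, j / L * R ^ (2 * j) * n) := by
          exact mul_le_mul_of_nonneg_left (mul_le_mul_of_nonneg_left (sum_le_sum hpair)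
            (by positivity)) (by positivity)
      _ = j ^ 2 / L ^ 2 * A ^ (2 * j) * (1 + op J) ^ (2 * j) := by
          simp only [sum_const, card_range, nsmul_eq_mul, hR, mul_pow]
          field_simp
      _ ≤ _ := by gcongr; exact le_add_of_nonneg_left (by positivity)

/-- The polynomial growth of `p_j`. -/
theorem pIt_growth {b η G L : ℝ} (hη : 0 < η) (hL : 0 < L) (j : ℕ) : ∃ C : ℝ, 0 ≤ C ∧
    ∀ (n m : ℕ), 0 < n → m ≤ n → ∀ (J : Mat m) (u : Vec m),
      |pIt b η G L n j J u| ≤ C * (1 + op J) ^ j := by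
  refine ⟨j / L * (1 + (1 / η + b ^ 2 + |G| + 1) / L) ^ j, by positivity,
    fun n m hn hmn J u => ?_⟩
  have hn' : (0:ℝ) < n := Nat.cast_pos.2 hn
  have h := (abs_dt_mg_le hmn J u (yIt b η G L n j J u)).trans (mul_le_mul_of_nonneg_left
    ((iter_growth b G hη hL hn hmn j J u).2 j le_rfl) (sqrt_nonneg _))
  rw [pIt, abs_div, Nat.abs_cast, div_le_iff₀ hn']
  refine h.trans (le_of_eq ?_)
  rw [mul_pow]
  ring_nf
  rw [Real.sq_sqrt hn'.le]
  ring

end Vale.Agent.P150.Weak.YB
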