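import Vale.Agent.P150.Weak.Upd
import Vale.Agent.P150.Weak.YBound.GradDet
import Vale.Agent.P150.Weak.Gauss.MP
import Vale.Agent.P150.Weak.Found.Slice
import Vale.Agent.P150.Weak.Found.Split

/-!
Concentration of functions of the magnetisation and the couplings in the planted family: a
Gaussian gradient is at most `gradSize` times the `dm` part plus the `dJ` part of the differential.
-/

open MeasureTheory ProbabilityTheory Finset Real

namespace Vale.Agent.P150.Weak.YB

open Gap

variable {m : ℕ}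

/-- `f` has the differential `A·dm + B:dJ` along every path of parameters. -/
def HasDiff (f : Mat m → Vec m → ℝ) (A : Mat m → Vec m → Vec m) (B : Mat m → Vec m → Mat m) :
    Prop :=
  ∀ (J : ℝ → Mat m) (u : ℝ → Vec m) (dJ : Mat m) (dm : Vec m) (t : ℝ), IsCoupling (J t) →
    (∀ a c, HasDerivAt (fun s => J s a c) (dJ a c) t) →
    (∀ k, HasDerivAt (fun s => mg (J s) (u s) k) (dm k) t) →
    HasDerivAt (fun s => f (J s) (u s))
      (dt (A (J t) (u t)) dm + ∑ a, ∑ c, B (J t) (u t) a c * dJ a c) t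

/-- The partial derivative in a standard Gaussian coordinate. -/
noncomputable def pull (v τ : ℝ) (J : Mat m) (u : Vec m) (a : Vec m) (B : Mat m) : Idx m → ℝ
  | .inl e => √v * ((∑ k, a k * (cm3 J u k e.1.1 e.1.2 + cm2 J u k e.1.1 * mg J u e.1.2 +
      cm2 J u k e.1.2 * mg J u e.1.1)) + B e.1.1 e.1.2 + B e.1.2 e.1.1)
  | .inr l => √τ * ∑ k, a k * cm2 J u k l

lemma sym_single (e : Edge m) (p q : Fin m) :
    sym (Pi.single e (1:ℝ)) p q =
      (if p = e.1.1 then (1:ℝ) else 0) * (if q = e.1.2 then 1 else 0) +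
      (if p = e.1.2 then (1:ℝ) else 0) * (if q = e.1.1 then 1 else 0) := by
  obtain ⟨⟨a, c⟩, hac : a < c⟩ := e
  simp only [sym, Pi.single_apply, Subtype.ext_iff, Prod.ext_iff]
  rcases lt_trichotomy p q with h | h | h
  · have : ¬(p = c ∧ q = a) := fun ⟨h1, h2⟩ => by subst h1 h2; exact lt_asymm h hac
    rw [dif_pos h]
    split_ifs <;> simp_all
  · subst h
    rw [dif_neg (lt_irrefl p), dif_neg (lt_irrefl p)]
    by_cases h1 : p = a <;> by_cases h2 : p = c <;> simp [h1, h2, hac.ne, hac.ne']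
  · have : ¬(p = a ∧ q = c) := fun ⟨h1, h2⟩ => by subst h1 h2; exact lt_asymm h hac
    rw [dif_neg (lt_asymm h), dif_pos h]
    split_ifs <;> simp_all

lemma sum_sym_single (e : Edge m) (φ : Fin m → Fin m → ℝ) :
    ∑ p, ∑ q, φ p q * sym (Pi.single e (1:ℝ)) p q = φ e.1.1 e.1.2 + φ e.1.2 e.1.1 := by
  simp only [sym_single, mul_add, sum_add_distrib, mul_ite, mul_one, mul_zero, ite_mul, one_mul,
    zero_mul, sum_ite_eq', mem_univ, if_true]

lemma sym_update (g : Edge m → ℝ) (e : Edge m) (s : ℝ) (p q : Fin m) :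
    sym (Function.update g e s) p q = sym g p q + (s - g e) * sym (Pi.single e (1:ℝ)) p q := by
  simp only [sym]
  split_ifs with h1 h2
  all_goals first
    | simp
    | (rcases eq_or_ne (⟨(p, q), h1⟩ : Edge m) e with h | h <;> simp [h])
    | (rcases eq_or_ne (⟨(q, p), h2⟩ : Edge m) e with h | h <;> simp [h])

lemma update_inl (g : Idx m → ℝ) (e : Edge m) (s : ℝ) :
    (fun d => Function.update g (Sum.inl e) s (Sum.inl d)) =
      Function.update (fun d => g (Sum.inl d)) e s := by
  funext d; by_cases h : d = e <;> simp [h]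

/-- The derivatives in the standard Gaussian coordinates. -/
lemma hasDerivAt_coord {f : Mat m → Vec m → ℝ} {A : Mat m → Vec m → Vec m}
    {B : Mat m → Vec m → Mat m} (hf : HasDiff f A B) (v τ : ℝ) (k : Idx m) (g : Idx m → ℝ)
    (t : ℝ) :
    HasDerivAt (fun s => f (plJ v (Function.update g k s)) (plU τ (Function.update g k s)))
      (pull v τ (plJ v (Function.update g k t)) (plU τ (Function.update g k t))
        (A (plJ v (Function.update g k t)) (plU τ (Function.update g k t)))
        (B (plJ v (Function.update g k t)) (plU τ (Function.update g k t))) k) t := by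
  rcases k with e | l
  · set dJ : Mat m := fun p q => √v * sym (Pi.single e (1:ℝ)) p q with hdJ
    set g' := Function.update g (Sum.inl e) t
    have hu : ∀ s, plU τ (Function.update g (Sum.inl e) s) = plU τ g' := fun s => by
      funext i; simp [plU, g']
    have hJ : ∀ p q, HasDerivAt (fun s => plJ v (Function.update g (Sum.inl e) s) p q)
        (dJ p q) t := by
      intro p q
      simp only [plJ, update_inl]
      split_ifs with hpq
      · have : dJ p q = 0 := by simp [hdJ, hpq, sym_self]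
        rw [this]; exact hasDerivAt_const t 0
      · simp only [sym_update]
        refine ((((hasDerivAt_id t).sub_const _).mul_const _).const_add _ |>.const_mul (√v)
          |>.const_add v).congr_deriv ?_
        simp [hdJ]
    have he : ∀ x, HasDerivAt
        (fun s => expo (plJ v (Function.update g (Sum.inl e) s))
          (plU τ (Function.update g (Sum.inl e) s)) x)
        (√v * (spin x e.1.1 * spin x e.1.2)) t := by
      intro x
      simp only [expo, hu]
      refine (((HasDerivAt.fun_sum fun p _ => HasDerivAt.fun_sum fun q _ =>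
        ((hJ p q).mul_const (spin x p)).mul_const (spin x q)).div_const 2).add_const _).congr_deriv ?_
      have : ∑ p, ∑ q, dJ p q * spin x p * spin x q =
          ∑ p, ∑ q, √v * (spin x p * spin x q) * sym (Pi.single e (1:ℝ)) p q :=
        sum_congr rfl fun p _ => sum_congr rfl fun q _ => by simp only [hdJ]; ring
      rw [this, sum_sym_single]
      ring
    have hm : ∀ i, HasDerivAt
        (fun s => mg (plJ v (Function.update g (Sum.inl e) s))
          (plU τ (Function.update g (Sum.inl e) s)) i)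
        (√v * (cm3 (plJ v g') (plU τ g') i e.1.1 e.1.2 +
          cm2 (plJ v g') (plU τ g') i e.1.1 * mg (plJ v g') (plU τ g') e.1.2 +
          cm2 (plJ v g') (plU τ g') i e.1.2 * mg (plJ v g') (plU τ g') e.1.1)) t := by
      intro i
      refine (Weak.hasDerivAt_ev he fun x => spin x i).congr_deriv ?_
      simp only [cm3_eq, cm2_eq, mg, g']
      rw [show (fun x : Conf m => spin x i * (√v * (spin x e.1.1 * spin x e.1.2))) =
        fun x => √v * (spin x i * spin x e.1.1 * spin x e.1.2) from funext fun x => by ring,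
        ev_smul, ev_smul]
      ring
    refine (hf _ _ dJ _ t (isCoupling_plJ v g') hJ hm).congr_deriv ?_
    have : ∑ p, ∑ q, B (plJ v g') (plU τ g') p q * dJ p q =
        ∑ p, ∑ q, √v * B (plJ v g') (plU τ g') p q * sym (Pi.single e (1:ℝ)) p q :=
      sum_congr rfl fun p _ => sum_congr rfl fun q _ => by simp only [hdJ]; ring
    rw [this, sum_sym_single]
    simp only [pull, dt, mul_add, mul_sum, g']
    refine (congrArg (· + _) (sum_congr rfl fun i _ => ?_)).trans (add_assoc _ _ _).symm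
    ring
  · set g' := Function.update g (Sum.inr l) t
    have hJc : ∀ s, plJ v (Function.update g (Sum.inr l) s) = plJ v g' := fun s => by
      funext p q; simp [plJ, g']
    have he : ∀ x, HasDerivAt
        (fun s => expo (plJ v (Function.update g (Sum.inr l) s))
          (plU τ (Function.update g (Sum.inr l) s)) x)
        (√τ * spin x l) t := by
      intro x
      simp only [expo, hJc]
      have hu : ∀ i, HasDerivAt (fun s => plU τ (Function.update g (Sum.inr l) s) i)
          (if i = l then √τ else 0) t := fun i => by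
        rcases eq_or_ne i l with rfl | hi
        · simpa [plU] using ((hasDerivAt_id t).const_mul (√τ)).const_add τ
        · simpa [plU, hi] using hasDerivAt_const t (τ + √τ * g (Sum.inr i))
      refine ((HasDerivAt.fun_sum fun i _ => (hu i).mul_const (spin x i)).const_add _).congr_deriv ?_
      simp [ite_mul]
    have hm : ∀ i, HasDerivAt
        (fun s => mg (plJ v (Function.update g (Sum.inr l) s))
          (plU τ (Function.update g (Sum.inr l) s)) i)
        (√τ * cm2 (plJ v g') (plU τ g') i l) t := by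
      intro i
      refine (Weak.hasDerivAt_ev he fun x => spin x i).congr_deriv ?_
      simp only [cm2_eq, mg, g']
      rw [show (fun x : Conf m => spin x i * (√τ * spin x l)) =
        fun x => √τ * (spin x i * spin x l) from funext fun x => by ring, ev_smul, ev_smul]
      ring
    refine (hf _ _ 0 _ t (isCoupling_plJ v g') (fun p q => ?_) hm).congr_deriv ?_
    · simp only [hJc]; exact hasDerivAt_const t _
    · simp only [pull, dt, Pi.zero_apply, mul_zero, sum_const_zero, add_zero, mul_sum, g']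
      exact sum_congr rfl fun i _ => by ring

lemma sum_edge_sq_le (F : Fin m → Fin m → ℝ) : ∑ e : Edge m, F e.1.1 e.1.2 ^ 2 ≤ sq2 F := by
  have h : sq2 F = ∑ p : Fin m × Fin m, F p.1 p.2 ^ 2 := by rw [sq2, Fintype.sum_prod_type]
  rw [h, ← sum_image (f := fun p : Fin m × Fin m => F p.1 p.2 ^ 2)
    (g := fun e : Edge m => e.1) fun a _ c _ h => Subtype.ext h]
  exact sum_le_univ_sum_of_nonneg fun p => sq_nonneg _

lemma sqrt_add_le' {x y : ℝ} (hx : 0 ≤ x) (hy : 0 ≤ y) : √(x + y) ≤ √x + √y := by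
  rw [Real.sqrt_le_iff]
  refine ⟨by positivity, ?_⟩
  rw [add_sq, Real.sq_sqrt hx, Real.sq_sqrt hy]
  linarith [mul_nonneg (sqrt_nonneg x) (sqrt_nonneg y)]

/-- **The Gaussian gradient.** -/
theorem pull_norm_le {b τ : ℝ} {n : ℕ} (hb : 0 ≤ b) (hτ : 0 ≤ τ) (hn : 0 < n) (hmn : m ≤ n)
    (J : Mat m) (u : Vec m) (a : Vec m) (B : Mat m) :
    √(∑ k, pull (b ^ 2 / n) τ J u a B k ^ 2) ≤
      gradSize b τ n J u * √(sq1 a) + 4 * √(b ^ 2 / n) * √(sq2 B) := by
  set v := b ^ 2 / (n:ℝ)
  have hv : 0 ≤ v := by positivity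
  set C := cm2 J u
  set c := mv C a with hc
  have hca : √(sq1 c) ≤ op C * √(sq1 a) := sqrt_sq1_mv_le C a
  have hCa : ∀ l, ∑ k, a k * cm2 J u k l = c l := fun l => by
    simp only [hc, mv, C]
    exact sum_congr rfl fun k _ => by rw [cm2_comm J u l k]; ring
  set T1 : Mat m := fun p q => app (cm3 J u) a p q + (c p * mg J u q + mg J u p * c q) +
    (B p q + B q p)
  have hinl : ∀ e : Edge m, pull v τ J u a B (.inl e) = √v * T1 e.1.1 e.1.2 := fun e => by
    simp only [pull, T1, app, mul_add, sum_add_distrib, ← mul_assoc, ← sum_mul]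
    rw [show ∑ k, a k * cm2 J u k e.1.1 = c e.1.1 from hCa _,
      show ∑ k, a k * cm2 J u k e.1.2 = c e.1.2 from hCa _]
    ring
  have h1 : √(sq2 (app (cm3 J u) a)) ≤ √(sq3 (cm3 J u)) * √(sq1 a) := by
    rw [← Real.sqrt_mul (show 0 ≤ sq3 (cm3 J u) from
      sum_nonneg fun i _ => sum_nonneg fun j _ => sum_nonneg fun k _ => sq_nonneg _)]
    refine Real.sqrt_le_sqrt ?_
    calc sq2 (app (cm3 J u) a) ≤ ∑ p, ∑ q, (∑ k, a k ^ 2) * ∑ k, cm3 J u k p q ^ 2 :=
          sum_le_sum fun p _ => sum_le_sum fun q _ => sum_mul_sq_le_sq_mul_sq univ a _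
      _ = sq3 (cm3 J u) * sq1 a := by
          simp only [sq3, sq2, sq1, ← mul_sum]
          rw [mul_comm, sum_comm_cycle]
  have houter : ∀ x y : Vec m, √(sq2 fun p q => x p * y q) = √(sq1 x) * √(sq1 y) := fun x y => by
    rw [← Real.sqrt_mul (sq1_nonneg x)]
    simp only [sq2, sq1, mul_pow, ← mul_sum, ← sum_mul]
  have hx := Real.sqrt_le_sqrt (sq1_mg_le hmn J u)
  have hBt : √(sq2 fun p q => B q p) = √(sq2 B) := by
    simp only [sq2]; rw [sum_comm]
  have hT : √(sq2 T1) ≤ √(sq3 (cm3 J u)) * √(sq1 a) + 2 * (√(n:ℝ) * (op C * √(sq1 a))) +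
      2 * √(sq2 B) := by
    refine (sqrt_sq2_add_le _ _).trans (add_le_add ((sqrt_sq2_add_le _ _).trans (add_le_add h1
      ((sqrt_sq2_add_le _ _).trans ?_))) ((sqrt_sq2_add_le _ _).trans ?_))
    · rw [houter, houter, two_mul]
      refine add_le_add ((mul_le_mul hca hx (sqrt_nonneg _) ?_).trans_eq (mul_comm _ _))
        (mul_le_mul hx hca (sqrt_nonneg _) (sqrt_nonneg _))
      exact mul_nonneg (op_nonneg C) (sqrt_nonneg _)
    · rw [hBt]; linarith
  rw [Fintype.sum_sum_type]
  refine (Real.sqrt_le_sqrt (add_le_add (le_of_eq (sum_congr rfl fun e _ => by rw [hinl e]))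
    le_rfl)).trans ?_
  have hA : √(∑ e : Edge m, (√v * T1 e.1.1 e.1.2) ^ 2) ≤ √v * √(sq2 T1) := by
    rw [← Real.sqrt_mul hv]
    refine Real.sqrt_le_sqrt ?_
    simp only [mul_pow, Real.sq_sqrt hv, ← mul_sum]
    exact mul_le_mul_of_nonneg_left (sum_edge_sq_le T1) hv
  have hB : √(∑ l, pull v τ J u a B (.inr l) ^ 2) ≤ √τ * (op C * √(sq1 a)) := by
    refine le_trans (le_of_eq ?_) (mul_le_mul_of_nonneg_left hca (sqrt_nonneg τ))
    simp only [pull, hCa, mul_pow, Real.sq_sqrt hτ, ← mul_sum]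
    exact Real.sqrt_mul hτ _
  refine (sqrt_add_le' ?_ ?_).trans ((add_le_add
    (hA.trans (mul_le_mul_of_nonneg_left hT (sqrt_nonneg v))) hB).trans ?_)
  · exact sum_nonneg fun e _ => sq_nonneg _
  · exact sum_nonneg fun l _ => sq_nonneg _
  have hvn : √v * √(n:ℝ) = b := by
    rw [← Real.sqrt_mul hv, div_mul_cancel₀ _ (Nat.cast_pos.2 hn).ne', Real.sqrt_sq hb]
  have n1 : 0 ≤ √v * √(sq3 (cm3 J u)) * √(sq1 a) := by positivity
  have n2 : 0 ≤ b * (op C * √(sq1 a)) := mul_nonneg hb (mul_nonneg (op_nonneg C) (sqrt_nonneg _))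
  have n3 : 0 ≤ √v * √(sq2 B) := by positivity
  have e : √v * (√(n:ℝ) * (op C * √(sq1 a))) = b * (op C * √(sq1 a)) := by rw [← mul_assoc, hvn]
  simp only [gradSize]
  linarith

lemma continuous_sq2_comp {X : Type*} [TopologicalSpace X] {F : X → Mat m}
    (h : ∀ p q, Continuous fun x => F x p q) : Continuous fun x => √(sq2 (F x)) :=
  (continuous_finsetSum _ fun p _ => continuous_finsetSum _ fun q _ => (h p q).pow 2).sqrt

lemma continuous_sq1_comp {X : Type*} [TopologicalSpace X] {F : X → Vec m}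
    (h : ∀ p, Continuous fun x => F x p) : Continuous fun x => √(sq1 (F x)) :=
  (continuous_finsetSum _ fun p _ => (h p).pow 2).sqrt

lemma continuous_gradSize (b τ : ℝ) (n : ℕ) :
    Continuous fun q : Mat m × Vec m => gradSize b τ n q.1 q.2 :=
  (continuous_const.mul (continuous_op.comp
    (continuous_pi fun i => continuous_pi fun j => continuous_cm2 i j))).add
    (continuous_const.mul (continuous_finsetSum _ fun i _ => continuous_finsetSum _ fun j _ =>
      continuous_finsetSum _ fun k _ => (continuous_cm3 i j k).pow 2).sqrt)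

lemma abs_gradSize_le (b τ : ℝ) (n : ℕ) (J : Mat m) (u : Vec m) :
    |gradSize b τ n J u| ≤
      |√τ + 4 * b| * √(∑ _i : Fin m, ∑ _j : Fin m, (4:ℝ) ^ 2) +
        2 * √(b ^ 2 / n) * √(∑ _i : Fin m, ∑ _j : Fin m, ∑ _k : Fin m, (8:ℝ) ^ 2) := by
  refine (abs_add_le _ _).trans (add_le_add ?_ ?_)
  · rw [abs_mul, abs_of_nonneg (op_nonneg _)]
    refine mul_le_mul_of_nonneg_left ((op_le_sqrt_sq2 _).trans (Real.sqrt_le_sqrt
      (sum_le_sum fun i _ => sum_le_sum fun j _ => ?_))) (abs_nonneg _)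
    rw [← sq_abs]; exact pow_le_pow_left₀ (abs_nonneg _) (abs_cm2_le J u i j) 2
  · rw [abs_of_nonneg (by positivity)]
    refine mul_le_mul_of_nonneg_left (Real.sqrt_le_sqrt
      (sum_le_sum fun i _ => sum_le_sum fun j _ => sum_le_sum fun k _ => ?_)) (by positivity)
    rw [← sq_abs]; exact pow_le_pow_left₀ (abs_nonneg _) (abs_cm3_le J u i j k) 2

lemma one_add_op_le (v : ℝ) : ∃ C : ℝ, 0 ≤ C ∧
    ∀ g : Idx m → ℝ, 1 + op (plJ v g) ≤ C * (1 + ∑ k, |g k|) := by
  refine ⟨1 + (m:ℝ) * m * (|v| + √v), by positivity, fun g => ?_⟩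
  set W := 1 + ∑ k, |g k|
  have hW : 1 ≤ W := le_add_of_nonneg_right (sum_nonneg fun k _ => abs_nonneg _)
  have hentry : ∀ p q, |plJ v g p q| ≤ (|v| + √v) * W := by
    intro p q
    unfold plJ
    split_ifs
    · simp only [abs_zero]; positivity
    refine (abs_add_le _ _).trans ?_
    rw [abs_mul, abs_of_nonneg (sqrt_nonneg v), add_mul]
    refine add_le_add (le_mul_of_one_le_right (abs_nonneg v) hW)
      (mul_le_mul_of_nonneg_left ?_ (sqrt_nonneg v))
    have hk : ∀ k, |g k| ≤ W := fun k =>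
      (single_le_sum (fun j _ => abs_nonneg (g j)) (mem_univ k)).trans
        (le_add_of_nonneg_left zero_le_one)
    simp only [sym]
    split_ifs <;> first | exact hk _ | (rw [abs_zero]; linarith)
  have hop : op (plJ v g) ≤ ∑ _p : Fin m, ∑ _q : Fin m, (|v| + √v) * W := by
    refine op_le_of_mv (by positivity) fun x => ?_
    calc √(sq1 (mv (plJ v g) x)) ≤ ∑ p, |mv (plJ v g) x p| := by
          rw [Real.sqrt_le_left (sum_nonneg fun p _ => abs_nonneg _)]
          simp only [sq1, ← sq_abs (mv (plJ v g) x _)]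
          exact sum_sq_le_sq_sum_of_nonneg fun p _ => abs_nonneg _
      _ ≤ ∑ p, ∑ q, (|v| + √v) * W * √(sq1 x) := sum_le_sum fun p _ =>
          (abs_sum_le_sum_abs _ _).trans (sum_le_sum fun q _ => by
            rw [abs_mul]
            exact mul_le_mul (hentry p q) (Real.abs_le_sqrt
              (single_le_sum (f := fun r => x r ^ 2) (fun r _ => sq_nonneg _) (mem_univ q)))
              (abs_nonneg _) (by positivity))
      _ = _ := by simp only [← sum_mul]
  simp only [sum_const, card_univ, Fintype.card_fin, nsmul_eq_mul] at hop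
  have := le_mul_of_one_le_right zero_le_one hW
  linarith

lemma integrable_growth {φ : Mat m → Vec m → ℝ} (hc : Continuous fun q : Mat m × Vec m => φ q.1 q.2)
    {C : ℝ} {k : ℕ} (h : ∀ J u, |φ J u| ≤ C * (1 + op J) ^ k) (v τ : ℝ) :
    Integrable (fun g : Idx m → ℝ => φ (plJ v g) (plU τ g)) (gauss (Idx m)) := by
  obtain ⟨D, hD, hDle⟩ := one_add_op_le (m := m) v
  refine PolyBd.integrable ⟨|C| * D ^ k, k, fun g => ?_⟩
    (hc.comp (f := fun g : Idx m → ℝ => (plJ v g, plU τ g)) (by fun_prop))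
  refine (h _ _).trans ((mul_le_mul_of_nonneg_right (le_abs_self C)
    (pow_nonneg (by linarith [op_nonneg (plJ v g)]) k)).trans ?_)
  rw [mul_assoc, ← mul_pow]
  exact mul_le_mul_of_nonneg_left
    (pow_le_pow_left₀ (by linarith [op_nonneg (plJ v g)]) (hDle g) k) (abs_nonneg C)

lemma integrable_bound {b τ : ℝ} {n : ℕ} {A : Mat m → Vec m → Vec m} {B : Mat m → Vec m → Mat m}
    (hAc : ∀ k, Continuous fun q : Mat m × Vec m => A q.1 q.2 k)
    (hBc : ∀ p r, Continuous fun q : Mat m × Vec m => B q.1 q.2 p r) {C : ℝ} {K : ℕ}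
    (hAb : ∀ J u, √(sq1 (A J u)) ≤ C * (1 + op J) ^ K)
    (hBb : ∀ J u, √(sq2 (B J u)) ≤ C * (1 + op J) ^ K) (v : ℝ) :
    Integrable (fun g => gradSize b τ n (plJ v g) (plU τ g) *
      √(sq1 (A (plJ v g) (plU τ g))) + 4 * √(b ^ 2 / n) * √(sq2 (B (plJ v g) (plU τ g))))
      (gauss (Idx m)) := by
  set S := |√τ + 4 * b| * √(∑ _i : Fin m, ∑ _j : Fin m, (4:ℝ) ^ 2) +
    2 * √(b ^ 2 / n) * √(∑ _i : Fin m, ∑ _j : Fin m, ∑ _k : Fin m, (8:ℝ) ^ 2) with hS
  have hS0 : 0 ≤ S := by rw [hS]; positivity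
  refine integrable_growth (φ := fun J u => gradSize b τ n J u * √(sq1 (A J u)) +
      4 * √(b ^ 2 / n) * √(sq2 (B J u)))
    (((continuous_gradSize b τ n).mul (continuous_sq1_comp hAc)).add
      (continuous_const.mul (continuous_sq2_comp hBc)))
    (C := S * C + 4 * √(b ^ 2 / n) * C) (k := K) (fun J u => ?_) v τ
  refine (abs_add_le _ _).trans ?_
  rw [abs_mul, abs_of_nonneg (sqrt_nonneg (sq1 (A J u))), add_mul, mul_assoc S]
  refine add_le_add
    (mul_le_mul (abs_gradSize_le b τ n J u) (hAb J u) (sqrt_nonneg _) hS0) ?_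
  rw [abs_of_nonneg (mul_nonneg (mul_nonneg (by norm_num) (sqrt_nonneg _)) (sqrt_nonneg _)),
    mul_assoc (4 * √(b ^ 2 / (n:ℝ)))]
  exact mul_le_mul_of_nonneg_left (hBb J u) (mul_nonneg (by norm_num) (sqrt_nonneg _))

lemma continuous_pull {A : Mat m → Vec m → Vec m} {B : Mat m → Vec m → Mat m}
    (hAc : ∀ k, Continuous fun q : Mat m × Vec m => A q.1 q.2 k)
    (hBc : ∀ p r, Continuous fun q : Mat m × Vec m => B q.1 q.2 p r) (v τ : ℝ) (k : Idx m) :
    Continuous fun g : Idx m → ℝ => pull v τ (plJ v g) (plU τ g)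
      (A (plJ v g) (plU τ g)) (B (plJ v g) (plU τ g)) k := by
  refine Continuous.comp (g := fun q : Mat m × Vec m => pull v τ q.1 q.2 (A q.1 q.2) (B q.1 q.2) k)
    (f := fun g : Idx m → ℝ => (plJ v g, plU τ g)) ?_ (by fun_prop)
  rcases k with e | l
  · exact continuous_const.mul (((continuous_finsetSum _ fun i _ => (hAc i).mul
      (((continuous_cm3 i _ _).add ((continuous_cm2 i _).mul (continuous_mg _))).add
        ((continuous_cm2 i _).mul (continuous_mg _)))).add (hBc _ _)).add (hBc _ _))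
  · exact continuous_const.mul
      (continuous_finsetSum _ fun i _ => (hAc i).mul (continuous_cm2 i _))

/-- Concentration in mean of a differentiable observable. -/
theorem conc_of_diff {b τ : ℝ} {n : ℕ} (hb : 0 ≤ b) (hτ : 0 ≤ τ) (hn : 0 < n) (hmn : m ≤ n)
    {f : Mat m → Vec m → ℝ} {A : Mat m → Vec m → Vec m} {B : Mat m → Vec m → Mat m}
    (hf : HasDiff f A B) (hfc : Continuous fun q : Mat m × Vec m => f q.1 q.2)
    (hAc : ∀ k, Continuous fun q : Mat m × Vec m => A q.1 q.2 k)
    (hBc : ∀ p r, Continuous fun q : Mat m × Vec m => B q.1 q.2 p r) {C : ℝ} {K : ℕ}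
    (hfb : ∀ J u, |f J u| ≤ C * (1 + op J) ^ K)
    (hAb : ∀ J u, √(sq1 (A J u)) ≤ C * (1 + op J) ^ K)
    (hBb : ∀ J u, √(sq2 (B J u)) ≤ C * (1 + op J) ^ K) :
    let p := fun g : Idx m → ℝ => f (plJ (b ^ 2 / n) g) (plU τ g)
    let R := fun J u => gradSize b τ n J u * √(sq1 (A J u)) + 4 * √(b ^ 2 / n) * √(sq2 (B J u))
    Integrable p (gauss (Idx m)) ∧
    Integrable (fun g => R (plJ (b ^ 2 / n) g) (plU τ g)) (gauss (Idx m)) ∧
    (∫⁻ g, ∫⁻ g', ENNReal.ofReal |p g - p g'| ∂gauss (Idx m) ∂gauss (Idx m) ≤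
      ENNReal.ofReal 2 * ∫⁻ g, ENNReal.ofReal (R (plJ (b ^ 2 / n) g) (plU τ g)) ∂gauss (Idx m)) ∧
    (∫ g, ∫ g', |p g - p g'| ∂gauss (Idx m) ∂gauss (Idx m) ≤ 2 * pEv b n m τ R) := by
  intro p R
  set v := b ^ 2 / (n:ℝ)
  have hp : Integrable p (gauss (Idx m)) := integrable_growth hfc hfb v τ
  have hR : Integrable (fun g => R (plJ v g) (plU τ g)) (gauss (Idx m)) :=
    integrable_bound hAc hBc hAb hBb v
  have hR0 : ∀ g, 0 ≤ R (plJ v g) (plU τ g) := fun g =>
    (sqrt_nonneg _).trans (pull_norm_le hb hτ hn hmn _ _ _ _)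
  have hDc := fun k => continuous_pull hAc hBc v τ k
  have hpc : Continuous p := hfc.comp (f := fun g : Idx m → ℝ => (plJ v g, plU τ g)) (by fun_prop)
  have h := mp_pair_one (f := p) hpc hDc fun k g t => by
    simpa only [update_eq_upd] using hasDerivAt_coord hf v τ k g t
  have hl : ∫⁻ g, ∫⁻ g', ENNReal.ofReal |p g - p g'| ∂gauss (Idx m) ∂gauss (Idx m) ≤
      ENNReal.ofReal 2 * ∫⁻ g, ENNReal.ofReal (R (plJ v g) (plU τ g)) ∂gauss (Idx m) :=
    h.trans (mul_le_mul' le_rfl (lintegral_mono fun g =>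
      ENNReal.ofReal_le_ofReal (pull_norm_le hb hτ hn hmn _ _ _ _)))
  refine ⟨hp, hR, hl, ?_⟩
  have hi : ∀ g, Integrable (fun g' => |p g - p g'|) (gauss (Idx m)) := fun g =>
    ((integrable_const _).sub hp).abs
  have h2 : Integrable (fun z : (Idx m → ℝ) × (Idx m → ℝ) => |p z.1 - p z.2|)
      ((gauss (Idx m)).prod (gauss (Idx m))) :=
    ((hp.comp_fst _).sub (hp.comp_snd _)).abs
  have hout := h2.integral_prod_left
  rw [pEv, ← ENNReal.ofReal_le_ofReal_iff (mul_nonneg zero_le_two (integral_nonneg hR0)),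
    ENNReal.ofReal_mul zero_le_two, ofReal_integral_eq_lintegral_ofReal hout
      (ae_of_all _ fun g => integral_nonneg fun g' => abs_nonneg _),
    ofReal_integral_eq_lintegral_ofReal hR (ae_of_all _ hR0)]
  refine le_trans (le_of_eq (lintegral_congr fun g => ?_)) hl
  exact ofReal_integral_eq_lintegral_ofReal (hi g) (ae_of_all _ fun g' => abs_nonneg _)

lemma continuous_hM {η : ℝ} (hη : 0 < η) (b G : ℝ) (n : ℕ) (i k : Fin m) :
    Continuous fun q : Mat m × Vec m => hM b η G n q.1 q.2 i k := by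
  have hw : ∀ l, Continuous fun q : Mat m × Vec m => vw q.1 q.2 l :=
    fun l => continuous_const.sub ((continuous_mg l).pow 2)
  simp only [hM, hA]
  refine ((Continuous.sub ?_ ?_).add
    (continuous_const.mul ((continuous_mg i).mul (continuous_mg k))))
  · split_ifs
    · exact (continuous_const.div₀ ((hw i).add continuous_const) fun q =>
        (by linarith [vw_pos q.1 q.2 i] : vw q.1 q.2 i + η ≠ 0)).add
        (continuous_const.mul ((continuous_finsetSum _ fun l _ => hw l).div_const _))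
    · exact continuous_const
  · exact ((continuous_apply k).comp ((continuous_apply i).comp continuous_fst))

lemma continuous_step_iter {η : ℝ} (hη : 0 < η) (b G L : ℝ) (n : ℕ) :
    ∀ (j : ℕ) (i : Fin m),
      Continuous fun q : Mat m × Vec m => (step L (hM b η G n q.1 q.2))^[j] (mg q.1 q.2) i := by
  intro j
  induction j with
  | zero => exact continuous_mg
  | succ j ih =>
    intro i
    simp only [Function.iterate_succ_apply', step, mv, Pi.sub_apply, Pi.smul_apply, smul_eq_mul]
    exact (ih i).sub (continuous_const.mul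
      (continuous_finsetSum _ fun l _ => (continuous_hM hη b G n i l).mul (ih l)))

lemma continuous_yIt {η : ℝ} (hη : 0 < η) (b G L : ℝ) (n j : ℕ) (i : Fin m) :
    Continuous fun q : Mat m × Vec m => yIt b η G L n j q.1 q.2 i := by
  simp only [yIt, rich_eq_sum, Pi.smul_apply, Finset.sum_apply, smul_eq_mul]
  exact continuous_const.mul
    (continuous_finsetSum _ fun k _ => continuous_step_iter hη b G L n k i)

lemma continuous_avec {η : ℝ} (hη : 0 < η) (b G L : ℝ) (n j : ℕ) (k : Fin m) :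
    Continuous fun q : Mat m × Vec m => avec b η G L n j q.1 q.2 k := by
  simp only [avec, fvec, dt, Pi.smul_apply, Pi.sub_apply, Finset.sum_apply, smul_eq_mul]
  have hy := fun i l => continuous_yIt (m := m) hη b G L n i l
  have hs := fun i l => continuous_step_iter (m := m) hη b G L n i l
  have hm' := fun l => continuous_mg (m := m) l
  have hw : Continuous fun q : Mat m × Vec m => 2 * mg q.1 q.2 k / (vw q.1 q.2 k + η) ^ 2 :=
    (continuous_const.mul (hm' k)).div₀
      (((continuous_const.sub ((hm' k).pow 2)).add continuous_const).pow 2) fun q =>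
        pow_ne_zero 2 (by simpa [vw] using (by linarith [vw_pos q.1 q.2 k] : vw q.1 q.2 k + η ≠ 0))
  refine continuous_const.mul ((continuous_const.mul (hy j k)).sub (continuous_const.mul
    (continuous_finsetSum _ fun i _ => ?_)))
  exact (((hw.mul (hs _ k)).mul (hy i k)).sub ((continuous_const.mul (hm' k)).mul
    (continuous_finsetSum _ fun l _ => (hs _ l).mul (hy i l)))).add (continuous_const.mul
    (((continuous_finsetSum _ fun l _ => (hm' l).mul (hy i l)).mul (hs _ k)).add
      ((continuous_finsetSum _ fun l _ => (hm' l).mul (hs _ l)).mul (hy i k))))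

lemma continuous_bmat {η : ℝ} (hη : 0 < η) (b G L : ℝ) (n j : ℕ) (p r : Fin m) :
    Continuous fun q : Mat m × Vec m => bmat b η G L n j q.1 q.2 p r :=
  continuous_const.mul (continuous_const.mul (continuous_finsetSum _ fun i _ =>
    (continuous_step_iter hη b G L n _ p).mul (continuous_yIt hη b G L n i r)))

lemma continuous_pIt {η : ℝ} (hη : 0 < η) (b G L : ℝ) (n j : ℕ) :
    Continuous fun q : Mat m × Vec m => pIt b η G L n j q.1 q.2 :=
  (continuous_finsetSum _ fun i _ =>
    (continuous_mg i).mul (continuous_yIt hη b G L n j i)).div_const _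

/-- **Concentration of `p_j`.** -/
theorem conc_pIt {b η G L τ : ℝ} {n : ℕ} (hb : 0 < b) (hη : 0 < η) (hL : 0 < L) (hτ : 0 ≤ τ)
    (hn : 0 < n) (hmn : m ≤ n) (j : ℕ) :
    let p := fun g : Idx m → ℝ => pIt b η G L n j (plJ (b ^ 2 / n) g) (plU τ g)
    let R := fun J u => gradSize b τ n J u * √(sq1 (avec b η G L n j J u)) +
      4 * √(b ^ 2 / n) * √(sq2 (bmat b η G L n j J (u : Vec m)))
    Integrable p (gauss (Idx m)) ∧
    Integrable (fun g => R (plJ (b ^ 2 / n) g) (plU τ g)) (gauss (Idx m)) ∧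
    (∫⁻ g, ∫⁻ g', ENNReal.ofReal |p g - p g'| ∂gauss (Idx m) ∂gauss (Idx m) ≤
      ENNReal.ofReal 2 * ∫⁻ g, ENNReal.ofReal (R (plJ (b ^ 2 / n) g) (plU τ g)) ∂gauss (Idx m)) ∧
    (∫ g, ∫ g', |p g - p g'| ∂gauss (Idx m) ∂gauss (Idx m) ≤ 2 * pEv b n m τ R) := by
  obtain ⟨C1, h10, hC1⟩ := grad_global (b := b) (G := G) hη hL j
  obtain ⟨C2, h20, hC2⟩ := pIt_growth (b := b) (G := G) hη hL j
  have hpow : ∀ (J : Mat m) {C : ℝ} (k : ℕ), 0 ≤ C → k ≤ 2 * j → C ≤ max C1 C2 →
      C * (1 + op J) ^ k ≤ max C1 C2 * (1 + op J) ^ (2 * j) := fun J C k hC hk hle => by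
    have h1 : (1:ℝ) ≤ 1 + op J := le_add_of_nonneg_right (op_nonneg J)
    exact mul_le_mul hle (pow_le_pow_right₀ h1 hk) (by positivity) (hC.trans hle)
  exact conc_of_diff hb.le hτ hn hmn (A := avec b η G L n j) (B := bmat b η G L n j)
    (fun J u dJ dm t hs h1 h2 => hasDerivAt_pIt hη n j hs h1 h2) (continuous_pIt hη b G L n j)
    (continuous_avec hη b G L n j) (continuous_bmat hη b G L n j)
    (fun J u => (hC2 n m hn hmn J u).trans (hpow J j h20 (by omega) (le_max_right _ _)))
    (fun J u => (hC1 n m hn hmn J u).1.trans (hpow J _ h10 le_rfl (le_max_left _ _)))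
    (fun J u => (hC1 n m hn hmn J u).2.trans (hpow J _ h10 le_rfl (le_max_left _ _)))

/-- The `dm` part of the differential of `qAvg`. -/
noncomputable def qvec (η : ℝ) (n : ℕ) (J : Mat m) (u : Vec m) : Vec m := fun k =>
  2 * (mg J u k / (vw J u k + η)) * ((1 + mg J u k ^ 2 + η) / (vw J u k + η) ^ 2) / n

lemma hasDiff_qAvg {η : ℝ} (hη : 0 < η) (n : ℕ) :
    HasDiff (m := m) (qAvg η n) (qvec η n) (fun _ _ => 0) := by
  intro J u dJ dm t _ _ hm
  simp only [qAvg, qvec, vw, dt, Pi.zero_apply, zero_mul, sum_const_zero, add_zero]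
  have hne : ∀ k, 1 - mg (J t) (u t) k ^ 2 + η ≠ 0 := fun k => by
    have := vw_pos (J t) (u t) k
    simp only [vw] at this
    linarith
  refine ((HasDerivAt.fun_sum fun k _ => ((hm k).fun_div
    ((((hm k).fun_pow 2).const_sub 1).add_const η) (hne k)).fun_pow 2).div_const _).congr_deriv ?_
  rw [sum_div]
  refine sum_congr rfl fun k _ => ?_
  simp
  ring

lemma qvec_le {η : ℝ} (hη : 0 < η) {n : ℕ} (hn : 0 < n) (hmn : m ≤ n) (J : Mat m) (u : Vec m) :
    √(sq1 (qvec η n J u)) ≤ 2 * (2 + η) / η ^ 3 / √(n:ℝ) := by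
  have hn' : (0:ℝ) < n := Nat.cast_pos.2 hn
  set K := 2 * (2 + η) / η ^ 3
  have hK : 0 ≤ K := by positivity
  have hk : ∀ k, |qvec η n J u k| ≤ K / n := by
    intro k
    have hw := vw_pos J u k
    have hx := abs_mg_le J u k
    have hx2 : mg J u k ^ 2 ≤ 1 := by rw [← sq_abs]; exact pow_le_one₀ (abs_nonneg _) hx
    simp only [qvec]
    rw [abs_div, abs_mul, abs_mul, abs_two, abs_div, abs_div, Nat.abs_cast,
      abs_of_nonneg (sq_nonneg (vw J u k + η)), abs_of_pos (by linarith : 0 < vw J u k + η),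
      abs_of_pos (by positivity : 0 < 1 + mg J u k ^ 2 + η)]
    refine div_le_div_of_nonneg_right ?_ hn'.le
    calc 2 * (|mg J u k| / (vw J u k + η)) * ((1 + mg J u k ^ 2 + η) / (vw J u k + η) ^ 2)
        ≤ 2 * (1 / η) * ((2 + η) / η ^ 2) := by
          gcongr <;> linarith
      _ = K := by simp only [K]; field_simp
  calc √(sq1 (qvec η n J u)) ≤ √(∑ _k : Fin m, (K / n) ^ 2) :=
        Real.sqrt_le_sqrt (sum_le_sum fun k _ => by
          rw [← sq_abs]; exact pow_le_pow_left₀ (abs_nonneg _) (hk k) 2)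
    _ ≤ √(n * (K / n) ^ 2) := by
        refine Real.sqrt_le_sqrt ?_
        simp only [sum_const, card_univ, Fintype.card_fin, nsmul_eq_mul]
        gcongr
    _ = _ := by
        rw [Real.sqrt_mul hn'.le, Real.sqrt_sq (by positivity)]
        have := Real.sq_sqrt hn'.le
        field_simp
        rw [this, mul_comm]

/-- **Concentration of the averaged capped inverse variance.** -/
theorem conc_qAvg {b η τ : ℝ} {n : ℕ} (hb : 0 < b) (hη : 0 < η) (hτ : 0 ≤ τ) (hn : 0 < n)
    (hmn : m ≤ n) :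
    let p := fun g : Idx m → ℝ => qAvg η n (plJ (b ^ 2 / n) g) (plU τ g)
    Integrable p (gauss (Idx m)) ∧
    (∫⁻ g, ∫⁻ g', ENNReal.ofReal |p g - p g'| ∂gauss (Idx m) ∂gauss (Idx m) ≤
      ENNReal.ofReal (2 * (2 * (2 + η) / η ^ 3 / √(n:ℝ))) *
        ∫⁻ g, ENNReal.ofReal (gradSize b τ n (plJ (b ^ 2 / n) g) (plU τ g)) ∂gauss (Idx m)) ∧
    (∫ g, ∫ g', |p g - p g'| ∂gauss (Idx m) ∂gauss (Idx m) ≤
      2 * (2 * (2 + η) / η ^ 3 / √(n:ℝ)) * pEv b n m τ (gradSize b τ n)) := by
  intro p
  set K := 2 * (2 + η) / η ^ 3 / √(n:ℝ)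
  have hK : 0 ≤ K := by positivity
  have hn' : (0:ℝ) < n := Nat.cast_pos.2 hn
  have hw : ∀ k, Continuous fun q : Mat m × Vec m => vw q.1 q.2 k + η :=
    fun k => (continuous_const.sub ((continuous_mg k).pow 2)).add continuous_const
  have hne : ∀ (q : Mat m × Vec m) k, vw q.1 q.2 k + η ≠ 0 := fun q k => by
    linarith [vw_pos q.1 q.2 k]
  have hqc : Continuous fun q : Mat m × Vec m => qAvg η n q.1 q.2 :=
    (continuous_finsetSum _ fun k _ =>
      ((continuous_mg k).div₀ (hw k) fun q => hne q k).pow 2).div_const _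
  have hAc : ∀ k, Continuous fun q : Mat m × Vec m => qvec η n q.1 q.2 k := fun k =>
    ((continuous_const.mul ((continuous_mg k).div₀ (hw k) fun q => hne q k)).mul
      (((continuous_const.add ((continuous_mg k).pow 2)).add continuous_const).div₀ ((hw k).pow 2)
        fun q => pow_ne_zero 2 (hne q k))).div_const _
  set C := max K ((1 / η) ^ 2)
  obtain ⟨hp, -, hl, hi⟩ := conc_of_diff hb.le hτ hn hmn (hasDiff_qAvg hη n) hqc hAc
    (fun _ _ => continuous_const) (C := C) (K := 0) (fun J u => by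
      rw [pow_zero, mul_one]
      refine le_trans ?_ (le_max_right K _)
      rw [qAvg, abs_div, Nat.abs_cast, abs_of_nonneg (sum_nonneg fun k _ => sq_nonneg _),
        div_le_iff₀ hn']
      calc ∑ k, (mg J u k / (vw J u k + η)) ^ 2 ≤ ∑ _k : Fin m, (1 / η) ^ 2 :=
            sum_le_sum fun k _ => by
              have := vw_pos J u k
              rw [← sq_abs, abs_div, abs_of_pos (by linarith : 0 < vw J u k + η)]
              gcongr
              exacts [abs_mg_le J u k, by linarith]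
        _ ≤ _ := by
            simp only [sum_const, card_univ, Fintype.card_fin, nsmul_eq_mul]
            rw [mul_comm]
            gcongr)
    (fun J u => by rw [pow_zero, mul_one]; exact (qvec_le hη hn hmn J u).trans (le_max_left _ _))
    (fun J u => by
      rw [pow_zero, mul_one]
      refine le_trans (le_of_eq ?_) (hK.trans (le_max_left _ _))
      simp [sq2])
  have hz : √(sq2 (0 : Mat m)) = 0 := by simp [sq2]
  have hgs0 : ∀ J (u : Vec m), 0 ≤ gradSize b τ n J u := fun J u => by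
    have := op_nonneg (cm2 J u)
    unfold gradSize
    positivity
  have hpt : ∀ J (u : Vec m), gradSize b τ n J u * √(sq1 (qvec η n J u)) +
      4 * √(b ^ 2 / n) * √(sq2 (0 : Mat m)) ≤ K * gradSize b τ n J u := fun J u => by
    rw [hz, mul_zero, add_zero, mul_comm K]
    exact mul_le_mul_of_nonneg_left (qvec_le hη hn hmn J u) (hgs0 J u)
  refine ⟨hp, hl.trans ?_, hi.trans ?_⟩
  · calc _ ≤ ENNReal.ofReal 2 * ∫⁻ g, ENNReal.ofReal
          (K * gradSize b τ n (plJ (b ^ 2 / n) g) (plU τ g)) ∂gauss (Idx m) :=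
          mul_le_mul' le_rfl (lintegral_mono fun g => ENNReal.ofReal_le_ofReal (hpt _ _))
      _ = _ := by
          simp only [ENNReal.ofReal_mul hK]
          rw [lintegral_const_mul' _ _ ENNReal.ofReal_ne_top, ENNReal.ofReal_mul zero_le_two,
            mul_assoc]
  · rw [mul_assoc (2:ℝ) K]
    refine mul_le_mul_of_nonneg_left ?_ (by norm_num : (0:ℝ) ≤ 2)
    simp only [pEv]
    rw [← integral_const_mul]
    refine integral_mono_of_nonneg (ae_of_all _ fun g => ?_) ?_ (ae_of_all _ fun g => hpt _ _)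
    · exact (sqrt_nonneg _).trans (pull_norm_le hb.le hτ hn hmn _ _ _ _)
    · exact (integrable_planted (continuous_gradSize b τ n) (abs_gradSize_le b τ n) _ τ).const_mul K

end Vale.Agent.P150.Weak.YB
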