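import Vale.Agent.P150.Weak.YBound.Iter

/-!
The longitudinal scalar `p_j = m' y_j / n`, the two vectors of its differential, and the averaged
capped inverse variance.
-/

open MeasureTheory Finset Real

namespace Vale.Agent.P150.Weak.YB

open Gap

variable {m : ℕ}

/-- `y_j`, the iterate of `M y = m`. -/
noncomputable def yIt (b η G L : ℝ) (n j : ℕ) (J : Mat m) (u : Vec m) : Vec m :=
  rich L (hM b η G n J u) (mg J u) j

/-- `p_j = m' y_j / n`. -/
noncomputable def pIt (b η G L : ℝ) (n j : ℕ) (J : Mat m) (u : Vec m) : ℝ :=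
  dt (mg J u) (yIt b η G L n j J u) / n

/-- The `dm` part of `z' dM w`. -/
noncomputable def fvec (b η G : ℝ) (n : ℕ) (J : Mat m) (u : Vec m) (z w : Vec m) : Vec m :=
  fun k => 2 * mg J u k / (vw J u k + η) ^ 2 * z k * w k - 2 * (b ^ 2 / n) * mg J u k * dt z w +
    G / n * (dt (mg J u) w * z k + dt (mg J u) z * w k)

/-- The `dm` part of the differential of `p_j`. -/
noncomputable def avec (b η G L : ℝ) (n j : ℕ) (J : Mat m) (u : Vec m) : Vec m :=
  (n : ℝ)⁻¹ • ((2 : ℝ) • yIt b η G L n j J u - L⁻¹ • ∑ i ∈ range j,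
    fvec b η G n J u ((step L (hM b η G n J u))^[j - 1 - i] (mg J u)) (yIt b η G L n i J u))

/-- The `dJ` part of the differential of `p_j`. -/
noncomputable def bmat (b η G L : ℝ) (n j : ℕ) (J : Mat m) (u : Vec m) : Mat m :=
  fun a c => (n : ℝ)⁻¹ * (L⁻¹ * ∑ i ∈ range j,
    (step L (hM b η G n J u))^[j - 1 - i] (mg J u) a * yIt b η G L n i J u c)

/-- `n⁻¹ Σ (m_i / (w_i + η))²`. -/
noncomputable def qAvg (η : ℝ) (n : ℕ) (J : Mat m) (u : Vec m) : ℝ :=
  (∑ i, (mg J u i / (vw J u i + η)) ^ 2) / n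

/-- The size of the gradient of a function of the magnetisation with unit differential. -/
noncomputable def gradSize (b τ : ℝ) (n : ℕ) (J : Mat m) (u : Vec m) : ℝ :=
  (√τ + 4 * b) * op (cm2 J u) + 2 * √(b ^ 2 / n) * √(sq3 (cm3 J u))

end Vale.Agent.P150.Weak.YB
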