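import Vale.Agent.P150.Weak.YBound.Det

/-!
The penalised longitudinal equation `M y = m`, `M = A_η + G n⁻¹ m m'`, solved by a polynomial
(Richardson) iteration, and its exact relation with `v = C m` through linear response.
-/

open MeasureTheory Finset Real

namespace Vale.Agent.P150.Weak.YB

open Gap

variable {m : ℕ}

/-- `M = A_η + G n⁻¹ m m'`. -/
noncomputable def hM (b η G : ℝ) (n : ℕ) (J : Mat m) (u : Vec m) : Mat m :=
  fun i k => hA b η n J u i k + G / n * (mg J u i * mg J u k)

/-- One step `c ↦ c - L⁻¹ M c`. -/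
noncomputable def step (L : ℝ) (M : Mat m) (c : Vec m) : Vec m := c - L⁻¹ • mv M c

/-- The Richardson iterates. -/
noncomputable def rich (L : ℝ) (M : Mat m) (x : Vec m) : ℕ → Vec m
  | 0 => 0
  | j + 1 => rich L M x j + L⁻¹ • (x - mv M (rich L M x j))

/-- The residual `M y_j - x`. -/
noncomputable def rres (L : ℝ) (M : Mat m) (x : Vec m) (j : ℕ) : Vec m :=
  mv M (rich L M x j) - x

lemma rres_succ (L : ℝ) (M : Mat m) (x : Vec m) (j : ℕ) :
    rres L M x (j + 1) = step L M (rres L M x j) := by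
  simp only [rres, rich, step, mv_add, mv_smul, mv_sub]
  module

lemma rich_succ_sub (L : ℝ) (M : Mat m) (x : Vec m) (j : ℕ) :
    rich L M x (j + 1) - rich L M x j = -(L⁻¹ • rres L M x j) := by
  simp only [rres, rich]
  module

lemma rres_eq (L : ℝ) (M : Mat m) (x : Vec m) (j : ℕ) :
    rres L M x j = -((step L M)^[j] x) := by
  induction j with
  | zero =>
    have : mv M (0 : Vec m) = 0 := by funext i; simp [mv]
    simp [rres, rich, this]
  | succ j ih =>
    rw [rres_succ, ih, Function.iterate_succ_apply']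
    simp only [step]
    rw [← neg_one_smul ℝ ((step L M)^[j] x), mv_smul]
    module

/-- The iterate as the Neumann sum. -/
lemma rich_eq_sum (L : ℝ) (M : Mat m) (x : Vec m) (j : ℕ) :
    rich L M x j = L⁻¹ • ∑ k ∈ range j, (step L M)^[k] x := by
  induction j with
  | zero => simp [rich]
  | succ j ih =>
    rw [sum_range_succ, smul_add, ← ih, ← sub_eq_iff_eq_add', rich_succ_sub, rres_eq]
    module

/-- A symmetric step contracts. -/
lemma step_contract {L κ : ℝ} {M : Mat m} (hL : 0 < L) (hM : ∀ i k, M i k = M k i)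
    (hlo : ∀ v, κ * sq1 v ≤ dt v (mv M v)) (hhi : op M ≤ L) (c : Vec m) :
    √(sq1 (step L M c)) ≤ (1 - κ / L) * √(sq1 c) ∨ sq1 c = 0 := by
  set T := step L M
  have hq : ∀ v, 0 ≤ dt v (T v) ∧ dt v (T v) ≤ (1 - κ / L) * sq1 v := fun v => by
    have h1 := hlo v
    have h2 := (abs_le.1 (abs_dt_mv_self_le M v)).2
    have h3 : op M * sq1 v ≤ L * sq1 v := mul_le_mul_of_nonneg_right hhi (sq1_nonneg v)
    have e : dt v (T v) = sq1 v - L⁻¹ * dt v (mv M v) := by
      simp only [T, step, dt_sub_right, dt_smul_right, dt_self]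
    rw [e, div_eq_inv_mul, sub_mul, one_mul, mul_assoc]
    refine ⟨?_, sub_le_sub_left (mul_le_mul_of_nonneg_left h1 (inv_nonneg.2 hL.le)) _⟩
    have : L⁻¹ * dt v (mv M v) ≤ L⁻¹ * (L * sq1 v) :=
      mul_le_mul_of_nonneg_left (h2.trans h3) (inv_nonneg.2 hL.le)
    rw [inv_mul_cancel_left₀ hL.ne'] at this
    linarith
  rcases (sq1_nonneg c).eq_or_lt with hc | hc
  · exact .inr hc.symm
  refine .inl ?_
  have hlin : ∀ r : ℝ, T (c + r • T c) = T c + r • T (T c) := fun r => by
    simp only [T, step, mv_add, mv_smul, mv_sub]; module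
  have hsym : dt c (T (T c)) = sq1 (T c) := by
    have e : ∀ a d, dt a (T d) = dt (T a) d := fun a d => by
      simp only [T, step, dt_sub_right, dt_sub_left, dt_smul_right, dt_smul_left, dt_mv_symm hM]
    rw [e, dt_self]
  have hd := discrim_le_zero (a := dt (T c) (T (T c))) (b := 2 * sq1 (T c)) (c := dt c (T c))
    fun r => by
      have h := (hq (c + r • T c)).1
      rw [hlin] at h
      simp only [dt_add_left, dt_add_right, dt_smul_left, dt_smul_right, hsym, dt_self] at h
      linarith [(by ring : r * (r * dt (T c) (T (T c))) = dt (T c) (T (T c)) * (r * r))]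
  rw [discrim] at hd
  obtain ⟨h10, h11⟩ := hq c
  obtain ⟨h20, h21⟩ := hq (T c)
  have hρ : 0 ≤ 1 - κ / L := by
    by_contra h
    nlinarith
  have hkey : sq1 (T c) ^ 2 ≤ ((1 - κ / L) ^ 2 * sq1 c) * sq1 (T c) := by
    nlinarith [mul_le_mul h21 h11 h10 (mul_nonneg hρ (sq1_nonneg _))]
  have hb : sq1 (T c) ≤ (1 - κ / L) ^ 2 * sq1 c := by
    rcases (sq1_nonneg (T c)).eq_or_lt with h0 | h0
    · rw [← h0]; positivity
    · rw [sq] at hkey; exact le_of_mul_le_mul_right hkey h0
  refine (Real.sqrt_le_sqrt hb).trans_eq ?_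
  rw [Real.sqrt_mul (sq_nonneg _), Real.sqrt_sq hρ]

/-- The size of the iterated step. -/
lemma step_iter_le {L ρ : ℝ} {M : Mat m} (hρ : 0 ≤ ρ)
    (h : ∀ c, √(sq1 (step L M c)) ≤ ρ * √(sq1 c)) (x : Vec m) (k : ℕ) :
    √(sq1 ((step L M)^[k] x)) ≤ ρ ^ k * √(sq1 x) := by
  induction k with
  | zero => simp
  | succ k ih =>
    rw [Function.iterate_succ_apply', pow_succ', mul_assoc]
    exact (h _).trans (mul_le_mul_of_nonneg_left ih hρ)

lemma contract_all {L κ : ℝ} {M : Mat m} (hL : 0 < L) (hM : ∀ i k, M i k = M k i)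
    (hlo : ∀ v, κ * sq1 v ≤ dt v (mv M v)) (hhi : op M ≤ L) (c : Vec m) :
    √(sq1 (step L M c)) ≤ (1 - κ / L) * √(sq1 c) := by
  rcases step_contract hL hM hlo hhi c with h | h
  · exact h
  · have hc : c = 0 := funext fun i =>
      pow_eq_zero_iff two_ne_zero |>.1 ((sum_eq_zero_iff_of_nonneg fun i _ => sq_nonneg (c i)).1 h i (mem_univ i))
    have h0 : mv M (0 : Vec m) = 0 := by funext i; simp [mv]
    simp [hc, step, h0, sq1]

lemma norm_le_of_pd {κ : ℝ} {M : Mat m} (hκ : 0 < κ) (hlo : ∀ v, κ * sq1 v ≤ dt v (mv M v))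
    (y : Vec m) : √(sq1 y) ≤ √(sq1 (mv M y)) / κ := by
  rw [le_div_iff₀ hκ]
  have h := (hlo y).trans ((le_abs_self _).trans (abs_dt_le y (mv M y)))
  rcases (sqrt_nonneg (sq1 y)).eq_or_lt with h0 | h0
  · rw [← h0, zero_mul]; exact sqrt_nonneg _
  · refine le_of_mul_le_mul_left ?_ h0
    calc √(sq1 y) * (√(sq1 y) * κ) = κ * sq1 y := by
          rw [← mul_assoc, mul_self_sqrt (sq1_nonneg y), mul_comm]
      _ ≤ _ := h

section relation

variable (b η G : ℝ) (n : ℕ) (J : Mat m) (u : Vec m)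

lemma mv_hM (v : Vec m) :
    mv (hM b η G n J u) v = mv (hA b η n J u) v + (G / n * dt (mg J u) v) • mg J u := by
  funext i
  simp only [mv, hM, add_mul, sum_add_distrib, Pi.add_apply, Pi.smul_apply, smul_eq_mul, dt,
    mul_sum, sum_mul]
  congr 1
  exact sum_congr rfl fun j _ => by ring

lemma mv_hA'_hM (v : Vec m) :
    mv (hA' b η n J u) v = mv (hM b η G n J u) v - ((G + 2 * b ^ 2) / n * dt (mg J u) v) • mg J u := by
  rw [mv_hA', mv_hM]
  module

/-- The error in `s a = p + err`. -/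
noncomputable def errT (y r : Vec m) : ℝ :=
  (dt y (mv (resid b n J u) (mg J u)) + dt y (fun i => epsV b n J u i * vv J u i) - dt r (vv J u) -
    η * ∑ i, y i / (vw J u i + η) * brk J u i) / n

variable {b η G n J u}

/-- `s a = p + err` with `a = m'Cm / n`, `p = m'y / n`, `s = 1 - (G + 2 b²) p`. -/
theorem longitudinal (hη : 0 ≤ η) (hn : 0 < n) (hJ : IsCoupling J) {y r : Vec m}
    (hy : mv (hM b η G n J u) y = mg J u + r) :
    (1 - (G + 2 * b ^ 2) * (dt (mg J u) y / n)) * (dt (mg J u) (vv J u) / n) =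
      dt (mg J u) y / n + errT b η n J u y r := by
  have hv : mv (cm2 J u) (mg J u) = vv J u := rfl
  have h := congrArg (dt y) (resid_mv b n J u (mg J u))
  rw [hv, dt_sub_right, dt_add_right] at h
  have hAy := mv_hA'_hM b η G n J u y
  rw [hy] at hAy
  have hdiff : dt y (mv (hA' b 0 n J u) (vv J u)) = dt (vv J u) (mv (hA' b η n J u) y) +
      η * ∑ i, y i / (vw J u i + η) * brk J u i := by
    have hsymm : ∀ i k, hA' b η n J u i k = hA' b η n J u k i := fun i k => by
      simp only [hA', hA, hJ.symm i k, mul_comm (mg J u i), eq_comm (a := i) (b := k)]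
      split_ifs with h <;> simp [h]
    rw [dt_comm (vv J u), ← dt_mv_symm hsymm, mv_hA', mv_hA', dt_sub_right, dt_sub_right]
    simp only [mv_hA, dt, mul_sum, ← sum_sub_distrib, ← sum_add_distrib]
    refine sum_congr rfl fun i _ => ?_
    have hw := (vw_pos J u i).ne'
    have hw' : vw J u i + η ≠ 0 := by linarith [vw_pos J u i]
    simp only [brk, add_zero]
    field_simp
    ring
  rw [hdiff, hAy, dt_sub_right, dt_add_right, dt_smul_right, dt_comm y (mg J u),
    dt_comm (vv J u) (mg J u), dt_comm (vv J u) r] at h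
  rw [errT]
  have hn' : (n:ℝ) ≠ 0 := (Nat.cast_pos.2 hn).ne'
  field_simp at h ⊢
  linarith

/-- `M (s v - y)` exactly. -/
theorem longitudinal_diff (hη : 0 ≤ η) (hn : 0 < n) (hJ : IsCoupling J) {y r : Vec m}
    (hy : mv (hM b η G n J u) y = mg J u + r) :
    let s := 1 - (G + 2 * b ^ 2) * (dt (mg J u) y / n)
    mv (hM b η G n J u) (s • vv J u - y) =
      ((G + 2 * b ^ 2) * errT b η n J u y r) • mg J u +
        s • (mv (resid b n J u) (mg J u) + fun i => epsV b n J u i * vv J u i) - r -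
        s • (fun i => η / (vw J u i + η) * brk J u i) := by
  intro s
  have h := resid_mv b n J u (mg J u)
  rw [show mv (cm2 J u) (mg J u) = vv J u from rfl] at h
  have h0 : mv (hM b η G n J u) (vv J u) = mg J u + mv (resid b n J u) (mg J u) +
      (fun i => epsV b n J u i * vv J u i) - (fun i => η / (vw J u i + η) * brk J u i) +
      ((G + 2 * b ^ 2) * (dt (mg J u) (vv J u) / n)) • mg J u := by
    have hd : mv (hA' b η n J u) (vv J u) = mv (hA' b 0 n J u) (vv J u) -
        fun i => η / (vw J u i + η) * brk J u i := by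
      funext i
      simp only [mv_hA', mv_hA, Pi.sub_apply, Pi.smul_apply, smul_eq_mul, brk, add_zero]
      have hw := (vw_pos J u i).ne'
      have hw' : vw J u i + η ≠ 0 := by linarith [vw_pos J u i]
      field_simp
      ring
    rw [← h, show mv (hM b η G n J u) (vv J u) = mv (hA' b η n J u) (vv J u) +
      ((G + 2 * b ^ 2) / n * dt (mg J u) (vv J u)) • mg J u by rw [mv_hA'_hM b η G]; module, hd]
    module
  have hrel := longitudinal hη hn hJ hy
  rw [mv_sub, mv_smul, h0, hy]
  have e : s * ((G + 2 * b ^ 2) * (dt (mg J u) (vv J u) / n)) =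
      1 - s + (G + 2 * b ^ 2) * errT b η n J u y r := by
    rw [mul_left_comm, hrel]; simp only [s]; ring
  simp only [smul_add, smul_sub, smul_smul, e]
  module

/-- `y_i / (w_i + η)` through `brk`. -/
theorem beta_eq (hη : 0 ≤ η) (hn : 0 < n) (hJ : IsCoupling J) {y r : Vec m}
    (hy : mv (hM b η G n J u) y = mg J u + r) :
    let s := 1 - (G + 2 * b ^ 2) * (dt (mg J u) y / n)
    (fun i => y i / (vw J u i + η)) = s • brk J u +
      ((-2 * b ^ 2 * errT b η n J u y r) • mg J u + r +
        (b ^ 2 * sAvg n J u) • (s • vv J u - y) - mv J (s • vv J u - y) -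
        s • (mv (resid b n J u) (mg J u) + fun i => epsV b n J u i * vv J u i)) := by
  intro s
  funext i
  have h1 := congrFun hy i
  simp only [mv_hM, mv_hA, Pi.add_apply, Pi.smul_apply, smul_eq_mul] at h1
  have h2 := congrFun (resid_mv b n J u (mg J u)) i
  rw [show mv (cm2 J u) (mg J u) = vv J u from rfl] at h2
  simp only [mv_hA', mv_hA, Pi.add_apply, Pi.sub_apply, Pi.smul_apply, smul_eq_mul, add_zero] at h2
  have hrel := longitudinal hη hn hJ hy
  simp only [mv_sub, mv_smul, Pi.add_apply, Pi.sub_apply, Pi.smul_apply, smul_eq_mul, brk]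
  have hd : y i / (vw J u i + η) = 1 / (vw J u i + η) * y i := div_eq_mul_one_div _ _ |>.trans (mul_comm _ _)
  have hd' : vv J u i / vw J u i = 1 / vw J u i * vv J u i :=
    div_eq_mul_one_div _ _ |>.trans (mul_comm _ _)
  rw [hd, hd']
  have e : errT b η n J u y r =
      s * (dt (mg J u) (vv J u) / n) - dt (mg J u) y / n := by rw [hrel]; ring
  rw [e]
  simp only [s]
  linear_combination h1 - (1 - (G + 2 * b ^ 2) * (dt (mg J u) y / n)) * h2

end relation

end Vale.Agent.P150.Weak.YB
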