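import Vale.Agent.P150.Weak.YBound.Basic

/-!
The covariance norm is bounded in mean square on compact parameter sets: `YTightSpec`.
-/

open MeasureTheory ProbabilityTheory Finset Real

namespace Vale.Agent.P150.Weak.YB

open Gap

variable {m : ℕ}

private lemma kap_pos {b : ℝ} (hb0 : 0 < b) (hb1 : b < 1) : 0 < kap b := by
  unfold kap
  have : b ^ 2 < 1 := by nlinarith
  have : 0 < 1 - b ^ 2 := by linarith
  positivity

lemma coeff_le {β O κ a : ℝ} (hβ : 0 ≤ β) (hO : 0 ≤ O) (hκ : 0 < κ) (ha : 0 ≤ a) :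
    4 / κ * (O + 2 * β) + 8 / κ ^ 2 * (a + O) ^ 2 + 2 ≤
      (4 / κ * (1 + 2 * β) + 8 / κ ^ 2 * (a + 1) ^ 2 + 2) * (1 + O) ^ 2 := by
  have h1 : O + 2 * β ≤ (1 + 2 * β) * (1 + O) ^ 2 := by
    nlinarith [mul_nonneg hβ hO, mul_nonneg hβ (sq_nonneg O), sq_nonneg O]
  have h2 : (a + O) ^ 2 ≤ (a + 1) ^ 2 * (1 + O) ^ 2 := by
    rw [← mul_pow]
    refine pow_le_pow_left₀ (add_nonneg ha hO) ?_ 2
    linarith [mul_nonneg ha hO]
  have h3 : (2:ℝ) ≤ 2 * (1 + O) ^ 2 := by nlinarith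
  have h4 := mul_le_mul_of_nonneg_left h1 (by positivity : 0 ≤ 4 / κ)
  have h5 := mul_le_mul_of_nonneg_left h2 (by positivity : 0 ≤ 8 / κ ^ 2)
  rw [add_mul, add_mul, mul_assoc (4 / κ), mul_assoc (8 / κ ^ 2)]
  linarith

lemma pow_four_le {Q A O : ℝ} (hQ0 : 0 ≤ Q) (hO : 0 ≤ O)
    (hQ : Q ≤ A * (1 + O) ^ 2) : Q ^ 4 ≤ A ^ 4 * 128 * (1 + O ^ 8) := by
  calc Q ^ 4 ≤ (A * (1 + O) ^ 2) ^ 4 := pow_le_pow_left₀ hQ0 hQ 4
    _ = A ^ 4 * (1 + O) ^ 8 := by rw [mul_pow, ← pow_mul]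
    _ ≤ A ^ 4 * (2 ^ (8 - 1) * (1 ^ 8 + O ^ 8)) :=
      mul_le_mul_of_nonneg_left (add_pow_le zero_le_one hO 8) (by positivity)
    _ = _ := by norm_num; ring

lemma sq_split_le {K D R R2 S X Q Z : ℝ} (hR : R ^ 2 ≤ R2) (hZ : Q ^ 4 ≤ Z) :
    (K * (1 + R + S / D) + X * Q) ^ 2 ≤
      6 * K ^ 2 * (1 + R2) + 6 * (K / D) ^ 2 * S ^ 2 + (X ^ 4 + Z) := by
  have h1 := add_sq_le (a := K * (1 + R + S / D)) (b := X * Q)
  have h2 : (1 + R + S / D) ^ 2 ≤ 3 * (1 + R2 + (S / D) ^ 2) := by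
    nlinarith [sq_nonneg (1 - R), sq_nonneg (1 - S / D), sq_nonneg (R - S / D)]
  have h3 := mul_le_mul_of_nonneg_left h2 (sq_nonneg K)
  have h4 : 2 * (X * Q) ^ 2 ≤ X ^ 4 + Q ^ 4 := by nlinarith [sq_nonneg (X ^ 2 - Q ^ 2)]
  have e : 6 * K ^ 2 * (1 + R2) + 6 * (K / D) ^ 2 * S ^ 2 =
      2 * (K ^ 2 * (3 * (1 + R2 + (S / D) ^ 2))) := by ring
  rw [mul_pow K] at h1
  linarith

/-- The square of the bound of the covariance norm on the good event. -/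
lemma op_sq_good {b η κ c : ℝ} {n : ℕ} (hη : 0 < η) (hκ : 0 < κ) (hc : 0 < c) (hm : 0 < m)
    (hmn : m ≤ n) {J : Mat m} (hJ : IsCoupling J) (u : Vec m) (hne : c * n ≤ sq1 (mg J u))
    (hH : ∀ v : Vec m, ∑ i, v i * mg J u i = 0 →
      κ * sq1 v ≤ ∑ i, ∑ j, hA b η n J u i j * v i * v j) :
    op (cm2 J u) ^ 2 ≤
      6 * (4 / κ) ^ 2 * (1 + sq2 (resid b n J u)) +
        6 * (4 / κ / (κ / 4) ^ 3) ^ 2 * (∑ i, epsV b n J u i ^ 4) ^ 2 +
        ((c * n)⁻¹ ^ 4 * (∑ i, mg J u i * vv J u i) ^ 4 +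
          (4 / κ * (1 + 2 * b ^ 2) + 8 / κ ^ 2 * (1 / η + b ^ 2 + 1) ^ 2 + 2) ^ 4 * 128 *
            (1 + op J ^ 8)) := by
  have hcn : 0 < c * (n:ℝ) := mul_pos hc (Nat.cast_pos.2 (hm.trans_le hmn))
  have hne0 : 0 < sq1 (mg J u) := hcn.trans_le hne
  have h := op_cov_le hη hκ hm hmn hJ u hne0 hH
  have hJ0 : 0 ≤ op J := op_nonneg _
  have hV0 : 0 ≤ ∑ i, mg J u i * vv J u i := by
    show 0 ≤ dt (mg J u) (mv (cm2 J u) (mg J u))
    rw [dt_quad, cm2_quad]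
    exact ev_nonneg fun x => sq_nonneg _
  have hx : xe J u ≤ (c * n)⁻¹ * ∑ i, mg J u i * vv J u i := by
    rw [xe, div_eq_inv_mul]
    exact mul_le_mul_of_nonneg_right (inv_anti₀ hcn hne) hV0
  have hQ0 : 0 ≤ 4 / κ * (op J + 2 * b ^ 2) + 8 / κ ^ 2 * (1 / η + b ^ 2 + op J) ^ 2 + 2 := by
    positivity
  refine (pow_le_pow_left₀ (op_nonneg _) (h.trans (add_le_add le_rfl
    (mul_le_mul_of_nonneg_right hx hQ0))) 2).trans
    ((sq_split_le (op_sq_le_sq2 _) (pow_four_le hQ0 hJ0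
      (coeff_le (sq_nonneg b) hJ0 hκ (by positivity)))).trans_eq ?_)
  rw [mul_pow (c * (n:ℝ))⁻¹]

/-- `YTightSpec` from the overlap, crude, growth, coupling, Hessian and response specifications. -/
theorem yTight (b : ℝ) (hb0 : 0 < b) (hb1 : b < 1) (hO : OverlapSpec b) (hCr : CrudeSpec b)
    (hG : GrowSpec b) (hJ : JSpec b) (hH : HessSpec b) (hR : RespBoundSpec b) : YTightSpec b := by
  intro η Tm k hη
  obtain ⟨κo, Co, q, -, -, hq, hconc⟩ := hO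
  obtain ⟨c, hc, hcq⟩ := hq η Tm hη
  obtain ⟨C', c', hc', hconc⟩ := hconc (c / 4) (by positivity)
  obtain ⟨CG, hCG⟩ := hG
  obtain ⟨CV, hCV⟩ := hCr 4
  obtain ⟨CJ, hCJ⟩ := hJ.2 8
  obtain ⟨η₀, hη₀, hH⟩ := hH
  obtain ⟨CH, hCH⟩ := hH η₀ hη₀ le_rfl η Tm k hη
  obtain ⟨CR, hCR⟩ := hR Tm
  have hκ := kap_pos hb0 hb1
  set κ := kap b
  set A := 4 / κ * (1 + 2 * b ^ 2) + 8 / κ ^ 2 * (1 / η₀ + b ^ 2 + 1) ^ 2 + 2
  refine ⟨6 * (4 / κ) ^ 2 * (1 + |CR|) + 6 * (4 / κ / (κ / 4) ^ 3) ^ 2 * |CR| +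
    ((c / 2)⁻¹ ^ 4 * |CV| + A ^ 4 * 128 * (1 + |CJ|)) + (2 * CG ^ 2 +
      (|CH| + |C'| * (2 / c' ^ 2)) / 2), 4 * k + 1, fun n m τ hτη hτT hn hmn hnk => ?_⟩
  have hm : 0 < m := by omega
  have hn0 : 0 < n := hm.trans_le hmn
  have hn' : (0:ℝ) < n := Nat.cast_pos.2 hn0
  have hn1 : (1:ℝ) ≤ n := Nat.one_le_cast.2 hn0
  have hτ : 0 ≤ τ := hη.le.trans hτη
  have hP : (gauss (Idx m)).real
      ({g | ¬ ∀ v : Vec m, ∑ i, v i * mg (plJ (b ^ 2 / n) g) (plU τ g) i = 0 →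
          κ * sq1 v ≤ ∑ i, ∑ j, hA b η₀ n (plJ (b ^ 2 / n) g) (plU τ g) i j * v i * v j} ∪
        {g | c / 4 * n ≤ |sq1 (mg (plJ (b ^ 2 / n) g) (plU τ g)) - m * q n m τ|}) ≤
      |CH| / (n:ℝ) ^ 2 + |C'| * exp (-(c' * n)) :=
    pPr_union_le _ _
      ((hCH n m τ hτη hτT (by omega) hmn hnk).trans (div_le_div_of_nonneg_right (le_abs_self _)
        (by positivity)))
      ((hconc n m τ hτ hm hmn).trans (mul_le_mul_of_nonneg_right (le_abs_self _) (exp_pos _).le))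
  have hsplit := pEv_le_split (b := b) (n := n) (τ := τ)
    (F := fun J u => op (cm2 J u) ^ 2)
    (G := fun J u => 6 * (4 / κ) ^ 2 * (1 + sq2 (resid b n J u)) +
        6 * (4 / κ / (κ / 4) ^ 3) ^ 2 * (∑ i, epsV b n J u i ^ 4) ^ 2 +
        ((c / 2 * n)⁻¹ ^ 4 * (∑ i, mg J u i * vv J u i) ^ 4 + A ^ 4 * 128 * (1 + op J ^ 8)))
    (H := fun J u => ((2:ℝ) * n ^ 2)⁻¹ * sq2 (cm2 J u) ^ 2)
    (fun J u => sq_nonneg _)
    (((((Gr.const 1).add (gr_sq2_resid b n)).const_mul _).add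
      (((gr_sum_eps b n).pow 2).const_mul _)).add
      (((gr_dot_vv.pow 4).const_mul _).add
        (((Gr.const 1).add (gr_op_pow 4)).const_mul _)))
    ((gr_sq2_cm2.pow 2).const_mul _)
    (fun J u => by
      have := sq2_nonneg (resid b n J u)
      have := op_nonneg J
      have : 0 ≤ (∑ i, mg J u i * vv J u i) ^ 4 := Even.pow_nonneg (by decide) _
      positivity)
    hP (fun g hg => ?_) (c := (n:ℝ) ^ 2 / 2) (by positivity) (fun g => ?_)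
    (fun J u => by positivity)
  rotate_left
  · simp only [Set.mem_union, Set.mem_ofPred_eq, not_or, not_not, not_le] at hg
    refine op_sq_good hη₀ hκ (by positivity) hm hmn (isCoupling_plJ _ g) _ ?_ hg.1
    have h1 := (abs_lt.1 hg.2).1
    have h2 : c ≤ q n m τ := hcq n m τ hτη hτT hm hmn
    have h3 : 3 / 4 * (n:ℝ) ≤ m := by
      have : (4:ℝ) * k + 1 ≤ n := by exact_mod_cast hn
      have : (n:ℝ) ≤ m + k := by exact_mod_cast hnk
      linarith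
    have h4 := mul_le_mul h3 h2 hc.le (Nat.cast_nonneg m)
    linarith
  · refine (op_sq_le_sq2 _).trans ?_
    rw [inv_mul_eq_div, div_add_div _ _ (by positivity) two_ne_zero, le_div_iff₀ (by positivity)]
    nlinarith [sq_nonneg (sq2 (cm2 (plJ (b ^ 2 / n) g) (plU τ g)) - (n:ℝ) ^ 2)]
  refine hsplit.trans ((add_le_add (add_le_add ?_ ?_) ?_).trans_eq (add_assoc _ _ _))
  · rw [pEv_add' ((((Gr.const 1).add (gr_sq2_resid b n)).const_mul _).add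
        (((gr_sum_eps b n).pow 2).const_mul _))
        (((gr_dot_vv.pow 4).const_mul _).add (((Gr.const 1).add (gr_op_pow 4)).const_mul _)),
      pEv_add' (((Gr.const 1).add (gr_sq2_resid b n)).const_mul _)
        (((gr_sum_eps b n).pow 2).const_mul _),
      pEv_add' ((gr_dot_vv.pow 4).const_mul _) (((Gr.const 1).add (gr_op_pow 4)).const_mul _),
      pEv_mul_left, pEv_mul_left, pEv_mul_left, pEv_mul_left,
      pEv_add' (Gr.const 1) (gr_sq2_resid b n), pEv_add' (Gr.const 1) (gr_op_pow 4), pEv_const']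
    obtain ⟨hr1, hr2⟩ := hCR n m τ hτ hτT hn0 hmn
    have hv := (hCV n m τ hτ hn0 hmn).2.2.2.2.2.2.2.2
    have hj := hCJ n m τ hn0 hmn
    refine add_le_add (add_le_add ?_ ?_) (add_le_add ?_ ?_)
    · gcongr; exact hr1.trans (le_abs_self _)
    · refine mul_le_mul_of_nonneg_left (hr2.trans ((div_le_div_of_nonneg_right (le_abs_self _)
        (by positivity)).trans (div_le_self (abs_nonneg _) (one_le_pow₀ hn1)))) (by positivity)
    · refine (mul_le_mul_of_nonneg_left (hv.trans (mul_le_mul_of_nonneg_right (le_abs_self _)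
        (by positivity))) (by positivity)).trans_eq ?_
      field_simp
    · gcongr; exact hj.trans (le_abs_self _)
  · rw [pEv_mul_left]
    refine (mul_le_mul_of_nonneg_left (hCG n m 2 τ hτ one_le_two hn0 hmn).1 (by positivity)).trans_eq ?_
    push_cast
    field_simp
  · rw [div_mul_eq_mul_div, mul_add, mul_div_cancel₀ _ (by positivity), mul_left_comm]
    gcongr
    exact sq_mul_exp_le hc' hn'.le

end Vale.Agent.P150.Weak.YB
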